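import Mathlib

/-!
# P361 LRO, all spins: one-dimensional lemmas for the coarse step (helper494)

`φ w`, `ψ w`: averages over the window `w` at two neighbouring sites.  Only the differences
`φ w - ψ w'` with `2 ≤ |w - w'| ≤ 4` are controlled.
-/

namespace Vale.Agent.P361.LRO.GenS

open Finset

/-- The allowed pairs of windows. -/
def okW (w w' : ℕ) : Prop := (w + 2 ≤ w' ∧ w' ≤ w + 4) ∨ (w' + 2 ≤ w ∧ w ≤ w' + 4)

instance (w w' : ℕ) : Decidable (okW w w') := by unfold okW; infer_instance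

lemma okW_symm {w w' : ℕ} (h : okW w w') : okW w' w := by
  unfold okW at h ⊢
  omega

/-- Energy between the two columns. -/
noncomputable def DD (m : ℕ) (φ ψ : ℕ → ℝ) : ℝ :=
  ∑ w ∈ range m, ∑ w' ∈ range m, if okW w w' then (φ w - ψ w') ^ 2 else 0

/-- Row sums. -/
noncomputable def FF (m : ℕ) (φ ψ : ℕ → ℝ) (w : ℕ) : ℝ :=
  ∑ w' ∈ range m, if okW w w' then (φ w - ψ w') ^ 2 else 0

lemma FF_nonneg (m : ℕ) (φ ψ : ℕ → ℝ) (w : ℕ) : 0 ≤ FF m φ ψ w :=
  sum_nonneg fun _ _ => by split_ifs <;> positivity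

lemma DD_nonneg (m : ℕ) (φ ψ : ℕ → ℝ) : 0 ≤ DD m φ ψ :=
  sum_nonneg fun w _ => FF_nonneg m φ ψ w

lemma DD_eq (m : ℕ) (φ ψ : ℕ → ℝ) : DD m φ ψ = ∑ w ∈ range m, FF m φ ψ w := rfl

lemma DD_symm (m : ℕ) (φ ψ : ℕ → ℝ) : DD m ψ φ = DD m φ ψ := by
  unfold DD
  rw [sum_comm]
  refine sum_congr rfl fun w _ => sum_congr rfl fun w' _ => ?_
  by_cases h : okW w w'
  · rw [if_pos h, if_pos (okW_symm h)]; ring
  · rw [if_neg h, if_neg fun h' => h (okW_symm h')]

lemma le_FF {m : ℕ} (φ ψ : ℕ → ℝ) {w w' : ℕ} (hw' : w' < m) (h : okW w w') :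
    (φ w - ψ w') ^ 2 ≤ FF m φ ψ w := by
  unfold FF
  have := single_le_sum (f := fun w' => if okW w w' then (φ w - ψ w') ^ 2 else 0)
    (fun _ _ => by split_ifs <;> positivity) (mem_range.2 hw')
  simpa [h] using this

/-- Time differences. -/
lemma time_le {m : ℕ} (hm : 8 ≤ m) (φ ψ : ℕ → ℝ) :
    ∑ w ∈ range (m - 1), (φ (w + 1) - φ w) ^ 2 ≤ 4 * DD m φ ψ := by
  have hpt : ∀ w ∈ range (m - 1), (φ (w + 1) - φ w) ^ 2 ≤
      2 * FF m φ ψ (w + 1) + 2 * FF m φ ψ w := by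
    intro w hw
    rw [mem_range] at hw
    by_cases h : w + 3 < m
    · have h1 := le_FF (m := m) φ ψ (w := w + 1) (w' := w + 3) h (by unfold okW; omega)
      have h2 := le_FF (m := m) φ ψ (w := w) (w' := w + 3) h (by unfold okW; omega)
      nlinarith [sq_nonneg ((φ (w + 1) - ψ (w + 3)) + (φ w - ψ (w + 3)))]
    · have h1 := le_FF (m := m) φ ψ (w := w + 1) (w' := w - 2) (by omega) (by unfold okW; omega)
      have h2 := le_FF (m := m) φ ψ (w := w) (w' := w - 2) (by omega) (by unfold okW; omega)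
      nlinarith [sq_nonneg ((φ (w + 1) - ψ (w - 2)) + (φ w - ψ (w - 2)))]
  refine (sum_le_sum hpt).trans ?_
  rw [sum_add_distrib, ← mul_sum, ← mul_sum]
  have h1 : ∑ w ∈ range (m - 1), FF m φ ψ (w + 1) ≤ DD m φ ψ := by
    rw [DD_eq]
    obtain ⟨k, rfl⟩ : ∃ k, m = k + 1 := ⟨m - 1, by omega⟩
    rw [Nat.add_sub_cancel, sum_range_succ' (fun w => FF (k + 1) φ ψ w) k]
    linarith [FF_nonneg (k + 1) φ ψ 0]
  have h2 : ∑ w ∈ range (m - 1), FF m φ ψ w ≤ DD m φ ψ := by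
    rw [DD_eq]
    exact sum_le_sum_of_subset_of_nonneg (range_subset_range.2 (by omega))
      fun _ _ _ => FF_nonneg _ _ _ _
  linarith

lemma sum_shift_up {m : ℕ} (F : ℕ → ℝ) (hF : ∀ w, 0 ≤ F w) (d : ℕ) :
    ∑ w ∈ range m, (if w + d < m then F (w + d) else 0) ≤ ∑ w ∈ range m, F w := by
  rw [← sum_filter]
  have : ∑ w ∈ (range m).filter (fun w => w + d < m), F (w + d)
      = ∑ w ∈ ((range m).filter (fun w => w + d < m)).image (fun w => w + d), F w := by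
    rw [sum_image]
    intro a _ b _ h
    exact Nat.add_right_cancel h
  rw [this]
  refine sum_le_sum_of_subset_of_nonneg ?_ fun _ _ _ => hF _
  intro w hw
  rw [mem_image] at hw
  obtain ⟨v, hv, rfl⟩ := hw
  rw [mem_filter] at hv
  exact mem_range.2 hv.2

lemma sum_shift_down {m : ℕ} (F : ℕ → ℝ) (hF : ∀ w, 0 ≤ F w) (d : ℕ) :
    ∑ w ∈ range m, (if d ≤ w then F (w - d) else 0) ≤ ∑ w ∈ range m, F w := by
  rw [← sum_filter]
  have : ∑ w ∈ (range m).filter (fun w => d ≤ w), F (w - d)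
      = ∑ w ∈ ((range m).filter (fun w => d ≤ w)).image (fun w => w - d), F w := by
    rw [sum_image]
    intro a ha b hb h
    have h1 := (mem_filter.1 ha).2
    have h2 := (mem_filter.1 hb).2
    simp only at h
    omega
  rw [this]
  refine sum_le_sum_of_subset_of_nonneg ?_ fun _ _ _ => hF _
  intro w hw
  rw [mem_image] at hw
  obtain ⟨v, hv, rfl⟩ := hw
  rw [mem_filter, mem_range] at hv
  exact mem_range.2 (by omega)

/-- Space differences. -/
lemma space_le {m : ℕ} (hm : 8 ≤ m) (φ ψ : ℕ → ℝ) :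
    ∑ w ∈ range m, (φ w - ψ w) ^ 2 ≤ 12 * DD m φ ψ := by
  have hpt : ∀ w ∈ range m, (φ w - ψ w) ^ 2 ≤ 3 * (FF m φ ψ w
      + ((if w + 4 < m then FF m φ ψ (w + 4) else 0) + (if 4 ≤ w then FF m φ ψ (w - 4) else 0))
      + FF m ψ φ w) := by
    intro w hw
    rw [mem_range] at hw
    have key : ∀ p q : ℕ, p < m → q < m → okW w p → okW q p → okW w q →
        (φ w - ψ w) ^ 2 ≤ 3 * (FF m φ ψ w + FF m φ ψ q + FF m ψ φ w) := by
      intro p q hp hq h1 h2 h3
      have a1 := le_FF (m := m) φ ψ hp h1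
      have a2 := le_FF (m := m) φ ψ hp h2
      have a3 := le_FF (m := m) ψ φ hq h3
      have : (φ w - ψ w) ^ 2 ≤
          3 * ((φ w - ψ p) ^ 2 + (φ q - ψ p) ^ 2 + (ψ w - φ q) ^ 2) := by
        nlinarith [sq_nonneg ((φ w - ψ p) + (φ q - ψ p)), sq_nonneg ((φ w - ψ p) + (ψ w - φ q)),
          sq_nonneg ((φ q - ψ p) - (ψ w - φ q))]
      linarith
    by_cases h : w + 4 < m
    · have := key (w + 2) (w + 4) (by omega) h (by unfold okW; omega) (by unfold okW; omega)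
        (by unfold okW; omega)
      rw [if_pos h]
      have h0 : 0 ≤ (if 4 ≤ w then FF m φ ψ (w - 4) else 0) := by
        split_ifs
        · exact FF_nonneg _ _ _ _
        · exact le_rfl
      linarith
    · have := key (w - 2) (w - 4) (by omega) (by omega) (by unfold okW; omega)
        (by unfold okW; omega) (by unfold okW; omega)
      rw [if_neg h, if_pos (by omega)]
      linarith
  refine (sum_le_sum hpt).trans ?_
  rw [← mul_sum, sum_add_distrib, sum_add_distrib, sum_add_distrib, ← DD_eq, ← DD_eq]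
  have h3 := DD_symm m φ ψ
  have h1 := sum_shift_up (m := m) (FF m φ ψ) (FF_nonneg m φ ψ) 4
  have h2 := sum_shift_down (m := m) (FF m φ ψ) (FF_nonneg m φ ψ) 4
  rw [← DD_eq] at h1 h2
  linarith

/-- Sum over sites from edges. -/
lemma sum_site_le {S : ℕ} (hS : 2 ≤ S) (t : ℕ → ℝ) (ht : ∀ x, 0 ≤ t x) :
    ∑ x ∈ range S, t x ≤ ∑ x ∈ range (S - 1), (t x + t (x + 1)) := by
  obtain ⟨k, rfl⟩ : ∃ k, S = k + 2 := ⟨S - 2, by omega⟩
  rw [show k + 2 - 1 = k + 1 by omega, sum_add_distrib, sum_range_succ]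
  have : t (k + 1) ≤ ∑ x ∈ range (k + 1), t (x + 1) :=
    single_le_sum (f := fun x => t (x + 1)) (fun _ _ => ht _) (mem_range.2 (by omega))
  linarith

/-! ### Bundles -/

section bundle

variable {ι : Type} (B : Finset ι) (f g : ι → ℝ)

/-- Sum of all squared differences of two bundles. -/
noncomputable def QQ : ℝ := ∑ p ∈ B, ∑ q ∈ B, (f p - g q) ^ 2

/-- Mean. -/
noncomputable def mn : ℝ := (1 / (B.card : ℝ)) * ∑ p ∈ B, f p

variable {B f g}

lemma mn_sub_sq (hB : 0 < B.card) : ((B.card : ℝ)) ^ 2 * (mn B f - mn B g) ^ 2 ≤ QQ B f g := by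
  have hc : (0 : ℝ) < B.card := by exact_mod_cast hB
  have h1 : (B.card : ℝ) * (mn B f - mn B g) * B.card = ∑ p ∈ B, ∑ q ∈ B, (f p - g q) := by
    simp only [sum_sub_distrib, sum_const, nsmul_eq_mul, ← mul_sum]
    unfold mn
    field_simp
  have h2 : (∑ p ∈ B, ∑ q ∈ B, (f p - g q)) ^ 2 ≤ (B.card : ℝ) ^ 2 * QQ B f g := by
    rw [← sum_product']
    refine (sq_sum_le_card_mul_sum_sq (s := B ×ˢ B) (f := fun z => f z.1 - g z.2)).trans ?_
    rw [card_product]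
    unfold QQ
    rw [← sum_product']
    push_cast
    rw [pow_two]
  rw [← h1] at h2
  have h3 : ((B.card : ℝ) * (mn B f - mn B g) * B.card) ^ 2 =
      (B.card : ℝ) ^ 2 * ((B.card : ℝ) ^ 2 * (mn B f - mn B g) ^ 2) := by ring
  rw [h3] at h2
  exact le_of_mul_le_mul_left h2 (by positivity)

lemma dev_le_QQ (hB : 0 < B.card) :
    (B.card : ℝ) * ∑ p ∈ B, (f p - mn B f) ^ 2 ≤ QQ B f g := by
  have hc : (0 : ℝ) < B.card := by exact_mod_cast hB
  have hsum : ∑ p ∈ B, f p = B.card * mn B f := by unfold mn; field_simp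
  have h1 : ∀ t : ℝ, ∑ p ∈ B, (f p - mn B f) ^ 2 ≤ ∑ p ∈ B, (f p - t) ^ 2 := by
    intro t
    have : ∑ p ∈ B, (f p - t) ^ 2 = ∑ p ∈ B, (f p - mn B f) ^ 2 + B.card * (mn B f - t) ^ 2 := by
      have e : ∀ p, (f p - t) ^ 2 = (f p - mn B f) ^ 2 + (mn B f - t) ^ 2
          + 2 * (mn B f - t) * (f p - mn B f) := fun p => by ring
      simp only [e, sum_add_distrib, sum_const, nsmul_eq_mul, ← mul_sum, sum_sub_distrib, hsum]
      ring
    rw [this]
    nlinarith [mul_nonneg hc.le (sq_nonneg (mn B f - t))]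
  unfold QQ
  rw [sum_comm]
  have h2 : ∑ _q ∈ B, ∑ p ∈ B, (f p - mn B f) ^ 2 ≤ ∑ q ∈ B, ∑ p ∈ B, (f p - g q) ^ 2 :=
    sum_le_sum fun q _ => h1 (g q)
  rwa [sum_const, nsmul_eq_mul] at h2

lemma QQ_symm : QQ B g f = QQ B f g := by
  unfold QQ
  rw [sum_comm]
  exact sum_congr rfl fun p _ => sum_congr rfl fun q _ => by ring

lemma QQ_nonneg : 0 ≤ QQ B f g :=
  sum_nonneg fun _ _ => sum_nonneg fun _ _ => sq_nonneg _

end bundle

end Vale.Agent.P361.LRO.GenS
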