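import Vale.Agent.P361.LRO.Ind.Defs

/-!
# P361 LRO, all spins: block (6), definitions of the coarse step (helper494)

Nodes `(k, (x, i))`, `i : Fin s` the copy.  Only neighbour conductances are used.
-/

namespace Vale.Agent.P361.LRO.GenS

open Finset Vale.Agent.P361.LRO _root_.P361.LRO

noncomputable section

/-- Space-time nodes with copies. -/
abbrev NdS (n s N : ℕ) : Type := Fin (N + 1) × (Tor n × Fin s)

/-- Local information on the network `c` in the field `h` (output of block (4), all spins). -/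
structure LocalS (n s N W : ℕ) [NeZero n] (β K c1 : ℝ) (b : Finset (Tor n)) (h : Tor n → ℝ)
    (c : NdS n s N → NdS n s N → ℝ) : Prop where
  symm : ∀ u v, c u v = c v u
  nonneg : ∀ u v, 0 ≤ c u v
  tot : ∀ (k : Fin (N + 1)) (x : Tor n) (i : Fin s), k ≠ 0 →
    ∑ v, c (k, (x, i)) v ≤ β * h x / (2 * N)
  nbr : ∀ (k l : Fin (N + 1)) (x : Tor n) (e : Fin 3) (i j : Fin s), k ≠ 0 → l ≠ 0 →
    ((k : ℕ) + W ≤ l ∨ (l : ℕ) + W ≤ k) → (l : ℕ) ≤ k + 12 * W → (k : ℕ) ≤ l + 12 * W →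
    h x = 1 → h (x + Pi.single e 1) = 1 →
    c1 * (β / N) ^ 2 ≤ c (k, (x, i)) (l, (x + Pi.single e 1, j))
  contact : ∀ (k : Fin (N + 1)) (x : Tor n) (j : Fin s), k ≠ 0 → (k : ℕ) ≤ W → x ∈ b → h x = 1 →
    c1 * (K / b.card) * (β / N) ≤ ∑ i, c (0, (x, i)) (k, (x, j))

/-- Window parameters: `m` windows of length `β / m`. -/
structure WinS (β : ℝ) (m : ℕ) : Prop where
  pos : 0 < m
  lo : 1 / 16 ≤ β / m
  hi : β / m ≤ 1 / 12

/-- Average of `a` over the window `w` and all copies at the site `o + (x, y, z)`. -/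
def UUS (n s N W : ℕ) (o : Tor n) (a : NdS n s N → ℝ) (x y z w : ℕ) : ℝ :=
  (1 / ((W : ℝ) * s)) * ∑ j ∈ range W, ∑ i : Fin s, a (Ind.lay N W w j, (Ind.pt n o x y z, i))

/-- The deviation from the averages over `[0, S)³`. -/
def devS (n s N W m : ℕ) (o : Tor n) (S : ℕ) (a : NdS n s N → ℝ) : ℝ :=
  ∑ x ∈ range S, ∑ y ∈ range S, ∑ z ∈ range S, ∑ w ∈ range m,
    ∑ j ∈ range W, ∑ i : Fin s,
      (a (Ind.lay N W w j, (Ind.pt n o x y z, i)) - UUS n s N W o a x y z w) ^ 2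

/-- The nodes of the extra slice on the copies of `b`. -/
def hatS (n s N : ℕ) (b : Finset (Tor n)) : Finset (NdS n s N) := {0} ×ˢ (b ×ˢ univ)

/-- Electrode: all copies of the extra slice on `b` and of the physical nodes over a cube. -/
def EES (n s N : ℕ) [NeZero n] (o : Tor n) (b : Finset (Tor n)) (r : ℕ) : Finset (NdS n s N) :=
  hatS n s N b ∪ ((univ.filter fun k => k ≠ 0) ×ˢ (cube n o r ×ˢ univ))

/-- Ground: all copies of the physical nodes over the cube of side `r` at `o + (4 r, 0, 0)`. -/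
def GGS (n s N : ℕ) [NeZero n] (o : Tor n) (r : ℕ) : Finset (NdS n s N) :=
  (univ.filter fun k => k ≠ 0) ×ˢ (cube n (Ind.pt n o (4 * r) 0 0) r ×ˢ univ)

/-- Lowering the field (output of block (3)), all spins. -/
structure LowS (n s N : ℕ) [NeZero n] (β h0 lam ε : ℝ)
    (c : (Tor n → ℝ) → NdS n s N → NdS n s N → ℝ) : Prop where
  prim : ∀ h h' : Tor n → ℝ, Fam n h0 lam h → Fam n h0 lam h' → (∀ x, h' x ≤ h x) →
    ∀ E G : Finset (NdS n s N), Disjoint E G →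
    (∀ z ∈ E ∪ G, z.1 ≠ 0 → h' z.2.1 = h z.2.1) →
    ∀ S : ℝ, 1 ≤ β * S → ∑ x, (if h' x = h x then 0 else h x) ≤ S →
    ∀ A : ℝ, 0 ≤ A → Ind.LBn (c h) E G A →
      Ind.LBn (c h') E G ((β * S) ^ (-(4 * ε)) * A - 2 * s * ε)
  dual : 0 < h0 → h0 ≤ 1 → ∀ h' : Tor n → ℝ, Fam n h0 lam h' →
    ∀ (E : Finset (NdS n s N)) (q : NdS n s N → ℝ),
    (∀ z ∈ E, z.1 ≠ 0 → h' z.2.1 = 1) → (∀ z ∈ E, q z = 0) → (∀ x, q (0, x) = 0) →
    (∀ z, 0 ≤ q z) → ∑ z, q z = 1 →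
    ∀ R : ℝ, 0 ≤ R → Ind.RBn (c fun _ => 1) E q R →
      Ind.RBn (c h') E q (h0 ^ (-(4 * ε)) * (R + 8 * N / (β * h0) * ∑ z, (q z) ^ 2))

end

end Vale.Agent.P361.LRO.GenS
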