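import Vale.Agent.P361.LRO.GenS.CoarseDefs
import Vale.Agent.P361.LRO.GenS.CoarseA
import Vale.Agent.P361.LRO.Ind.GeoA
import Vale.Agent.P361.LRO.Ind.VolA

/-!
# P361 LRO, all spins: the coarse step of block (6) (helper494)
-/

namespace Vale.Agent.P361.LRO.GenS

open Finset Vale.Agent.P361.LRO _root_.P361.LRO

noncomputable section

/-- ordered pairs: at most twice the Dirichlet form -/
theorem pairs_le {X ι : Type} [Fintype X] [DecidableEq X] {c : X → X → ℝ}
    (hc : ∀ u v, 0 ≤ c u v) (a : X → ℝ) (s : Finset ι) (f g : ι → X)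
    (hinj : ∀ i ∈ s, ∀ i' ∈ s, f i = f i' → g i = g i' → i = i') :
    ∑ i ∈ s, c (f i) (g i) * (a (f i) - a (g i)) ^ 2 ≤ 2 * netK c a := by
  classical
  have h1 : ∑ i ∈ s, c (f i) (g i) * (a (f i) - a (g i)) ^ 2 =
      ∑ z ∈ s.image fun i => (f i, g i), c z.1 z.2 * (a z.1 - a z.2) ^ 2 := by
    rw [Finset.sum_image]
    intro i hi i' hi' h
    exact hinj i hi i' hi' (congrArg Prod.fst h) (congrArg Prod.snd h)
  have h4 : ∑ z ∈ s.image fun i => (f i, g i), c z.1 z.2 * (a z.1 - a z.2) ^ 2 ≤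
      ∑ z : X × X, c z.1 z.2 * (a z.1 - a z.2) ^ 2 :=
    Finset.sum_le_sum_of_subset_of_nonneg (Finset.subset_univ _)
      fun z _ _ => mul_nonneg (hc _ _) (sq_nonneg _)
  rw [← h1, Fintype.sum_prod_type] at h4
  unfold netK
  linarith

theorem lay_val {N W m w j : ℕ} (hN : N = m * W) (hw : w < m) (hj : j < W) :
    ((Ind.lay N W w j : Fin (N + 1)) : ℕ) = 1 + w * W + j := by
  have h1 : (w + 1) * W ≤ m * W := Nat.mul_le_mul_right _ hw
  have h2 : 1 + w * W + j < N + 1 := by rw [hN]; nlinarith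
  unfold Ind.lay
  rw [dif_pos h2]

theorem lay_ne {N W m w j : ℕ} (hN : N = m * W) (hw : w < m) (hj : j < W) :
    (Ind.lay N W w j : Fin (N + 1)) ≠ 0 := by
  intro h
  have := lay_val hN hw hj
  rw [h, Fin.val_zero] at this
  omega

theorem lay_inj {N W m w j w' j' : ℕ} (hN : N = m * W) (hw : w < m) (hj : j < W) (hw' : w' < m)
    (hj' : j' < W) (h : Ind.lay N W w j = Ind.lay N W w' j') : w = w' ∧ j = j' := by
  have h1 := lay_val hN hw hj
  have h2 := lay_val hN hw' hj'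
  rw [h, h2] at h1
  have h3 : w' * W + j' = w * W + j := by omega
  have h4 : w' = w := by
    have e1 : (j' + w' * W) / W = w' := by
      rw [Nat.add_mul_div_right _ _ (by omega), Nat.div_eq_of_lt hj', zero_add]
    have e2 : (j + w * W) / W = w := by
      rw [Nat.add_mul_div_right _ _ (by omega), Nat.div_eq_of_lt hj, zero_add]
    rw [← e1, ← e2, add_comm j', add_comm j, h3]
  subst h4
  exact ⟨rfl, by omega⟩

/-- The values over the window `w` at the site `X`. -/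
def bd {n s N : ℕ} (W : ℕ) (a : NdS n s N → ℝ) (X : Tor n) (w : ℕ) : ℕ × Fin s → ℝ :=
  fun p => a (Ind.lay N W w p.1, (X, p.2))

/-- The index set of a bundle. -/
def BB (s W : ℕ) : Finset (ℕ × Fin s) := range W ×ˢ univ

theorem card_BB (s W : ℕ) : ((BB s W).card : ℝ) = W * s := by
  unfold BB
  rw [card_product, card_range, card_univ, Fintype.card_fin]
  push_cast
  ring

theorem UUS_eq {n s N W : ℕ} (o : Tor n) (a : NdS n s N → ℝ) (x y z w : ℕ) :
    UUS n s N W o a x y z w = mn (BB s W) (bd W a (Ind.pt n o x y z) w) := by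
  unfold UUS mn
  rw [card_BB]
  unfold BB bd
  rw [sum_product]

/-- Energy between the columns over `X` and `X + e`. -/
def CQ {n s N : ℕ} (W m : ℕ) (a : NdS n s N → ℝ) (X Y : Tor n) : ℝ :=
  ∑ w ∈ range m, ∑ w' ∈ range m,
    if okW w w' then QQ (BB s W) (bd W a X w) (bd W a Y w') else 0

theorem CQ_nonneg {n s N : ℕ} (W m : ℕ) (a : NdS n s N → ℝ) (X Y : Tor n) : 0 ≤ CQ W m a X Y :=
  sum_nonneg fun _ _ => sum_nonneg fun _ _ => by
    split_ifs
    · exact QQ_nonneg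
    · exact le_rfl

theorem CQ_symm {n s N : ℕ} (W m : ℕ) (a : NdS n s N → ℝ) (X Y : Tor n) :
    CQ W m a Y X = CQ W m a X Y := by
  unfold CQ
  rw [sum_comm]
  refine sum_congr rfl fun w _ => sum_congr rfl fun w' _ => ?_
  by_cases h : okW w w'
  · rw [if_pos h, if_pos (okW_symm h), QQ_symm]
  · rw [if_neg h, if_neg fun h' => h (okW_symm h')]

/-- The energy of all edges in one direction. -/
theorem edge_energy {n s N W m : ℕ} [NeZero n] {β K c1 : ℝ} {b : Finset (Tor n)} {h : Tor n → ℝ}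
    {c : NdS n s N → NdS n s N → ℝ} (hW : 0 < W) (hN : N = m * W)
    (hc : LocalS n s N W β K c1 b h c) (I : Finset (Tor n)) (e : Fin 3)
    (h1 : ∀ x ∈ I, h x = 1) (h2 : ∀ x ∈ I, h (x + Pi.single e 1) = 1) (a : NdS n s N → ℝ) :
    c1 * (β / N) ^ 2 * ∑ X ∈ I, CQ W m a X (X + Pi.single e 1) ≤ 2 * netK c a := by
  classical
  set J : Finset (Tor n × (ℕ × ℕ) × ((ℕ × Fin s) × (ℕ × Fin s))) :=
    I ×ˢ ((range m ×ˢ range m).filter fun ww => okW ww.1 ww.2) ×ˢ (BB s W ×ˢ BB s W) with hJ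
  set f : Tor n × (ℕ × ℕ) × ((ℕ × Fin s) × (ℕ × Fin s)) → NdS n s N :=
    fun z => (Ind.lay N W z.2.1.1 z.2.2.1.1, (z.1, z.2.2.1.2)) with hf
  set g : Tor n × (ℕ × ℕ) × ((ℕ × Fin s) × (ℕ × Fin s)) → NdS n s N :=
    fun z => (Ind.lay N W z.2.1.2 z.2.2.2.1, (z.1 + Pi.single e 1, z.2.2.2.2)) with hg
  have hmem : ∀ z ∈ J, z.1 ∈ I ∧ z.2.1.1 < m ∧ z.2.1.2 < m ∧ okW z.2.1.1 z.2.1.2 ∧
      z.2.2.1.1 < W ∧ z.2.2.2.1 < W := by
    intro z hz
    simp only [hJ, BB, mem_product, mem_filter, mem_range, mem_univ, and_true] at hz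
    exact ⟨hz.1, hz.2.1.1.1, hz.2.1.1.2, hz.2.1.2, hz.2.2.1, hz.2.2.2⟩
  have hpairs := pairs_le hc.nonneg a J f g (by
    intro z hz z' hz' e1 e2
    obtain ⟨-, b1, b2, -, b3, b4⟩ := hmem z hz
    obtain ⟨-, b1', b2', -, b3', b4'⟩ := hmem z' hz'
    have q1 : Ind.lay N W z.2.1.1 z.2.2.1.1 = Ind.lay N W z'.2.1.1 z'.2.2.1.1 :=
      congrArg Prod.fst e1
    have q2 : (z.1, z.2.2.1.2) = (z'.1, z'.2.2.1.2) := congrArg Prod.snd e1
    have q3 : Ind.lay N W z.2.1.2 z.2.2.2.1 = Ind.lay N W z'.2.1.2 z'.2.2.2.1 :=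
      congrArg Prod.fst e2
    have q4 : (z.1 + Pi.single e 1, z.2.2.2.2) = (z'.1 + Pi.single e 1, z'.2.2.2.2) :=
      congrArg Prod.snd e2
    have r1 := lay_inj hN b1 b3 b1' b3' q1
    have r2 := lay_inj hN b2 b4 b2' b4' q3
    have r3 : z.1 = z'.1 := (Prod.mk.inj q2).1
    have r4 : z.2.2.1.2 = z'.2.2.1.2 := (Prod.mk.inj q2).2
    have r5 : z.2.2.2.2 = z'.2.2.2.2 := (Prod.mk.inj q4).2
    refine Prod.ext r3 (Prod.ext (Prod.ext r1.1 r2.1) (Prod.ext (Prod.ext r1.2 r4)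
      (Prod.ext r2.2 r5))))
  refine le_trans ?_ hpairs
  have hsum : ∑ X ∈ I, CQ W m a X (X + Pi.single e 1) = ∑ z ∈ J, (a (f z) - a (g z)) ^ 2 := by
    rw [hJ, sum_product]
    refine sum_congr rfl fun X _ => ?_
    unfold CQ
    rw [sum_product, sum_filter, sum_product]
    refine sum_congr rfl fun w _ => sum_congr rfl fun w' _ => ?_
    by_cases hok : okW w w'
    · rw [if_pos hok, if_pos hok, sum_product]
      rfl
    · rw [if_neg hok, if_neg hok]
  rw [hsum, mul_sum]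
  refine sum_le_sum fun z hz => ?_
  obtain ⟨b0, b1, b2, b5, b3, b4⟩ := hmem z hz
  refine mul_le_mul_of_nonneg_right ?_ (sq_nonneg _)
  have v1 := lay_val hN b1 b3
  have v2 := lay_val hN b2 b4
  refine hc.nbr _ _ z.1 e _ _ (lay_ne hN b1 b3) (lay_ne hN b2 b4) ?_ ?_ ?_ (h1 _ b0) (h2 _ b0)
  · rw [v1, v2]
    unfold okW at b5
    rcases b5 with ⟨h3, _⟩ | ⟨h3, _⟩
    · left
      have := Nat.mul_le_mul_right W h3
      nlinarith
    · right
      have := Nat.mul_le_mul_right W h3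
      nlinarith
  · rw [v1, v2]
    have h3 : z.2.1.2 ≤ z.2.1.1 + 4 := by unfold okW at b5; omega
    have := Nat.mul_le_mul_right W h3
    nlinarith
  · rw [v1, v2]
    have h3 : z.2.1.1 ≤ z.2.1.2 + 4 := by unfold okW at b5; omega
    have := Nat.mul_le_mul_right W h3
    nlinarith

/-- The edges of the box `[0, S)³` in the three directions. -/
theorem box_energy {n s N W m : ℕ} [NeZero n] {β K c1 : ℝ} {b : Finset (Tor n)} {h : Tor n → ℝ}
    {c : NdS n s N → NdS n s N → ℝ} (hW : 0 < W) (hN : N = m * W)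
    (hc : LocalS n s N W β K c1 b h c) (o : Tor n) (S : ℕ) (hS : S < n)
    (h1 : ∀ x ∈ cube n o S, h x = 1) (a : NdS n s N → ℝ) :
    (c1 * (β / N) ^ 2 * ∑ x ∈ range (S - 1), ∑ y ∈ range S, ∑ z ∈ range S,
      CQ W m a (Ind.pt n o x y z) (Ind.pt n o (x + 1) y z) ≤ 2 * netK c a) ∧
    (c1 * (β / N) ^ 2 * ∑ x ∈ range S, ∑ y ∈ range (S - 1), ∑ z ∈ range S,
      CQ W m a (Ind.pt n o x y z) (Ind.pt n o x (y + 1) z) ≤ 2 * netK c a) ∧
    (c1 * (β / N) ^ 2 * ∑ x ∈ range S, ∑ y ∈ range S, ∑ z ∈ range (S - 1),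
      CQ W m a (Ind.pt n o x y z) (Ind.pt n o x y (z + 1)) ≤ 2 * netK c a) := by
  classical
  have key : ∀ (e : Fin 3) (P : Finset (ℕ × ℕ × ℕ)),
      (∀ p ∈ P, p.1 < S ∧ p.2.1 < S ∧ p.2.2 < S) →
      (∀ p ∈ P, h (Ind.pt n o p.1 p.2.1 p.2.2 + Pi.single e 1) = 1) →
      c1 * (β / N) ^ 2 * ∑ p ∈ P, CQ W m a (Ind.pt n o p.1 p.2.1 p.2.2)
        (Ind.pt n o p.1 p.2.1 p.2.2 + Pi.single e 1) ≤ 2 * netK c a := by
    intro e P hP hP1
    have hinj : Set.InjOn (fun p : ℕ × ℕ × ℕ => Ind.pt n o p.1 p.2.1 p.2.2) P := by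
      intro p hp q hq hpq
      have a1 := hP p hp
      have a2 := hP q hq
      obtain ⟨e1, e2, e3⟩ := Ind.pt_inj o (by omega) (by omega) (by omega) (by omega)
        (by omega) (by omega) hpq
      exact Prod.ext e1 (Prod.ext e2 e3)
    have hE := edge_energy hW hN hc (P.image fun p => Ind.pt n o p.1 p.2.1 p.2.2) e
      (by
        intro x hx
        obtain ⟨p, hp, rfl⟩ := mem_image.1 hx
        have a1 := hP p hp
        exact h1 _ ((Ind.mem_cube_iff o _ S).2 ⟨_, a1.1, _, a1.2.1, _, a1.2.2, rfl⟩))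
      (by
        intro x hx
        obtain ⟨p, hp, rfl⟩ := mem_image.1 hx
        exact hP1 p hp) a
    rw [sum_image hinj] at hE
    exact hE
  have hin : ∀ x y z : ℕ, x < S → y < S → z < S → h (Ind.pt n o x y z) = 1 := fun x y z hx hy hz =>
    h1 _ ((Ind.mem_cube_iff o _ S).2 ⟨_, hx, _, hy, _, hz, rfl⟩)
  refine ⟨?_, ?_, ?_⟩
  · have := key 0 (range (S - 1) ×ˢ range S ×ˢ range S)
      (by intro p hp; simp only [mem_product, mem_range] at hp; omega)
      (by
        intro p hp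
        simp only [mem_product, mem_range] at hp
        rw [← (Ind.pt_succ o _ _ _).1]
        exact hin _ _ _ (by omega) (by omega) (by omega))
    rw [sum_product] at this
    simp only [sum_product] at this
    simpa only [(Ind.pt_succ o _ _ _).1] using this
  · have := key 1 (range S ×ˢ range (S - 1) ×ˢ range S)
      (by intro p hp; simp only [mem_product, mem_range] at hp; omega)
      (by
        intro p hp
        simp only [mem_product, mem_range] at hp
        rw [← (Ind.pt_succ o _ _ _).2.1]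
        exact hin _ _ _ (by omega) (by omega) (by omega))
    rw [sum_product] at this
    simp only [sum_product] at this
    simpa only [(Ind.pt_succ o _ _ _).2.1] using this
  · have := key 2 (range S ×ˢ range S ×ˢ range (S - 1))
      (by intro p hp; simp only [mem_product, mem_range] at hp; omega)
      (by
        intro p hp
        simp only [mem_product, mem_range] at hp
        rw [← (Ind.pt_succ o _ _ _).2.2]
        exact hin _ _ _ (by omega) (by omega) (by omega))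
    rw [sum_product] at this
    simp only [sum_product] at this
    simpa only [(Ind.pt_succ o _ _ _).2.2] using this

/-- column energies of the means -/
theorem DD_le_CQ {n s N W m : ℕ} (hW : 0 < W) (hs : 0 < s) (o : Tor n) (a : NdS n s N → ℝ)
    (x y z x' y' z' : ℕ) :
    ((W : ℝ) * s) ^ 2 * DD m (UUS n s N W o a x y z) (UUS n s N W o a x' y' z') ≤
      CQ W m a (Ind.pt n o x y z) (Ind.pt n o x' y' z') := by
  have hB : 0 < (BB s W).card := by
    unfold BB
    rw [card_product, card_range, card_univ, Fintype.card_fin]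
    positivity
  unfold DD CQ
  rw [mul_sum]
  refine sum_le_sum fun w _ => ?_
  rw [mul_sum]
  refine sum_le_sum fun w' _ => ?_
  by_cases hok : okW w w'
  · rw [if_pos hok, if_pos hok, UUS_eq, UUS_eq, ← card_BB]
    exact mn_sub_sq hB
  · rw [if_neg hok, if_neg hok, mul_zero]

theorem site_sum3 {S : ℕ} (hS2 : 2 ≤ S) (D R : ℕ → ℕ → ℕ → ℝ) (k : ℝ) (hk : 0 ≤ k)
    (hD : ∀ x y z, 0 ≤ D x y z) (h1 : ∀ x y z, k * D x y z ≤ R x y z)
    (h2 : ∀ x y z, k * D (x + 1) y z ≤ R x y z) :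
    k * ∑ x ∈ range S, ∑ y ∈ range S, ∑ z ∈ range S, D x y z ≤
      2 * ∑ x ∈ range (S - 1), ∑ y ∈ range S, ∑ z ∈ range S, R x y z := by
  have h3 := sum_site_le hS2 (fun x => ∑ y ∈ range S, ∑ z ∈ range S, D x y z)
    (fun x => sum_nonneg fun _ _ => sum_nonneg fun _ _ => hD _ _ _)
  refine (mul_le_mul_of_nonneg_left h3 hk).trans ?_
  rw [mul_sum, mul_sum]
  refine sum_le_sum fun x _ => ?_
  rw [← sum_add_distrib, mul_sum, mul_sum]
  refine sum_le_sum fun y _ => ?_
  rw [← sum_add_distrib, mul_sum, mul_sum]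
  refine sum_le_sum fun z _ => ?_
  rw [mul_add]
  have t1 := h1 x y z
  have t2 := h2 x y z
  linarith

/-- **coarse energy**. -/
theorem E4S_le {n s N W m : ℕ} [NeZero n] {β K c1 : ℝ} {b : Finset (Tor n)} {h : Tor n → ℝ}
    {c : NdS n s N → NdS n s N → ℝ} (hs : 0 < s) (hW : 0 < W) (hm : 8 ≤ m) (hN : N = m * W)
    (hc1 : 0 < c1) (hc : LocalS n s N W β K c1 b h c) (o : Tor n) (S : ℕ)
    (hS2 : 2 ≤ S) (hS : S < n) (h1 : ∀ x ∈ cube n o S, h x = 1) (a : NdS n s N → ℝ) :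
    c1 * (β / m) ^ 2 * s ^ 2 * Ind.E4 S m (UUS n s N W o a) ≤ 100 * netK c a := by
  obtain ⟨hx, hy, hz⟩ := box_energy hW hN hc o S hS h1 a
  set U := UUS n s N W o a with hU
  set TX := ∑ x ∈ range (S - 1), ∑ y ∈ range S, ∑ z ∈ range S, DD m (U x y z) (U (x + 1) y z)
    with hTX
  set TY := ∑ x ∈ range S, ∑ y ∈ range (S - 1), ∑ z ∈ range S, DD m (U x y z) (U x (y + 1) z)
    with hTY
  set TZ := ∑ x ∈ range S, ∑ y ∈ range S, ∑ z ∈ range (S - 1), DD m (U x y z) (U x y (z + 1))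
    with hTZ
  have hsp : Ind.Esp S m U ≤ 12 * (TX + TY + TZ) := by
    unfold Ind.Esp
    rw [mul_add, mul_add, hTX, hTY, hTZ]
    simp only [mul_sum (a := (12 : ℝ))]
    refine add_le_add (add_le_add ?_ ?_) ?_
    · refine sum_le_sum fun x _ => sum_le_sum fun y _ => sum_le_sum fun z _ => ?_
      refine le_trans (le_of_eq ?_) (space_le hm (U x y z) (U (x + 1) y z))
      exact sum_congr rfl fun w _ => by ring
    · refine sum_le_sum fun x _ => sum_le_sum fun y _ => sum_le_sum fun z _ => ?_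
      refine le_trans (le_of_eq ?_) (space_le hm (U x y z) (U x (y + 1) z))
      exact sum_congr rfl fun w _ => by ring
    · refine sum_le_sum fun x _ => sum_le_sum fun y _ => sum_le_sum fun z _ => ?_
      refine le_trans (le_of_eq ?_) (space_le hm (U x y z) (U x y (z + 1)))
      exact sum_congr rfl fun w _ => by ring
  have hti : Ind.Eti S m U ≤ 8 * TX := by
    have h4 := site_sum3 hS2 (fun x y z => ∑ w ∈ range (m - 1), (U x y z (w + 1) - U x y z w) ^ 2)
      (fun x y z => 4 * DD m (U x y z) (U (x + 1) y z)) 1 zero_le_one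
      (fun x y z => sum_nonneg fun _ _ => sq_nonneg _)
      (fun x y z => by rw [one_mul]; exact time_le hm (U x y z) (U (x + 1) y z))
      (fun x y z => by
        rw [one_mul, ← DD_symm]
        exact time_le hm (U (x + 1) y z) (U x y z))
    rw [one_mul] at h4
    refine h4.trans (le_of_eq ?_)
    rw [hTX]
    simp only [← mul_sum]
    ring
  -- passing to `CQ`
  have hA : ((W : ℝ) * s) ^ 2 * TX ≤ ∑ x ∈ range (S - 1), ∑ y ∈ range S, ∑ z ∈ range S,
      CQ W m a (Ind.pt n o x y z) (Ind.pt n o (x + 1) y z) := by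
    rw [hTX, mul_sum]
    refine sum_le_sum fun x _ => ?_
    rw [mul_sum]
    refine sum_le_sum fun y _ => ?_
    rw [mul_sum]
    exact sum_le_sum fun z _ => DD_le_CQ hW hs o a _ _ _ _ _ _
  have hB : ((W : ℝ) * s) ^ 2 * TY ≤ ∑ x ∈ range S, ∑ y ∈ range (S - 1), ∑ z ∈ range S,
      CQ W m a (Ind.pt n o x y z) (Ind.pt n o x (y + 1) z) := by
    rw [hTY, mul_sum]
    refine sum_le_sum fun x _ => ?_
    rw [mul_sum]
    refine sum_le_sum fun y _ => ?_
    rw [mul_sum]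
    exact sum_le_sum fun z _ => DD_le_CQ hW hs o a _ _ _ _ _ _
  have hC : ((W : ℝ) * s) ^ 2 * TZ ≤ ∑ x ∈ range S, ∑ y ∈ range S, ∑ z ∈ range (S - 1),
      CQ W m a (Ind.pt n o x y z) (Ind.pt n o x y (z + 1)) := by
    rw [hTZ, mul_sum]
    refine sum_le_sum fun x _ => ?_
    rw [mul_sum]
    refine sum_le_sum fun y _ => ?_
    rw [mul_sum]
    exact sum_le_sum fun z _ => DD_le_CQ hW hs o a _ _ _ _ _ _
  have hq : 0 ≤ c1 * (β / N) ^ 2 := by positivity
  have hA' := (mul_le_mul_of_nonneg_left hA hq).trans hx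
  have hB' := (mul_le_mul_of_nonneg_left hB hq).trans hy
  have hC' := (mul_le_mul_of_nonneg_left hC hq).trans hz
  have hm0 : (0 : ℝ) < m := by exact_mod_cast (by omega : 0 < m)
  have hW0 : (0 : ℝ) < W := by exact_mod_cast hW
  have e1 : c1 * (β / m) ^ 2 * s ^ 2 = c1 * (β / N) ^ 2 * ((W : ℝ) * s) ^ 2 := by
    rw [hN]
    push_cast
    field_simp
  rw [e1]
  have hq2 : 0 ≤ c1 * (β / N) ^ 2 * ((W : ℝ) * s) ^ 2 := by positivity
  have hE4 : Ind.E4 S m U ≤ 12 * (TX + TY + TZ) + 8 * TX := by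
    unfold Ind.E4
    linarith
  have hfin := mul_le_mul_of_nonneg_left hE4 hq2
  have hK : 0 ≤ netK c a := netK_nonneg hc.nonneg a
  nlinarith

/-- deviations in one column -/
theorem dev_col_le {n s N W m : ℕ} (hW : 0 < W) (hs : 0 < s) (hm : 8 ≤ m) (o : Tor n)
    (a : NdS n s N → ℝ) (x y z : ℕ) (Y : Tor n) :
    ((W : ℝ) * s) * ∑ w ∈ range m, ∑ j ∈ range W, ∑ i : Fin s,
      (a (Ind.lay N W w j, (Ind.pt n o x y z, i)) - UUS n s N W o a x y z w) ^ 2 ≤
      CQ W m a (Ind.pt n o x y z) Y := by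
  have hB : 0 < (BB s W).card := by
    unfold BB
    rw [card_product, card_range, card_univ, Fintype.card_fin]
    positivity
  unfold CQ
  rw [mul_sum]
  refine sum_le_sum fun w hw => ?_
  rw [mem_range] at hw
  obtain ⟨w', hw', hok⟩ : ∃ w' < m, okW w w' := by
    by_cases h : w + 2 < m
    · exact ⟨w + 2, h, by unfold okW; omega⟩
    · exact ⟨w - 2, by omega, by unfold okW; omega⟩
  have h1 : QQ (BB s W) (bd W a (Ind.pt n o x y z) w) (bd W a Y w') ≤
      ∑ w' ∈ range m, if okW w w' then QQ (BB s W) (bd W a (Ind.pt n o x y z) w) (bd W a Y w')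
        else 0 := by
    have := single_le_sum (f := fun w' => if okW w w' then
      QQ (BB s W) (bd W a (Ind.pt n o x y z) w) (bd W a Y w') else 0)
      (fun _ _ => by
        split_ifs
        · exact QQ_nonneg
        · exact le_rfl) (mem_range.2 hw')
    simpa [hok] using this
  refine le_trans ?_ h1
  have h2 := dev_le_QQ (B := BB s W) (f := bd W a (Ind.pt n o x y z) w) (g := bd W a Y w') hB
  rw [card_BB, ← UUS_eq] at h2
  refine le_trans (le_of_eq ?_) h2
  unfold BB bd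
  rw [sum_product]

/-- **deviations**. -/
theorem devS_le {n s N W m : ℕ} [NeZero n] {β K c1 : ℝ} {b : Finset (Tor n)} {h : Tor n → ℝ}
    {c : NdS n s N → NdS n s N → ℝ} (hs : 0 < s) (hW : 0 < W) (hm : 8 ≤ m) (hN : N = m * W)
    (hc1 : 0 < c1) (hc : LocalS n s N W β K c1 b h c) (o : Tor n) (S : ℕ)
    (hS2 : 2 ≤ S) (hS : S < n) (h1 : ∀ x ∈ cube n o S, h x = 1) (a : NdS n s N → ℝ) :
    c1 * (β / m) * (β / N) * s * devS n s N W m o S a ≤ 4 * netK c a := by
  obtain ⟨hx, -, -⟩ := box_energy hW hN hc o S hS h1 a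
  have hdev : ((W : ℝ) * s) * devS n s N W m o S a ≤
      2 * ∑ x ∈ range (S - 1), ∑ y ∈ range S, ∑ z ∈ range S,
        CQ W m a (Ind.pt n o x y z) (Ind.pt n o (x + 1) y z) :=
    site_sum3 hS2 (fun x y z => ∑ w ∈ range m, ∑ j ∈ range W, ∑ i : Fin s,
      (a (Ind.lay N W w j, (Ind.pt n o x y z, i)) - UUS n s N W o a x y z w) ^ 2)
      (fun x y z => CQ W m a (Ind.pt n o x y z) (Ind.pt n o (x + 1) y z)) ((W : ℝ) * s)
      (by positivity)
      (fun x y z => sum_nonneg fun _ _ => sum_nonneg fun _ _ => sum_nonneg fun _ _ => sq_nonneg _)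
      (fun x y z => dev_col_le hW hs hm o a x y z (Ind.pt n o (x + 1) y z))
      (fun x y z => by
        have t2 := dev_col_le hW hs hm o a (x + 1) y z (Ind.pt n o x y z)
        rwa [CQ_symm] at t2)
  have hm0 : (0 : ℝ) < m := by exact_mod_cast (by omega : 0 < m)
  have hW0 : (0 : ℝ) < W := by exact_mod_cast hW
  have e1 : c1 * (β / m) * (β / N) * s = c1 * (β / N) ^ 2 * ((W : ℝ) * s) := by
    rw [hN]
    push_cast
    field_simp
  rw [e1, mul_assoc]
  have hq : 0 ≤ c1 * (β / N) ^ 2 := by positivity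
  have := mul_le_mul_of_nonneg_left hdev hq
  linarith

/-- **contact energy**. -/
theorem contactS_le {n s N W m : ℕ} [NeZero n] {β K c1 : ℝ} {b : Finset (Tor n)} {h : Tor n → ℝ}
    {c : NdS n s N → NdS n s N → ℝ} (hW : 0 < W) (hm : 0 < m) (hN : N = m * W)
    (hc : LocalS n s N W β K c1 b h c)
    (h1 : ∀ x ∈ b, h x = 1) (a : NdS n s N → ℝ) (ha : ∀ x ∈ b, ∀ i, a (0, (x, i)) = 1) :
    c1 * K * (β / N) * (1 / b.card) * (∑ x ∈ b, ∑ j ∈ range W, ∑ i : Fin s,
      (1 - a (Ind.lay N W 0 j, (x, i))) ^ 2) ≤ 2 * netK c a := by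
  classical
  have hlay : ∀ j ∈ range W, ((Ind.lay N W 0 j : Fin (N + 1)) : ℕ) = 1 + j := by
    intro j hj
    rw [lay_val hN hm (mem_range.1 hj)]
    ring
  have hpairs := pairs_le hc.nonneg a (b ×ˢ range W ×ˢ (univ : Finset (Fin s)) ×ˢ (univ : Finset (Fin s)))
    (fun z => ((0 : Fin (N + 1)), (z.1, z.2.2.2))) (fun z => (Ind.lay N W 0 z.2.1, (z.1, z.2.2.1)))
    (by
      intro z hz z' hz' e1 e2
      simp only [mem_product, mem_univ, and_true] at hz hz'
      have q1 : (z.1, z.2.2.2) = (z'.1, z'.2.2.2) := congrArg Prod.snd e1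
      have q2 : Ind.lay N W 0 z.2.1 = Ind.lay N W 0 z'.2.1 := congrArg Prod.fst e2
      have q3 : (z.1, z.2.2.1) = (z'.1, z'.2.2.1) := congrArg Prod.snd e2
      have r1 := hlay _ hz.2
      have r2 := hlay _ hz'.2
      rw [q2, r2] at r1
      exact Prod.ext (Prod.mk.inj q1).1 (Prod.ext (by omega)
        (Prod.ext (Prod.mk.inj q3).2 (Prod.mk.inj q1).2)))
  refine le_trans ?_ hpairs
  rw [sum_product, mul_sum]
  refine sum_le_sum fun x hx => ?_
  rw [sum_product, mul_sum]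
  refine sum_le_sum fun j hj => ?_
  rw [sum_product, mul_sum]
  refine sum_le_sum fun i _ => ?_
  have hk0 : (Ind.lay N W 0 j : Fin (N + 1)) ≠ 0 := by
    intro h
    have := hlay j hj
    rw [h, Fin.val_zero] at this
    omega
  have h3 := hc.contact (Ind.lay N W 0 j) x i hk0
    (by rw [hlay j hj]; have := mem_range.1 hj; omega) hx (h1 x hx)
  have h4 : ∑ i' : Fin s, c (0, (x, i')) (Ind.lay N W 0 j, (x, i)) *
      (a (0, (x, i')) - a (Ind.lay N W 0 j, (x, i))) ^ 2 =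
      (∑ i' : Fin s, c (0, (x, i')) (Ind.lay N W 0 j, (x, i))) *
        (1 - a (Ind.lay N W 0 j, (x, i))) ^ 2 := by
    rw [sum_mul]
    exact sum_congr rfl fun i' _ => by rw [ha x hx i']
  rw [h4]
  refine le_trans (le_of_eq ?_) (mul_le_mul_of_nonneg_right h3 (sq_nonneg _))
  ring

/-- The number of nodes with `a < 1/2` over a cube. -/
theorem card_lowS_le {n s N W m : ℕ} [NeZero n] (hW : 0 < W) (hN : N = m * W)
    (o : Tor n) (S : ℕ) (a : NdS n s N → ℝ) :
    ((((univ.filter fun k => k ≠ 0) ×ˢ (cube n o S ×ˢ univ) : Finset (NdS n s N)).filter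
      fun z => a z < 1 / 2).card : ℝ) ≤
    64 * devS n s N W m o S a + W * s * Ind.cnt S m (5 / 8) (UUS n s N W o a) := by
  classical
  set I : Finset (ℕ × ℕ × ℕ × ℕ × ℕ × Fin s) :=
    range S ×ˢ range S ×ˢ range S ×ˢ range m ×ˢ range W ×ˢ univ with hI
  set F : ℕ × ℕ × ℕ × ℕ × ℕ × Fin s → NdS n s N :=
    fun p => (Ind.lay N W p.2.2.2.1 p.2.2.2.2.1, (Ind.pt n o p.1 p.2.1 p.2.2.1, p.2.2.2.2.2))
    with hF
  have hsub : (((univ.filter fun k => k ≠ 0) ×ˢ (cube n o S ×ˢ univ) : Finset (NdS n s N)).filter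
      fun z => a z < 1 / 2) ⊆ (I.filter fun p => a (F p) < 1 / 2).image F := by
    rintro ⟨k, X, i⟩ hz
    rw [mem_filter, mem_product, mem_product] at hz
    obtain ⟨⟨hk, hX, -⟩, hlt⟩ := hz
    obtain ⟨x, hx, y, hy, z, hz', w, hw, j, hj, hEq⟩ := Ind.va655_node hW hN o S
      (z := (k, X)) (mem_product.2 ⟨hk, hX⟩)
    have e1 : k = Ind.lay N W w j := congrArg Prod.fst hEq
    have e2 : X = Ind.pt n o x y z := congrArg Prod.snd hEq
    subst e1 e2
    rw [mem_image]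
    refine ⟨(x, y, z, w, j, i), ?_, rfl⟩
    rw [mem_filter]
    refine ⟨?_, hlt⟩
    simp only [hI, mem_product, mem_range, mem_univ, and_true]
    exact ⟨hx, hy, hz', hw, hj⟩
  have hcard : ((((univ.filter fun k => k ≠ 0) ×ˢ (cube n o S ×ˢ univ) :
      Finset (NdS n s N)).filter fun z => a z < 1 / 2).card : ℝ) ≤
      ∑ p ∈ I, if a (F p) < 1 / 2 then (1 : ℝ) else 0 := by
    have h1 := (card_le_card hsub).trans card_image_le
    rw [sum_boole]
    exact_mod_cast h1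
  refine hcard.trans ?_
  have hle : ∑ p ∈ I, (if a (F p) < 1 / 2 then (1 : ℝ) else 0) ≤
      ∑ p ∈ I, (64 * (a (F p) - UUS n s N W o a p.1 p.2.1 p.2.2.1 p.2.2.2.1) ^ 2 +
        if UUS n s N W o a p.1 p.2.1 p.2.2.1 p.2.2.2.1 < 5 / 8 then 1 else 0) :=
    sum_le_sum fun p _ => Ind.va655_pt
  refine hle.trans (le_of_eq ?_)
  rw [hI, sum_product]
  simp only [sum_product]
  unfold Ind.cnt devS
  rw [mul_sum, mul_sum, ← sum_add_distrib]
  refine sum_congr rfl fun x _ => ?_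
  rw [mul_sum, mul_sum, ← sum_add_distrib]
  refine sum_congr rfl fun y _ => ?_
  rw [mul_sum, mul_sum, ← sum_add_distrib]
  refine sum_congr rfl fun z _ => ?_
  rw [mul_sum, mul_sum, ← sum_add_distrib]
  refine sum_congr rfl fun w _ => ?_
  simp only [sum_add_distrib, mul_sum]
  congr 1
  by_cases h : UUS n s N W o a x y z w < 5 / 8
  · simp [h]
  · simp [h]

end

end Vale.Agent.P361.LRO.GenS
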