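import Vale.Agent.P361.LRO.Defs

/-!
# P361, all spins: the limit of infinitely many intra site edges

`A ≥ 0`, `P` the orthogonal projection onto `ker A`, `A B = B A`. Then
`Tr (exp (-b (B + m A)) C) → Tr (P exp (-b B) C)` as `m → ∞`.
-/

namespace Vale.Agent.P361.LRO.GenS.Lim

open Matrix Filter Topology

variable {ι : Type*} [Fintype ι] [DecidableEq ι]

theorem tendsto_exp_neg (b d : ℝ) (hb : 0 < b) (hd : 0 ≤ d) :
    Tendsto (fun m : ℕ => Real.exp (-(b * m) * d)) atTop (𝓝 (if d = 0 then 1 else 0)) := by
  by_cases h : d = 0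
  · simp [h]
  · have hd' : 0 < d := lt_of_le_of_ne hd (Ne.symm h)
    rw [if_neg h]
    have h1 : Tendsto (fun m : ℕ => (b * d) * (m : ℝ)) atTop atTop :=
      Tendsto.const_mul_atTop (by positivity) tendsto_natCast_atTop_atTop
    have h2 : Tendsto (fun m : ℕ => Real.exp (-((b * d) * (m : ℝ)))) atTop (𝓝 0) :=
      Real.tendsto_exp_neg_atTop_nhds_zero.comp h1
    refine h2.congr fun m => ?_
    congr 1
    ring

/-- The spectral form of the exponential of a multiple of a symmetric matrix. -/
theorem exp_spec (A : Matrix ι ι ℝ) (hA : A.IsHermitian) (c : ℝ) :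
    NormedSpace.exp (c • A) = (hA.eigenvectorUnitary : Matrix ι ι ℝ) *
      diagonal (fun i => Real.exp (c * hA.eigenvalues i)) *
        (star (hA.eigenvectorUnitary : Matrix ι ι ℝ)) := by
  set U : Matrix ι ι ℝ := (hA.eigenvectorUnitary : Matrix ι ι ℝ) with hU
  have hUU : U * star U = 1 := Unitary.coe_mul_star_self hA.eigenvectorUnitary
  have hUU' : star U * U = 1 := Unitary.coe_star_mul_self hA.eigenvectorUnitary
  have hsp : A = U * diagonal (fun i => hA.eigenvalues i) * star U := by
    have := hA.spectral_theorem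
    simpa [hU, Unitary.conjStarAlgAut_apply, Function.comp_def] using this
  have hcA : c • A = U * diagonal (fun i => c * hA.eigenvalues i) * star U := by
    conv_lhs => rw [hsp]
    rw [← Matrix.smul_mul, ← Matrix.mul_smul, ← diagonal_smul]
    rfl
  have hunit : IsUnit U := by
    exact ⟨⟨U, star U, hUU, hUU'⟩, rfl⟩
  have hinv : U⁻¹ = star U := Matrix.inv_eq_right_inv hUU
  rw [hcA, ← hinv, Matrix.exp_conj _ _ hunit, Matrix.exp_diagonal]
  congr 2
  ext i
  rw [Pi.exp_def]
  simp [← Real.exp_eq_exp_ℝ]

/-- `exp (-(b m) A)` tends to the projection onto the kernel of `A`. -/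
theorem tendsto_exp_proj (A P : Matrix ι ι ℝ) (hA : A.PosSemidef) (hP : P.IsSymm)
    (hAP : A * P = 0) (hker : ∀ v, A *ᵥ v = 0 → P *ᵥ v = v) {b : ℝ} (hb : 0 < b) :
    Tendsto (fun m : ℕ => NormedSpace.exp (-(b * m) • A)) atTop (𝓝 P) := by
  have hH := hA.isHermitian
  set U : Matrix ι ι ℝ := (hH.eigenvectorUnitary : Matrix ι ι ℝ) with hU
  have hUU : U * star U = 1 := Unitary.coe_mul_star_self hH.eigenvectorUnitary
  have hUU' : star U * U = 1 := Unitary.coe_star_mul_self hH.eigenvectorUnitary
  set D : Matrix ι ι ℝ := diagonal (fun i => if hH.eigenvalues i = 0 then (1 : ℝ) else 0) with hD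
  set Q : Matrix ι ι ℝ := U * D * star U with hQ
  have hsp : A = U * diagonal (fun i => hH.eigenvalues i) * star U := by
    have := hH.spectral_theorem
    simpa [hU, Unitary.conjStarAlgAut_apply, Function.comp_def] using this
  have hlim : Tendsto (fun m : ℕ => NormedSpace.exp (-(b * m) • A)) atTop (𝓝 Q) := by
    have h1 : Tendsto (fun m : ℕ => (diagonal (fun i => Real.exp (-(b * m) * hH.eigenvalues i)) :
        Matrix ι ι ℝ)) atTop (𝓝 D) := by
      have h2 : Tendsto (fun m : ℕ => (fun i => Real.exp (-(b * m) * hH.eigenvalues i)))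
          atTop (𝓝 (fun i => if hH.eigenvalues i = 0 then (1 : ℝ) else 0)) :=
        tendsto_pi_nhds.mpr fun i => tendsto_exp_neg b _ hb (hA.eigenvalues_nonneg i)
      exact (Continuous.matrix_diagonal continuous_id).continuousAt.tendsto.comp h2
    have h3 := (tendsto_const_nhds (x := U)).mul (h1.mul (tendsto_const_nhds (x := star U)))
    refine (h3.congr fun m => ?_).trans ?_
    · rw [exp_spec A hH, ← hU, Matrix.mul_assoc]
    · rw [← Matrix.mul_assoc]
  have hAQ : A * Q = 0 := by
    rw [hsp, hQ]
    have : U * diagonal (fun i => hH.eigenvalues i) * star U * (U * D * star U) =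
        U * (diagonal (fun i => hH.eigenvalues i) * ((star U * U) * D)) * star U := by
      simp only [Matrix.mul_assoc]
    rw [this, hUU', Matrix.one_mul, hD, diagonal_mul_diagonal]
    have h0 : (diagonal fun i => hH.eigenvalues i *
        (if hH.eigenvalues i = 0 then (1 : ℝ) else 0)) = (0 : Matrix ι ι ℝ) := by
      rw [← diagonal_zero]
      congr 1
      ext i
      by_cases h : hH.eigenvalues i = 0 <;> simp [h]
    rw [h0]
    simp
  have hPQ : P * Q = Q := by
    ext i j
    have h1 : A *ᵥ (fun k => Q k j) = 0 := by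
      ext k
      have := congrFun (congrFun hAQ k) j
      simpa [Matrix.mul_apply, Matrix.mulVec, dotProduct] using this
    have h2 := congrFun (hker _ h1) i
    simpa [Matrix.mul_apply, Matrix.mulVec, dotProduct] using h2
  have hQP : Q * P = P := by
    have hcomm : ∀ m : ℕ, NormedSpace.exp (-(b * m) • A) * P = P := by
      intro m
      have hcA : (-(b * m) • A) * P = 0 := by rw [Matrix.smul_mul, hAP, smul_zero]
      rw [exp_spec A hH]
      have hAUP : ∀ i j, hH.eigenvalues i = 0 ∨ (star U * P) i j = 0 := by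
        intro i j
        have h4 : diagonal (fun i => hH.eigenvalues i) * (star U * P) = 0 := by
          have h5 : star U * (A * P) = 0 := by rw [hAP, Matrix.mul_zero]
          rw [hsp] at h5
          have h6 : star U * (U * diagonal (fun i => hH.eigenvalues i) * star U * P) =
              (star U * U) * (diagonal (fun i => hH.eigenvalues i) * (star U * P)) := by
            simp only [Matrix.mul_assoc]
          rw [h6, hUU', Matrix.one_mul] at h5
          exact h5
        have h7 := congrFun (congrFun h4 i) j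
        rw [diagonal_mul] at h7
        simpa using h7
      have h8 : diagonal (fun i => Real.exp (-(b * m) * hH.eigenvalues i)) * (star U * P) =
          star U * P := by
        ext i j
        rw [diagonal_mul]
        rcases hAUP i j with h | h
        · rw [h]; simp
        · rw [h]; simp
      rw [← hU, Matrix.mul_assoc, Matrix.mul_assoc, h8, ← Matrix.mul_assoc, hUU, Matrix.one_mul]
    have h1 : Tendsto (fun m : ℕ => NormedSpace.exp (-(b * m) • A) * P) atTop (𝓝 (Q * P)) :=
      hlim.mul tendsto_const_nhds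
    have h2 : Tendsto (fun m : ℕ => NormedSpace.exp (-(b * m) • A) * P) atTop (𝓝 P) := by
      have h3 : (fun m : ℕ => NormedSpace.exp (-(b * m) • A) * P) = fun _ => P :=
        funext hcomm
      rw [h3]
      exact tendsto_const_nhds
    exact tendsto_nhds_unique h1 h2
  have hQs : Qᵀ = Q := by
    rw [hQ, Matrix.transpose_mul, Matrix.transpose_mul, hD, diagonal_transpose, ← Matrix.mul_assoc]
    congr 1
  have hPeq : P = Q := by
    have h1 : Pᵀ = P := hP
    have h2 : (Q * P)ᵀ = Pᵀ := by rw [hQP]
    rw [Matrix.transpose_mul, h1, hQs, hPQ] at h2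
    exact h2.symm
  rw [hPeq]
  exact hlim

theorem tendsto_exp_proj' (A P : Matrix ι ι ℝ) (hA : A.PosSemidef) (_hPP : P * P = P)
    (hP : Pᵀ = P) (hAP : A * P = 0) (hker : ∀ v, A *ᵥ v = 0 → P *ᵥ v = v) {t : ℝ} (ht : 0 < t) :
    Tendsto (fun m : ℕ => NormedSpace.exp (-((m : ℝ) * t) • A)) atTop (𝓝 P) := by
  simpa only [mul_comm] using tendsto_exp_proj A P hA hP hAP hker ht

/-- The limit inside a trace. -/
theorem tendsto_trace_proj (A B C P : Matrix ι ι ℝ) (hA : A.PosSemidef) (hP : P.IsSymm)
    (hAP : A * P = 0) (hker : ∀ v, A *ᵥ v = 0 → P *ᵥ v = v) (hAB : Commute A B) {b : ℝ}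
    (hb : 0 < b) :
    Tendsto (fun m : ℕ => trace (NormedSpace.exp (-b • (B + (m : ℝ) • A)) * C)) atTop
      (𝓝 (trace (P * NormedSpace.exp (-b • B) * C))) := by
  have h1 := tendsto_exp_proj A P hA hP hAP hker hb
  have h2 : ∀ m : ℕ, NormedSpace.exp (-b • (B + (m : ℝ) • A)) =
      NormedSpace.exp (-(b * m) • A) * NormedSpace.exp (-b • B) := by
    intro m
    rw [← Matrix.exp_add_of_commute]
    · congr 1
      rw [smul_add, smul_smul, add_comm]
      congr 2
      ring
    · exact (hAB.smul_left _).smul_right _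
  simp only [h2]
  have h3 : Tendsto (fun m : ℕ => NormedSpace.exp (-(b * m) • A) * NormedSpace.exp (-b • B) * C)
      atTop (𝓝 (P * NormedSpace.exp (-b • B) * C)) :=
    (h1.mul tendsto_const_nhds).mul tendsto_const_nhds
  exact (Continuous.matrix_trace continuous_id).continuousAt.tendsto.comp h3

section Phys

variable {V : Type} [Fintype V] [DecidableEq V]

theorem swapM_transpose (x y : V) : (swapM x y)ᵀ = swapM x y := by
  ext σ τ
  simp only [Matrix.transpose_apply, swapM, Matrix.of_apply]
  congr 1
  apply propext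
  constructor
  · rintro rfl
    ext z
    simp [Function.comp]
  · rintro rfl
    ext z
    simp [Function.comp]

theorem swapM_sq (x y : V) : swapM x y * swapM x y = 1 := by
  ext σ τ
  rw [Matrix.mul_apply]
  simp only [swapM, Matrix.of_apply, Matrix.one_apply]
  rw [Finset.sum_eq_single (σ ∘ Equiv.swap x y)]
  · have h1 : σ = (σ ∘ Equiv.swap x y) ∘ Equiv.swap x y := by
      ext z; simp [Function.comp]
    rw [if_pos h1, one_mul]
    congr 1
    apply propext
    constructor
    · intro h
      ext z
      have := congrFun h (Equiv.swap x y z)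
      simpa [Function.comp] using congrArg Fin.val this
    · rintro rfl
      rfl
  · intro ρ _ hρ
    rw [if_neg, zero_mul]
    rintro rfl
    apply hρ
    ext z
    simp [Function.comp]
  · intro h
    exact absurd (Finset.mem_univ _) h

theorem hM_transpose (x y : V) : (hM x y)ᵀ = hM x y := by
  simp [hM, swapM_transpose]

theorem hM_sq (x y : V) : hM x y * hM x y = hM x y := by
  have h : (1 - swapM x y) * (1 - swapM x y) = (2 : ℝ) • (1 - swapM x y) := by
    have h1 : (1 - swapM x y) * (1 - swapM x y) =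
        1 - swapM x y - swapM x y + swapM x y * swapM x y := by noncomm_ring
    rw [h1, swapM_sq, two_smul]
    abel
  rw [hM, Matrix.smul_mul, Matrix.mul_smul, h, smul_smul, smul_smul]
  norm_num

theorem hM_posSemidef (x y : V) : (hM x y).PosSemidef := by
  have h : hM x y = (hM x y)ᴴ * hM x y := by
    rw [Matrix.conjTranspose_eq_transpose_of_trivial, hM_transpose, hM_sq]
  rw [h]
  exact Matrix.posSemidef_conjTranspose_mul_self _

theorem sum_hM_posSemidef (E : List (V × V)) : (E.map fun e => hM e.1 e.2).sum.PosSemidef := by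
  induction E with
  | nil => simpa using Matrix.PosSemidef.zero
  | cons e E ih => simpa using (hM_posSemidef e.1 e.2).add ih

/-- The kernel of `∑ h_e` consists of the vectors invariant under all the exchanges. -/
theorem ker_sum_hM (E : List (V × V)) (v : (V → Fin 2) → ℝ)
    (hv : (E.map fun e => hM e.1 e.2).sum *ᵥ v = 0) :
    ∀ e ∈ E, swapM e.1 e.2 *ᵥ v = v := by
  have hq : ∀ E : List (V × V), v ⬝ᵥ ((E.map fun e => hM e.1 e.2).sum *ᵥ v) =
      (E.map fun e => (hM e.1 e.2 *ᵥ v) ⬝ᵥ (hM e.1 e.2 *ᵥ v)).sum := by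
    intro E
    induction E with
    | nil => simp
    | cons e E ih =>
      simp only [List.map_cons, List.sum_cons, Matrix.add_mulVec, dotProduct_add, ih]
      congr 1
      conv_lhs => rw [← hM_sq, ← Matrix.mulVec_mulVec, Matrix.dotProduct_mulVec,
        ← Matrix.mulVec_transpose, hM_transpose]
  have h0 := hq E
  rw [hv, dotProduct_zero] at h0
  have hnn : ∀ a ∈ (E.map fun e => (hM e.1 e.2 *ᵥ v) ⬝ᵥ (hM e.1 e.2 *ᵥ v)), (0 : ℝ) ≤ a := by
    intro a ha
    obtain ⟨e, -, rfl⟩ := List.mem_map.mp ha
    exact Finset.sum_nonneg fun i _ => mul_self_nonneg _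
  intro e he
  have h1 : (hM e.1 e.2 *ᵥ v) ⬝ᵥ (hM e.1 e.2 *ᵥ v) = 0 := by
    have h2 := List.single_le_sum hnn _ (List.mem_map.mpr ⟨e, he, rfl⟩)
    have h3 := hnn _ (List.mem_map.mpr ⟨e, he, rfl⟩)
    rw [← h0] at h2
    exact le_antisymm h2 h3
  have h4 : hM e.1 e.2 *ᵥ v = 0 := dotProduct_self_eq_zero.mp h1
  rw [hM, Matrix.smul_mulVec, Matrix.sub_mulVec, Matrix.one_mulVec] at h4
  have h5 : v - swapM e.1 e.2 *ᵥ v = 0 := by
    rcases smul_eq_zero.mp h4 with h | h
    · norm_num at h
    · exact h
  exact (sub_eq_zero.mp h5).symm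

theorem ham_append_replicate (L E : List (V × V)) (m : ℕ) (h : V → ℝ) :
    ham (L ++ (List.replicate m E).flatten) h =
      ham L h + (m : ℝ) • (E.map fun e => hM e.1 e.2).sum := by
  have h1 : (((List.replicate m E).flatten).map fun e => hM e.1 e.2).sum =
      (m : ℝ) • (E.map fun e => hM e.1 e.2).sum := by
    induction m with
    | zero => simp
    | succ m ih =>
      rw [List.replicate_succ, List.flatten_cons, List.map_append, List.sum_append, ih]
      push_cast
      rw [add_smul, one_smul, add_comm]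
  rw [ham, ham, List.map_append, List.sum_append, h1]
  abel

/-- **The limit of infinitely many intra site edges.** -/
theorem tendsto_trace_ham (L E : List (V × V)) (h : V → ℝ) {β : ℝ} (hβ : 0 < β)
    (P C : Matrix (V → Fin 2) (V → Fin 2) ℝ) (hP : P.IsSymm)
    (hEP : ∀ e ∈ E, swapM e.1 e.2 * P = P)
    (hker : ∀ v, (∀ e ∈ E, swapM e.1 e.2 *ᵥ v = v) → P *ᵥ v = v)
    (hcomm : ∀ e ∈ E, Commute (swapM e.1 e.2) (ham L h)) :
    Tendsto (fun m : ℕ => trace (NormedSpace.exp
      (-β • ham (L ++ (List.replicate m E).flatten) h) * C)) atTop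
      (𝓝 (trace (P * NormedSpace.exp (-β • ham L h) * C))) := by
  simp only [ham_append_replicate]
  refine tendsto_trace_proj _ _ C P (sum_hM_posSemidef E) hP ?_ ?_ ?_ hβ
  · clear hker hcomm
    induction E with
    | nil => simp
    | cons e E ih =>
      rw [List.map_cons, List.sum_cons, add_mul, ih fun e' he' => hEP e' (by simp [he'])]
      rw [hM, Matrix.smul_mul, sub_mul, one_mul, hEP e (by simp)]
      simp
  · intro v hv
    exact hker v (ker_sum_hM E v hv)
  · clear hker hEP
    induction E with
    | nil => simp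
    | cons e E ih =>
      rw [List.map_cons, List.sum_cons]
      refine Commute.add_left ?_ (ih fun e' he' => hcomm e' (by simp [he']))
      rw [hM]
      exact ((Commute.one_left _).sub_left (hcomm e (by simp))).smul_left _

/-- The same for the Gibbs expectation. -/
theorem tendsto_gib (L E : List (V × V)) (h : V → ℝ) {β : ℝ} (hβ : 0 < β)
    (P C : Matrix (V → Fin 2) (V → Fin 2) ℝ) (hP : P.IsSymm)
    (hEP : ∀ e ∈ E, swapM e.1 e.2 * P = P)
    (hker : ∀ v, (∀ e ∈ E, swapM e.1 e.2 *ᵥ v = v) → P *ᵥ v = v)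
    (hcomm : ∀ e ∈ E, Commute (swapM e.1 e.2) (ham L h))
    (hpos : trace (P * NormedSpace.exp (-β • ham L h)) ≠ 0) :
    Tendsto (fun m : ℕ => gib (L ++ (List.replicate m E).flatten) β h C) atTop
      (𝓝 (trace (P * NormedSpace.exp (-β • ham L h) * C) /
        trace (P * NormedSpace.exp (-β • ham L h)))) := by
  have h1 := tendsto_trace_ham L E h hβ P C hP hEP hker hcomm
  have h2 := tendsto_trace_ham L E h hβ P 1 hP hEP hker hcomm
  simp only [Matrix.mul_one] at h2
  exact h1.div h2 hpos

end Phys

end Vale.Agent.P361.LRO.GenS.Lim
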