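import Vale.Agent.P361.LRO.GenS.PiFacts
import Vale.Agent.P361.LRO.GenS.ExpProj

/-!
P361, general spin: the intra-site part commutes with the Hamiltonian of the copies and is
positive semidefinite.
-/

namespace Vale.Agent.P361.LRO.GenS.Comm

open Finset Matrix

variable {V : Type} [Fintype V] [DecidableEq V] {s : ℕ}

/-- Anything that commutes with the exchanges of copies commutes with the intra-site part. -/
theorem intraM_commute (B : Matrix (V × Fin s → Fin 2) (V × Fin s → Fin 2) ℝ)
    (hB : ∀ (x : V) (a b : Fin s), Commute (swapM (x, a) (x, b)) B) :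
    Commute (intraM V s) B := by
  rw [intraM]
  refine List.sum_induction (fun M => Commute M B) (fun A C hA hC => Commute.add_left hA hC)
    (Commute.zero_left _) ?_
  intro M hM
  rw [List.mem_map] at hM
  obtain ⟨e, he, rfl⟩ := hM
  rw [mem_intraL] at he
  obtain ⟨⟨x, a⟩, ⟨y, b⟩⟩ := e
  dsimp only at he
  obtain ⟨rfl, -⟩ := he
  rw [LRO.hM]
  exact Commute.smul_left (Commute.sub_left (Commute.one_left _) (hB x a b)) _

/-- The intra-site part commutes with the Hamiltonian of the copies. -/
theorem intraM_comm_ham (L : List (V × V)) (h : V → ℝ) :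
    Commute (intraM V s) (ham (interL L s) (lift s h)) :=
  intraM_commute _ fun x a b => comm_ham L h x a b

/-- The same for profiles constant on the copies. -/
theorem intraM_comm_ham' (L : List (V × V)) (h : V × Fin s → ℝ)
    (hh : ∀ x i j, h (x, i) = h (x, j)) : Commute (intraM V s) (ham (interL L s) h) := by
  rcases Nat.eq_zero_or_pos s with hs | hs
  · subst hs
    have h1 : h = lift 0 fun _ => 0 := by
      funext z
      exact z.2.elim0
    rw [h1]
    exact intraM_comm_ham L _
  · have h1 : h = lift s fun x => h (x, ⟨0, hs⟩) := by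
      funext z
      exact hh z.1 z.2 ⟨0, hs⟩
    rw [h1]
    exact intraM_comm_ham L _

/-- The exchange of two copies of a site commutes with the Hamiltonian of the copies. -/
theorem swap_comm_ham (L : List (V × V)) (h : V × Fin s → ℝ)
    (hh : ∀ x i j, h (x, i) = h (x, j)) (x : V) (a b : Fin s) :
    Commute (swapM (x, a) (x, b)) (ham (interL L s) h) := by
  have h1 : h = lift s fun x => h (x, a) := by
    funext z
    exact hh z.1 z.2 a
  rw [h1]
  exact comm_ham L _ x a b

theorem intraM_posSemidef : (intraM V s).PosSemidef := by
  rw [intraM]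
  exact Lim.sum_hM_posSemidef _

theorem intraM_isSymm : (intraM V s).IsSymm := by
  have h := (intraM_posSemidef (V := V) (s := s)).isHermitian
  rw [Matrix.IsHermitian, Matrix.conjTranspose_eq_transpose_of_trivial] at h
  exact h

/-- `ham (Lm L s m) h` splits into commuting pieces. -/
theorem commute_ham_smul (L : List (V × V)) (h : V → ℝ) (m : ℝ) :
    Commute (ham (interL L s) (lift s h)) (m • intraM V s) :=
  Commute.smul_right (intraM_comm_ham L h).symm m

end Vale.Agent.P361.LRO.GenS.Comm
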