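import Vale.Agent.P361.LRO.Top.Iface

/-!
P361 LRO, all spins `S = s / 2` (route M): vertex set `Tor n × Fin s`, inter-site edges between all
copies, intra-site edges repeated `M` times; everything is uniform in `M`, and `M → ∞` at the end.
-/

namespace Vale.Agent.P361.LRO.GenS

open Finset Matrix Filter Topology

noncomputable section

/-- All edges between copies of neighbouring sites. -/
def interE (n s : ℕ) [NeZero n] : List ((Tor n × Fin s) × (Tor n × Fin s)) :=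
  (edges n).flatMap fun e => (List.finRange s).flatMap fun i => (List.finRange s).map fun j =>
    ((e.1, i), (e.2, j))

/-- All edges between two copies at the same site. -/
def intraE (n s : ℕ) [NeZero n] : List ((Tor n × Fin s) × (Tor n × Fin s)) :=
  ((univ : Finset (Tor n × Fin s × Fin s)).filter fun z => z.2.1 < z.2.2).toList.map fun z =>
    ((z.1, z.2.1), (z.1, z.2.2))

/-- The edges of the model with `M`-fold coupling inside the sites. -/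
def edgesS (n s M : ℕ) [NeZero n] : List ((Tor n × Fin s) × (Tor n × Fin s)) :=
  interE n s ++ (List.replicate M (intraE n s)).flatten

/-- A profile on the sites as a profile on the copies. -/
def hS {n s : ℕ} (h : Tor n → ℝ) : Tor n × Fin s → ℝ := fun z => h z.1

/-- All copies of the sites of a cube. -/
def cubeS (n s : ℕ) (x : Tor n) (w : ℕ) : Finset (Tor n × Fin s) := cube n x w ×ˢ univ

/-- Bootstrap hypothesis. -/
def BHS (n s M : ℕ) [NeZero n] (β lam η h0 : ℝ) : Prop :=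
  ∀ h : Tor n → ℝ, Fam n h0 lam h → ∀ z, rho (edgesS n s M) β (hS h) z ≤ η

/-- (M2) stiffness of the blocks. -/
def KappaStmtS (s : ℕ) : Prop :=
  ∃ c3 : ℝ, 0 < c3 ∧ ∀ A : ℝ, 0 < A → ∃ β0 : ℝ, ∀ β : ℝ, β0 ≤ β → ∃ n0 : ℕ, ∀ (n : ℕ) [NeZero n],
    n0 ≤ n → Odd n → ∀ M : ℕ, ∀ (a : ℕ), β ^ (7 / 20 : ℝ) ≤ (3 : ℝ) ^ a →
    (3 : ℝ) ^ a ≤ 3 * β ^ (7 / 20 : ℝ) →
    ∀ h0 : ℝ, (n : ℝ) ^ (-(1 / 4) : ℝ) ≤ h0 → h0 ≤ 1 →
    BHS n s M β (β ^ (-(9 / 10) : ℝ)) (β ^ (-(1 / 100) : ℝ)) h0 →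
    ∀ h : Tor n → ℝ, Fam n h0 (β ^ (-(9 / 10) : ℝ)) h → ∀ x : Tor n,
      ∃ᶠ N : ℕ in atTop, c3 * (A * β ^ (1 / 100 : ℝ)) ≤
        kap (edgesS n s M) β N (hS h) (A * β ^ (1 / 100 : ℝ)) (cubeS n s x (3 ^ a))

/-- (M3) energy. -/
def EnergyStmtS (s : ℕ) : Prop :=
  ∃ C : ℝ, ∀ (n : ℕ) [NeZero n] (M : ℕ) (β : ℝ) (h : Tor n → ℝ) (x : Tor n) (w m : ℕ), 0 < β →
    (∀ x, 0 < h x) → 1 ≤ w → 1 ≤ m → 3 * (w * m) ≤ n →
    (∑ y : Fin 3 → Fin m, Db (edgesS n s M) β (hS h)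
        (cubeS n s (x + fun i => ((w * (y i : ℕ) : ℕ) : ZMod n)) w)) / (m : ℝ) ^ 3 ≤
      C * (w : ℝ) ^ 2 * (1 / β + 1 / ((w : ℝ) * m))

/-- (M5) start. -/
def StartStmtS (s : ℕ) : Prop :=
  ∃ C : ℝ, ∀ (n : ℕ) [NeZero n] (M : ℕ) (β : ℝ) (z : Tor n × Fin s), 0 < β →
    rho (edgesS n s M) β (hS fun _ => 1) z ≤ C / β

/-- (M5) translations (and permutations of the copies at a site). -/
def TransStmtS (s : ℕ) : Prop :=
  ∀ (n : ℕ) [NeZero n] (M : ℕ) (β : ℝ) (h : Tor n → ℝ) (x a : Tor n) (i j : Fin s),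
    rho (edgesS n s M) β (hS fun y => h (y + a)) (x, i) = rho (edgesS n s M) β (hS h) (x + a, j)

/-- (M5) output of the bootstrap. -/
def BootStmtS (s : ℕ) : Prop :=
  ∃ β0 : ℝ, ∀ β : ℝ, β0 ≤ β → ∃ n0 : ℕ, ∀ (n : ℕ) [NeZero n], n0 ≤ n → Odd n → ∀ M : ℕ,
    ∀ h : ℝ, (n : ℝ) ^ (-(1 / 4) : ℝ) ≤ h → h ≤ 1 →
      ∀ z : Tor n × Fin s, rho (edgesS n s M) β (hS fun _ => h) z ≤ β ^ (-(1 / 100) : ℝ)

end

end Vale.Agent.P361.LRO.GenS
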