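import Vale.Agent.P361.LRO.Energy.TileMain
import Vale.Agent.P361.LRO.GenS.Iface

/-!
P361 LRO, all spins, route M: the energy block (M3) (helper213).
-/

namespace Vale.Agent.P361.LRO.GenS.EnS

open Finset Matrix
open Vale.Agent.P361.LRO.EnR
open Vale.Agent.P361.LRO.Energy (nxt tch bdy energy_list edges_map_sum card_cube_le card_bdy_le)

set_option linter.unusedSectionVars false

noncomputable section

section Gen

variable {V : Type} [Fintype V] [DecidableEq V]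

theorem hM_comm (x y : V) : hM x y = hM y x := by
  unfold hM swapM
  rw [Equiv.swap_comm]

theorem gib_step (L : List (V × V)) (β : ℝ) (h : V → ℝ) (x y z : V) :
    gib L β h (hM x z) ≤ 2 * gib L β h (hM x y) + 8 * gib L β h (hM y z) := by
  have h1 : gib L β h (hM x z) ≤ gib L β h ((2 : ℝ) • hM x y + (8 : ℝ) • hM y z) := by
    apply gib_le_of_form_le
    intro ψ
    rw [Matrix.add_mulVec, dotProduct_add, Matrix.smul_mulVec, Matrix.smul_mulVec, dotProduct_smul,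
      dotProduct_smul, form_hM, form_hM, form_hM, smul_eq_mul, smul_eq_mul]
    have h2 := nrm_swap_step x y z ψ
    have h3 := nrm_nonneg (Equiv.swap x z) ψ
    have h4 := nrm_nonneg (Equiv.swap x y) ψ
    have h5 := nrm_nonneg (Equiv.swap y z) ψ
    nlinarith [sq_nonneg (nrm (Equiv.swap x y) ψ - 2 * nrm (Equiv.swap y z) ψ)]
  rw [gib_add, gib_smul, gib_smul] at h1
  exact h1

theorem list_flatMap_sum {α γ : Type} (l : List α) (f : α → List γ) (F : γ → ℝ) :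
    ((l.flatMap f).map F).sum = (l.map fun a => ((f a).map F).sum).sum := by
  induction l with
  | nil => simp
  | cons a l ih => simp [List.flatMap_cons, ih]

theorem energy_map {β : ℝ} (hβ : 0 ≤ β) (L : List (V × V)) {h : V → ℝ} (Q : Finset V)
    (hh : ∀ x ∈ Q, 0 ≤ h x) :
    β * (L.map fun e => if e.1 ∈ Q ∨ e.2 ∈ Q then gib L β h (hM e.1 e.2) else 0).sum ≤
      Q.card * Real.log 2 + β * (L.map fun e =>
        if (e.1 ∈ Q ∨ e.2 ∈ Q) ∧ ¬ (e.1 ∈ Q ∧ e.2 ∈ Q) then (1 : ℝ) else 0).sum := by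
  have h1 := energy_list hβ L Q hh
  have h2 : ∑ i : Fin L.length with ((L.get i).1 ∈ Q ∨ (L.get i).2 ∈ Q),
      gib L β h (hM (L.get i).1 (L.get i).2) =
      (L.map fun e => if e.1 ∈ Q ∨ e.2 ∈ Q then gib L β h (hM e.1 e.2) else 0).sum := by
    rw [Finset.sum_filter, ← Fin.sum_univ_fun_getElem]
    rfl
  have h3 : ((Finset.univ.filter fun i : Fin L.length =>
        ((L.get i).1 ∈ Q ∨ (L.get i).2 ∈ Q) ∧ ¬ ((L.get i).1 ∈ Q ∧ (L.get i).2 ∈ Q)).card : ℝ) =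
      (L.map fun e =>
        if (e.1 ∈ Q ∨ e.2 ∈ Q) ∧ ¬ (e.1 ∈ Q ∧ e.2 ∈ Q) then (1 : ℝ) else 0).sum := by
    rw [Finset.card_filter]
    push_cast
    rw [← Fin.sum_univ_fun_getElem]
    rfl
  rw [h2, h3] at h1
  exact h1

end Gen

section Tor

variable {n s : ℕ} [NeZero n]

theorem interE_sum (F : (Tor n × Fin s) × (Tor n × Fin s) → ℝ) :
    ((interE n s).map F).sum =
      ∑ z : Tor n × Fin 3, ∑ i : Fin s, ∑ j : Fin s, F ((z.1, i), (nxt z, j)) := by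
  unfold interE
  rw [list_flatMap_sum, edges_map_sum]
  refine Finset.sum_congr rfl fun z _ => ?_
  rw [list_flatMap_sum, ← Fin.sum_univ_def]
  refine Finset.sum_congr rfl fun i _ => ?_
  rw [List.map_map, ← Fin.sum_univ_def]
  rfl

theorem intraE_same {M : ℕ} {e : (Tor n × Fin s) × (Tor n × Fin s)}
    (he : e ∈ (List.replicate M (intraE n s)).flatten) : e.1.1 = e.2.1 := by
  rw [List.mem_flatten] at he
  obtain ⟨l, hl, he⟩ := he
  rw [List.mem_replicate] at hl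
  obtain ⟨-, rfl⟩ := hl
  unfold intraE at he
  rw [List.mem_map] at he
  obtain ⟨z, -, rfl⟩ := he
  rfl

/-- energy of the edge `z` between the copies `i`, `j` -/
def ee (n s M : ℕ) [NeZero n] (β : ℝ) (h : Tor n → ℝ) (z : Tor n × Fin 3) (i j : Fin s) : ℝ :=
  gib (edgesS n s M) β (hS h) (hM (z.1, i) (nxt z, j))

theorem ee_nonneg (M : ℕ) (β : ℝ) (h : Tor n → ℝ) (z : Tor n × Fin 3) (i j : Fin s) :
    0 ≤ ee n s M β h z i j := gib_hM_nonneg _ _ _ _ _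

theorem energy_Q (M : ℕ) {β : ℝ} (hβ : 0 ≤ β) {h : Tor n → ℝ} (hh : ∀ x, 0 ≤ h x) (x : Tor n)
    {l : ℕ} (hl : 0 < l) :
    β * ∑ i : Fin s, ∑ j : Fin s, ∑ z ∈ tch (cube n x l), ee n s M β h z i j ≤
      s * (l : ℝ) ^ 3 + 6 * s ^ 2 * β * (l : ℝ) ^ 2 := by
  set Q := cube n x l with hQ
  have h1 := energy_map hβ (edgesS n s M) (h := hS h) (Q ×ˢ (univ : Finset (Fin s)))
    (fun z _ => hh z.1)
  have hmem : ∀ z : Tor n × Fin s, z ∈ Q ×ˢ (univ : Finset (Fin s)) ↔ z.1 ∈ Q := fun z => by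
    simp
  simp only [hmem] at h1
  have e1 : ∑ i : Fin s, ∑ j : Fin s, ∑ z ∈ tch Q, ee n s M β h z i j ≤
      ((edgesS n s M).map fun e => if e.1.1 ∈ Q ∨ e.2.1 ∈ Q then
        gib (edgesS n s M) β (hS h) (hM e.1 e.2) else 0).sum := by
    conv_rhs => rw [edgesS]
    rw [List.map_append, List.sum_append, interE_sum]
    have h2 : 0 ≤ (((List.replicate M (intraE n s)).flatten).map fun e =>
        if e.1.1 ∈ Q ∨ e.2.1 ∈ Q then
        gib (interE n s ++ (List.replicate M (intraE n s)).flatten) β (hS h) (hM e.1 e.2)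
          else 0).sum := by
      apply List.sum_nonneg
      intro a ha
      rw [List.mem_map] at ha
      obtain ⟨e, -, rfl⟩ := ha
      split_ifs
      · exact gib_hM_nonneg _ _ _ _ _
      · exact le_rfl
    refine le_trans (le_of_eq ?_) (le_add_of_nonneg_right h2)
    have h3 : ∀ i j : Fin s, ∑ z ∈ tch Q, ee n s M β h z i j =
        ∑ z : Tor n × Fin 3, if z.1 ∈ Q ∨ nxt z ∈ Q then ee n s M β h z i j else 0 := by
      intro i j
      rw [tch, Finset.sum_filter]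
    simp only [h3]
    rw [Finset.sum_congr rfl fun i _ => Finset.sum_comm, Finset.sum_comm]
    rfl
  have e2 : ((edgesS n s M).map fun e =>
        if (e.1.1 ∈ Q ∨ e.2.1 ∈ Q) ∧ ¬ (e.1.1 ∈ Q ∧ e.2.1 ∈ Q) then (1 : ℝ) else 0).sum =
      (s : ℝ) ^ 2 * ((bdy Q).card : ℝ) := by
    rw [edgesS, List.map_append, List.sum_append, interE_sum]
    have h2 : (((List.replicate M (intraE n s)).flatten).map fun e =>
        if (e.1.1 ∈ Q ∨ e.2.1 ∈ Q) ∧ ¬ (e.1.1 ∈ Q ∧ e.2.1 ∈ Q) then (1 : ℝ) else 0).sum = 0 := by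
      apply List.sum_eq_zero
      intro a ha
      rw [List.mem_map] at ha
      obtain ⟨e, he, rfl⟩ := ha
      have := intraE_same he
      rw [if_neg]
      rw [this]
      tauto
    rw [h2, add_zero, bdy, Finset.card_filter]
    push_cast
    rw [Finset.mul_sum]
    refine Finset.sum_congr rfl fun z _ => ?_
    by_cases hc : (z.1 ∈ Q ∨ nxt z ∈ Q) ∧ ¬ (z.1 ∈ Q ∧ nxt z ∈ Q)
    · simp only [if_pos hc]
      simp only [Finset.sum_const, Finset.card_univ, Fintype.card_fin, nsmul_eq_mul]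
      ring
    · simp only [if_neg hc]
      simp
  have e3 : ((Q ×ˢ (univ : Finset (Fin s))).card : ℝ) ≤ (l : ℝ) ^ 3 * s := by
    rw [Finset.card_product, Finset.card_univ, Fintype.card_fin]
    push_cast
    have : (Q.card : ℝ) ≤ (l : ℝ) ^ 3 := by exact_mod_cast card_cube_le x l
    exact mul_le_mul_of_nonneg_right this (by positivity)
  have e4 : ((bdy Q).card : ℝ) ≤ 6 * (l : ℝ) ^ 2 := by exact_mod_cast card_bdy_le x hl
  have h4 : Real.log 2 ≤ 1 := by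
    have := Real.log_two_lt_d9
    linarith
  have h5 : 0 ≤ Real.log 2 := Real.log_nonneg (by norm_num)
  have h6 : ((Q ×ˢ (univ : Finset (Fin s))).card : ℝ) * Real.log 2 ≤ (l : ℝ) ^ 3 * s * 1 :=
    mul_le_mul e3 h4 h5 (by positivity)
  rw [e2] at h1
  have h7 := mul_le_mul_of_nonneg_left e1 hβ
  have h8 : β * ((s : ℝ) ^ 2 * ((bdy Q).card : ℝ)) ≤ β * ((s : ℝ) ^ 2 * (6 * (l : ℝ) ^ 2)) := by
    gcongr
  nlinarith

theorem sum_dir0 (Q : Finset (Tor n)) (f : Tor n × Fin 3 → ℝ) (hf : ∀ z, 0 ≤ f z) :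
    ∑ x ∈ Q, f (x, 0) ≤ ∑ z ∈ tch Q, f z := by
  have h1 : ∑ x ∈ Q, f (x, 0) = ∑ z ∈ Q.image fun x => ((x, (0 : Fin 3)) : Tor n × Fin 3), f z := by
    rw [Finset.sum_image]
    intro x _ y _ h
    exact (Prod.mk.inj h).1
  rw [h1]
  apply Finset.sum_le_sum_of_subset_of_nonneg
  · intro z hz
    rw [Finset.mem_image] at hz
    obtain ⟨x, hx, rfl⟩ := hz
    rw [tch, Finset.mem_filter]
    exact ⟨Finset.mem_univ _, Or.inl hx⟩
  · intro z _ _; exact hf z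

theorem gib_same_site (M : ℕ) (β : ℝ) (h : Tor n → ℝ) (x : Tor n) (i j : Fin s) :
    gib (edgesS n s M) β (hS h) (hM (x, i) (x, j)) ≤
      2 * ee n s M β h (x, 0) i i + 8 * ee n s M β h (x, 0) j i := by
  have h1 := gib_step (edgesS n s M) β (hS h) (x, i) (nxt (x, 0), i) (x, j)
  rw [hM_comm (nxt (x, 0), i) (x, j)] at h1
  exact h1

/-- tiling of a function of one site -/
theorem tile_one (x0 : Tor n) (w m : ℕ) (hw : w ≤ n) (hwm : w * m ≤ n) (f : Tor n → ℝ) :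
    ∑ y : Fin 3 → Fin m, ∑ x ∈ cube n (x0 + fun i => ((w * (y i : ℕ) : ℕ) : ZMod n)) w, f x =
      ∑ x ∈ cube n x0 (w * m), f x := by
  have h1 : ∀ y : Fin 3 → Fin m,
      ∑ x ∈ cube n (x0 + fun i => ((w * (y i : ℕ) : ℕ) : ZMod n)) w, f x =
      ∑ a ∈ range w, ∑ b ∈ range w, ∑ c ∈ range w,
        f (shp (tp n x0) w (y 0) (y 1) (y 2) a b c) := by
    intro y
    rw [EnR.sum_cube _ hw, ← tp_shift]
    have e : (x0 + fun i => ((w * (y i : ℕ) : ℕ) : ZMod n)) =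
        (x0 + fun i => ((w * (![(y 0 : ℕ), (y 1 : ℕ), (y 2 : ℕ)] i) : ℕ) : ZMod n)) := by
      congr 1
      ext i
      fin_cases i <;> rfl
    rw [e]
  rw [Finset.sum_congr rfl fun y _ => h1 y, EnR.sum_cube _ hwm]
  rw [sum_fin3 m fun u0 u1 u2 => ∑ a ∈ range w, ∑ b ∈ range w, ∑ c ∈ range w,
        f (shp (tp n x0) w u0 u1 u2 a b c)]
  unfold shp
  rw [← sum_tile (fun A => ∑ B ∈ range (w * m), ∑ C ∈ range (w * m), f (tp n x0 A B C))]
  refine Finset.sum_congr rfl fun u0 _ => ?_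
  have h2 : ∀ a ∈ range w, ∑ B ∈ range (w * m), ∑ C ∈ range (w * m),
      f (tp n x0 (w * u0 + a) B C) = ∑ u1 ∈ range m, ∑ u2 ∈ range m, ∑ b ∈ range w,
        ∑ c ∈ range w, f (tp n x0 (w * u0 + a) (w * u1 + b) (w * u2 + c)) := by
    intro a _
    rw [← sum_tile (fun B => ∑ C ∈ range (w * m), f (tp n x0 (w * u0 + a) B C))]
    refine Finset.sum_congr rfl fun u1 _ => ?_
    conv_rhs => rw [Finset.sum_comm]
    refine Finset.sum_congr rfl fun b _ => ?_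
    rw [← sum_tile]
  rw [Finset.sum_congr rfl h2]
  conv_rhs => rw [Finset.sum_comm]
  refine Finset.sum_congr rfl fun u1 _ => ?_
  rw [Finset.sum_comm]

theorem part_A (M : ℕ) (β : ℝ) (h : Tor n → ℝ) (x0 : Tor n) (w m : ℕ) (hw : w ≤ n)
    (hwm : w * m ≤ n) (i : Fin s) :
    ∑ y : Fin 3 → Fin m, ∑ x ∈ cube n (x0 + fun i => ((w * (y i : ℕ) : ℕ) : ZMod n)) w,
      ∑ x' ∈ cube n (x0 + fun i => ((w * (y i : ℕ) : ℕ) : ZMod n)) w,
        gib (edgesS n s M) β (hS h) (hM (x, i) (x', i)) ≤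
      12 * (w : ℝ) ^ 5 * ∑ z ∈ tch (cube n x0 (w * m)), ee n s M β h z i i := by
  set G : Tor n → Tor n → ℝ := fun x x' => gib (edgesS n s M) β (hS h) (hM (x, i) (x', i)) with hG
  have h1 : ∀ y : Fin 3 → Fin m,
      ∑ x ∈ cube n (x0 + fun i => ((w * (y i : ℕ) : ℕ) : ZMod n)) w,
      ∑ x' ∈ cube n (x0 + fun i => ((w * (y i : ℕ) : ℕ) : ZMod n)) w, G x x' =
      pairSum (shp (fun a b c => (tp n x0 a b c, i)) w (y 0) (y 1) (y 2))
        (fun z z' => gib (edgesS n s M) β (hS h) (hM z z')) w := by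
    intro y
    rw [pairSum_eq _ hw]
    have e : (x0 + fun i => ((w * (y i : ℕ) : ℕ) : ZMod n)) =
        (x0 + fun i => ((w * (![(y 0 : ℕ), (y 1 : ℕ), (y 2 : ℕ)] i) : ℕ) : ZMod n)) := by
      congr 1
      ext i
      fin_cases i <;> rfl
    rw [e, tp_shift]
    rfl
  have h2 := tile_pair (edgesS n s M) β (hS h) (fun a b c => ((tp n x0 a b c, i) : Tor n × Fin s)) w m
  have h3 := edgeSum_le x0 hwm G (fun x y => gib_hM_nonneg _ _ _ _ _)
  have h4 : ∑ e : Tor n × Fin 3 with (e.1 ∈ cube n x0 (w * m) ∧ e.1 + Pi.single e.2 1 ∈ cube n x0 (w * m)),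
        G e.1 (e.1 + Pi.single e.2 1) ≤ ∑ z ∈ tch (cube n x0 (w * m)), ee n s M β h z i i := by
    apply Finset.sum_le_sum_of_subset_of_nonneg
    · intro z hz
      rw [Finset.mem_filter] at hz
      rw [tch, Finset.mem_filter]
      exact ⟨Finset.mem_univ _, Or.inl hz.2.1⟩
    · intro z _ _; exact ee_nonneg _ _ _ _ _ _
  calc _ = ∑ y : Fin 3 → Fin m, pairSum (shp (fun a b c => (tp n x0 a b c, i)) w (y 0) (y 1) (y 2))
        (fun z z' => gib (edgesS n s M) β (hS h) (hM z z')) w := Finset.sum_congr rfl fun y _ => h1 y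
    _ = ∑ u0 ∈ range m, ∑ u1 ∈ range m, ∑ u2 ∈ range m,
          pairSum (shp (fun a b c => (tp n x0 a b c, i)) w u0 u1 u2)
        (fun z z' => gib (edgesS n s M) β (hS h) (hM z z')) w :=
        sum_fin3 m fun u0 u1 u2 => pairSum (shp (fun a b c => (tp n x0 a b c, i)) w u0 u1 u2)
        (fun z z' => gib (edgesS n s M) β (hS h) (hM z z')) w
    _ ≤ 12 * (w : ℝ) ^ 5 * edgeSum (tp n x0) G (w * m) := h2
    _ ≤ _ := mul_le_mul_of_nonneg_left (h3.trans h4) (by positivity)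

theorem part_B (M : ℕ) (β : ℝ) (h : Tor n → ℝ) (x0 : Tor n) (w m : ℕ) (hw : w ≤ n)
    (hwm : w * m ≤ n) (i j : Fin s) :
    ∑ y : Fin 3 → Fin m, ∑ x ∈ cube n (x0 + fun i => ((w * (y i : ℕ) : ℕ) : ZMod n)) w,
      ∑ x' ∈ cube n (x0 + fun i => ((w * (y i : ℕ) : ℕ) : ZMod n)) w,
        gib (edgesS n s M) β (hS h) (hM (x', i) (x', j)) ≤
      (w : ℝ) ^ 3 * (2 * ∑ z ∈ tch (cube n x0 (w * m)), ee n s M β h z i i +
        8 * ∑ z ∈ tch (cube n x0 (w * m)), ee n s M β h z j i) := by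
  have h1 : ∀ y : Fin 3 → Fin m, ∑ x ∈ cube n (x0 + fun i => ((w * (y i : ℕ) : ℕ) : ZMod n)) w,
      ∑ x' ∈ cube n (x0 + fun i => ((w * (y i : ℕ) : ℕ) : ZMod n)) w,
        gib (edgesS n s M) β (hS h) (hM (x', i) (x', j)) =
      (w : ℝ) ^ 3 * ∑ x' ∈ cube n (x0 + fun i => ((w * (y i : ℕ) : ℕ) : ZMod n)) w,
        gib (edgesS n s M) β (hS h) (hM (x', i) (x', j)) := by
    intro y
    rw [Finset.sum_const, EnR.card_cube _ hw, nsmul_eq_mul]
    push_cast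
    rfl
  rw [Finset.sum_congr rfl fun y _ => h1 y, ← Finset.mul_sum,
    tile_one x0 w m hw hwm fun x' => gib (edgesS n s M) β (hS h) (hM (x', i) (x', j))]
  refine mul_le_mul_of_nonneg_left ?_ (by positivity)
  refine (Finset.sum_le_sum fun x _ => gib_same_site M β h x i j).trans ?_
  rw [Finset.sum_add_distrib, ← Finset.mul_sum, ← Finset.mul_sum]
  have a1 := sum_dir0 (cube n x0 (w * m)) (fun z => ee n s M β h z i i) (fun z => ee_nonneg _ _ _ _ _ _)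
  have a2 := sum_dir0 (cube n x0 (w * m)) (fun z => ee n s M β h z j i) (fun z => ee_nonneg _ _ _ _ _ _)
  linarith

theorem split_sum {ι κ : Type} (S : Finset ι) [Fintype κ] (A : ι → ι → ℝ) (B : κ → ι → ℝ) :
    ∑ x ∈ S, ∑ j : κ, ∑ x' ∈ S, (2 * A x x' + 8 * B j x') =
      2 * (Fintype.card κ : ℝ) * ∑ x ∈ S, ∑ x' ∈ S, A x x' +
        8 * ∑ j : κ, ∑ x ∈ S, ∑ x' ∈ S, B j x' := by
  simp only [Finset.sum_add_distrib]
  have e1 : ∑ x ∈ S, ∑ _j : κ, ∑ x' ∈ S, 2 * A x x' =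
      2 * (Fintype.card κ : ℝ) * ∑ x ∈ S, ∑ x' ∈ S, A x x' := by
    rw [Finset.mul_sum]
    refine Finset.sum_congr rfl fun x _ => ?_
    rw [Finset.sum_const, Finset.card_univ, nsmul_eq_mul, ← Finset.mul_sum]
    ring
  have e2 : ∑ x ∈ S, ∑ j : κ, ∑ x' ∈ S, 8 * B j x' = 8 * ∑ j : κ, ∑ x ∈ S, ∑ x' ∈ S, B j x' := by
    rw [Finset.sum_comm]
    simp only [Finset.mul_sum]
  rw [e1, e2]

/-- sum over a block with copies -/
theorem sum_cubeS (x : Tor n) (w : ℕ) (f : Tor n × Fin s → ℝ) :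
    ∑ z ∈ cubeS n s x w, f z = ∑ i : Fin s, ∑ x' ∈ cube n x w, f (x', i) := by
  rw [cubeS, Finset.sum_product_right]

theorem block_le (M : ℕ) (β : ℝ) (h : Tor n → ℝ) (b : Tor n) (w : ℕ) :
    ∑ z ∈ cubeS n s b w, ∑ z' ∈ cubeS n s b w, gib (edgesS n s M) β (hS h) (hM z z') ≤
      2 * s * ∑ i : Fin s, ∑ x ∈ cube n b w, ∑ x' ∈ cube n b w,
          gib (edgesS n s M) β (hS h) (hM (x, i) (x', i)) +
      8 * ∑ i : Fin s, ∑ j : Fin s, ∑ x ∈ cube n b w, ∑ x' ∈ cube n b w,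
          gib (edgesS n s M) β (hS h) (hM (x', i) (x', j)) := by
  rw [sum_cubeS]
  simp only [sum_cubeS]
  have h1 : ∀ (i : Fin s) (x : Tor n) (j : Fin s) (x' : Tor n),
      gib (edgesS n s M) β (hS h) (hM (x, i) (x', j)) ≤
      2 * gib (edgesS n s M) β (hS h) (hM (x, i) (x', i)) +
        8 * gib (edgesS n s M) β (hS h) (hM (x', i) (x', j)) :=
    fun i x j x' => gib_step _ _ _ _ _ _
  refine (Finset.sum_le_sum fun i _ => Finset.sum_le_sum fun x _ => Finset.sum_le_sum fun j _ =>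
    Finset.sum_le_sum fun x' _ => h1 i x j x').trans (le_of_eq ?_)
  have h2 : ∀ i : Fin s, ∑ x ∈ cube n b w, ∑ j : Fin s, ∑ x' ∈ cube n b w,
      (2 * gib (edgesS n s M) β (hS h) (hM (x, i) (x', i)) +
        8 * gib (edgesS n s M) β (hS h) (hM (x', i) (x', j))) =
      2 * s * ∑ x ∈ cube n b w, ∑ x' ∈ cube n b w,
          gib (edgesS n s M) β (hS h) (hM (x, i) (x', i)) +
      8 * ∑ j : Fin s, ∑ x ∈ cube n b w, ∑ x' ∈ cube n b w,
          gib (edgesS n s M) β (hS h) (hM (x', i) (x', j)) := by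
    intro i
    have h3 := split_sum (cube n b w) (κ := Fin s)
      (fun x x' => gib (edgesS n s M) β (hS h) (hM (x, i) (x', i)))
      (fun j x' => gib (edgesS n s M) β (hS h) (hM (x', i) (x', j)))
    rw [Fintype.card_fin] at h3
    exact h3
  rw [Finset.sum_congr rfl fun i _ => h2 i, Finset.sum_add_distrib, ← Finset.mul_sum,
    ← Finset.mul_sum]

theorem total_le (M : ℕ) (β : ℝ) (h : Tor n → ℝ) (x0 : Tor n) (w m : ℕ) (hw1 : 1 ≤ w) (hw : w ≤ n)
    (hwm : w * m ≤ n) :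
    ∑ y : Fin 3 → Fin m,
      ∑ z ∈ cubeS n s (x0 + fun i => ((w * (y i : ℕ) : ℕ) : ZMod n)) w,
      ∑ z' ∈ cubeS n s (x0 + fun i => ((w * (y i : ℕ) : ℕ) : ZMod n)) w,
        gib (edgesS n s M) β (hS h) (hM z z') ≤
      (40 * s + 64) * (w : ℝ) ^ 5 *
        ∑ i : Fin s, ∑ j : Fin s, ∑ z ∈ tch (cube n x0 (w * m)), ee n s M β h z i j := by
  set T : Fin s → Fin s → ℝ := fun i j => ∑ z ∈ tch (cube n x0 (w * m)), ee n s M β h z i j with hT
  have hT0 : ∀ i j, 0 ≤ T i j := fun i j => Finset.sum_nonneg fun z _ => ee_nonneg _ _ _ _ _ _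
  set TT : ℝ := ∑ i, ∑ j, T i j with hTT
  have hd : ∑ i, T i i ≤ TT := by
    rw [hTT]
    exact Finset.sum_le_sum fun i _ =>
      Finset.single_le_sum (f := fun j => T i j) (fun j _ => hT0 i j) (Finset.mem_univ i)
  have hd0 : 0 ≤ ∑ i, T i i := Finset.sum_nonneg fun i _ => hT0 i i
  have hTT' : ∑ i, ∑ j, T j i = TT := by rw [hTT, Finset.sum_comm]
  have h1 : ∑ y : Fin 3 → Fin m,
      ∑ z ∈ cubeS n s (x0 + fun i => ((w * (y i : ℕ) : ℕ) : ZMod n)) w,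
      ∑ z' ∈ cubeS n s (x0 + fun i => ((w * (y i : ℕ) : ℕ) : ZMod n)) w,
        gib (edgesS n s M) β (hS h) (hM z z') ≤
      2 * s * ∑ i : Fin s, ∑ y : Fin 3 → Fin m,
          ∑ x ∈ cube n (x0 + fun i => ((w * (y i : ℕ) : ℕ) : ZMod n)) w,
          ∑ x' ∈ cube n (x0 + fun i => ((w * (y i : ℕ) : ℕ) : ZMod n)) w,
          gib (edgesS n s M) β (hS h) (hM (x, i) (x', i)) +
      8 * ∑ i : Fin s, ∑ j : Fin s, ∑ y : Fin 3 → Fin m,
          ∑ x ∈ cube n (x0 + fun i => ((w * (y i : ℕ) : ℕ) : ZMod n)) w,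
          ∑ x' ∈ cube n (x0 + fun i => ((w * (y i : ℕ) : ℕ) : ZMod n)) w,
          gib (edgesS n s M) β (hS h) (hM (x', i) (x', j)) := by
    refine (Finset.sum_le_sum fun y _ => block_le M β h _ w).trans (le_of_eq ?_)
    rw [Finset.sum_add_distrib, ← Finset.mul_sum, ← Finset.mul_sum]
    congr 1
    · rw [Finset.sum_comm]
    · rw [Finset.sum_comm]
      congr 1
      refine Finset.sum_congr rfl fun i _ => ?_
      rw [Finset.sum_comm]
  have h2 : ∑ i : Fin s, ∑ y : Fin 3 → Fin m,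
          ∑ x ∈ cube n (x0 + fun i => ((w * (y i : ℕ) : ℕ) : ZMod n)) w,
          ∑ x' ∈ cube n (x0 + fun i => ((w * (y i : ℕ) : ℕ) : ZMod n)) w,
          gib (edgesS n s M) β (hS h) (hM (x, i) (x', i)) ≤ 12 * (w : ℝ) ^ 5 * ∑ i, T i i := by
    rw [Finset.mul_sum]
    exact Finset.sum_le_sum fun i _ => part_A M β h x0 w m hw hwm i
  have h3 : ∑ i : Fin s, ∑ j : Fin s, ∑ y : Fin 3 → Fin m,
          ∑ x ∈ cube n (x0 + fun i => ((w * (y i : ℕ) : ℕ) : ZMod n)) w,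
          ∑ x' ∈ cube n (x0 + fun i => ((w * (y i : ℕ) : ℕ) : ZMod n)) w,
          gib (edgesS n s M) β (hS h) (hM (x', i) (x', j)) ≤
      (w : ℝ) ^ 3 * (2 * (s * ∑ i, T i i) + 8 * TT) := by
    refine (Finset.sum_le_sum fun i _ => Finset.sum_le_sum fun j _ =>
      part_B M β h x0 w m hw hwm i j).trans (le_of_eq ?_)
    rw [← hTT']
    simp only [← Finset.mul_sum, Finset.sum_add_distrib, Finset.sum_const, Finset.card_univ,
      Fintype.card_fin, nsmul_eq_mul]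
    rfl
  have hw1' : (1 : ℝ) ≤ w := by exact_mod_cast hw1
  have h4 : (w : ℝ) ^ 3 ≤ (w : ℝ) ^ 5 := pow_le_pow_right₀ hw1' (by norm_num)
  have hs0 : (0 : ℝ) ≤ s := Nat.cast_nonneg s
  have hTT0 : 0 ≤ TT := hd0.trans hd
  have h5 : (s : ℝ) * ∑ i, T i i ≤ s * TT := mul_le_mul_of_nonneg_left hd hs0
  have h6 : 2 * (s : ℝ) * (12 * (w : ℝ) ^ 5 * ∑ i, T i i) ≤ 24 * (w : ℝ) ^ 5 * (s * TT) := by
    have : 2 * (s : ℝ) * (12 * (w : ℝ) ^ 5 * ∑ i, T i i) =
        24 * (w : ℝ) ^ 5 * (s * ∑ i, T i i) := by ring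
    rw [this]
    exact mul_le_mul_of_nonneg_left h5 (by positivity)
  have h7 : (w : ℝ) ^ 3 * (2 * (s * ∑ i, T i i) + 8 * TT) ≤
      (w : ℝ) ^ 5 * (2 * (s * TT) + 8 * TT) := by
    refine mul_le_mul h4 (by linarith) ?_ (by positivity)
    have : 0 ≤ (s : ℝ) * ∑ i, T i i := mul_nonneg hs0 hd0
    linarith
  have h8 : 2 * (s : ℝ) * ∑ i : Fin s, ∑ y : Fin 3 → Fin m,
          ∑ x ∈ cube n (x0 + fun i => ((w * (y i : ℕ) : ℕ) : ZMod n)) w,
          ∑ x' ∈ cube n (x0 + fun i => ((w * (y i : ℕ) : ℕ) : ZMod n)) w,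
          gib (edgesS n s M) β (hS h) (hM (x, i) (x', i)) ≤
      2 * (s : ℝ) * (12 * (w : ℝ) ^ 5 * ∑ i, T i i) :=
    mul_le_mul_of_nonneg_left h2 (by positivity)
  calc _ ≤ _ := h1
    _ ≤ 24 * (w : ℝ) ^ 5 * (s * TT) + 8 * ((w : ℝ) ^ 5 * (2 * (s * TT) + 8 * TT)) := by
        linarith
    _ = (40 * s + 64) * (w : ℝ) ^ 5 * TT := by ring

theorem card_cubeS (x : Tor n) {w : ℕ} (hw : w ≤ n) :
    ((cubeS n s x w).card : ℝ) = (w : ℝ) ^ 3 * s := by
  rw [cubeS, Finset.card_product, EnR.card_cube _ hw, Finset.card_univ, Fintype.card_fin]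
  push_cast
  rfl

/-- **(M3)** -/
theorem energyStmtS (s : ℕ) : EnergyStmtS s := by
  refine ⟨12 * (40 * s + 64), ?_⟩
  intro n _ M β h x w m hβ hh hw hm hwm
  have hw' : (0 : ℝ) < w := by exact_mod_cast hw
  have hm' : (0 : ℝ) < m := by exact_mod_cast hm
  have hwn : w ≤ n := by nlinarith
  have hwmn : w * m ≤ n := by omega
  rcases Nat.eq_zero_or_pos s with rfl | hs
  · have h0 : ∀ b : Tor n, Db (edgesS n 0 M) β (hS h) (cubeS n 0 b w) = 0 := by
      intro b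
      rw [Db, card_cubeS b hwn]
      simp
    simp only [h0, Finset.sum_const_zero, zero_div]
    positivity
  have hs' : (0 : ℝ) < s := by exact_mod_cast hs
  have hs1 : (1 : ℝ) ≤ s := by exact_mod_cast hs
  have h1 := total_le (s := s) M β h x w m hw hwn hwmn
  have h2 := energy_Q (s := s) M hβ.le (fun x => (hh x).le) x (l := w * m) (Nat.mul_pos hw hm)
  set T := ∑ i : Fin s, ∑ j : Fin s, ∑ z ∈ tch (cube n x (w * m)), ee n s M β h z i j with hT
  have h3 : T ≤ (s * ((w * m : ℕ) : ℝ) ^ 3 + 6 * s ^ 2 * β * ((w * m : ℕ) : ℝ) ^ 2) / β := by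
    rw [le_div_iff₀ hβ, mul_comm]
    exact h2
  have h5 : ∀ y : Fin 3 → Fin m, Db (edgesS n s M) β (hS h)
        (cubeS n s (x + fun i => ((w * (y i : ℕ) : ℕ) : ZMod n)) w) =
      2 / ((w : ℝ) ^ 6 * s ^ 2) *
      ∑ z ∈ cubeS n s (x + fun i => ((w * (y i : ℕ) : ℕ) : ZMod n)) w,
      ∑ z' ∈ cubeS n s (x + fun i => ((w * (y i : ℕ) : ℕ) : ZMod n)) w,
        gib (edgesS n s M) β (hS h) (hM z z') := by
    intro y
    rw [Db, card_cubeS _ hwn]
    field_simp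
    ring
  simp only [h5]
  rw [← Finset.mul_sum, div_le_iff₀ (by positivity)]
  have h6 : (40 * (s : ℝ) + 64) * (w : ℝ) ^ 5 * T ≤ (40 * s + 64) * (w : ℝ) ^ 5 *
      ((s * ((w * m : ℕ) : ℝ) ^ 3 + 6 * s ^ 2 * β * ((w * m : ℕ) : ℝ) ^ 2) / β) :=
    mul_le_mul_of_nonneg_left h3 (by positivity)
  calc 2 / ((w : ℝ) ^ 6 * s ^ 2) * _ ≤ 2 / ((w : ℝ) ^ 6 * s ^ 2) * ((40 * s + 64) * (w : ℝ) ^ 5 *
      ((s * ((w * m : ℕ) : ℝ) ^ 3 + 6 * s ^ 2 * β * ((w * m : ℕ) : ℝ) ^ 2) / β)) :=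
        mul_le_mul_of_nonneg_left (h1.trans h6) (by positivity)
    _ = 2 * (40 * s + 64) * (((w : ℝ) ^ 2 * m ^ 3 / β) * (1 / s) + 6 * ((w : ℝ) * m ^ 2)) := by
        push_cast
        field_simp
    _ ≤ 2 * (40 * s + 64) * (((w : ℝ) ^ 2 * m ^ 3 / β) * 6 + 6 * ((w : ℝ) * m ^ 2)) := by
        refine mul_le_mul_of_nonneg_left ?_ (by positivity)
        have h7 : 1 / (s : ℝ) ≤ 6 := by
          rw [div_le_iff₀ hs']
          linarith
        have h8 : 0 ≤ (w : ℝ) ^ 2 * m ^ 3 / β := by positivity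
        have := mul_le_mul_of_nonneg_left h7 h8
        linarith
    _ = _ := by
        field_simp
        ring

end Tor

end

end Vale.Agent.P361.LRO.GenS.EnS
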