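import Vale.Agent.P361.LRO.GenS.PiFacts
import Vale.Agent.P361.LRO.GenS.ExpProj
import Vale.Agent.P361.LRO.GenS.Iface

/-!
P361 LRO, general spin: the limit `M → ∞` of the Gibbs states of `edgesS n s M` is the Gibbs state
of the spin `s / 2` model.
-/

namespace Vale.Agent.P361.LRO.GenS

open Finset Matrix Filter Topology

noncomputable section

section Lists

variable {α κ M : Type*} [AddCommMonoid M]

theorem list_flatMap_sum (l : List α) (g : α → List κ) (f : κ → M) :
    ((l.flatMap g).map f).sum = (l.map fun a => ((g a).map f).sum).sum := by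
  induction l with
  | nil => simp
  | cons a l ih => simp [List.flatMap_cons, List.map_append, List.sum_append, ih]

theorem finRange_sum {s : ℕ} (f : Fin s → M) :
    ((List.finRange s).map f).sum = ∑ i, f i := by
  rw [← List.sum_ofFn, List.ofFn_eq_map]

end Lists

variable {n s : ℕ} [NeZero n]

theorem sum_interE {M : Type*} [AddCommMonoid M] (f : (Tor n × Fin s) × (Tor n × Fin s) → M) :
    ((interE n s).map f).sum = ((interL (edges n) s).map f).sum := by
  unfold interE interL
  rw [list_flatMap_sum, list_flatMap_sum]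
  congr 1
  refine List.map_congr_left fun e _ => ?_
  rw [list_flatMap_sum]
  have h1 : (fun i : Fin s => (((List.finRange s).map fun j => ((e.1, i), (e.2, j))).map f).sum) =
      fun i : Fin s => ∑ j : Fin s, f ((e.1, i), (e.2, j)) := by
    funext i
    rw [List.map_map]
    exact finRange_sum _
  rw [h1, finRange_sum, List.map_map, Finset.sum_map_toList, Fintype.sum_prod_type]
  rfl

theorem intraE_eq : intraE n s = intraL (Tor n) s := rfl

theorem ham_edgesS (M : ℕ) (h : Tor n × Fin s → ℝ) :
    ham (edgesS n s M) h = ham (Lm (edges n) s M) h := by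
  unfold ham edgesS Lm
  rw [List.map_append, List.sum_append, List.map_append, List.sum_append, sum_interE, intraE_eq]

theorem gib_edgesS (M : ℕ) (β : ℝ) (h : Tor n × Fin s → ℝ)
    (A : Matrix (Tor n × Fin s → Fin 2) (Tor n × Fin s → Fin 2) ℝ) :
    gib (edgesS n s M) β h A = gib (Lm (edges n) s M) β h A := by
  unfold gib
  rw [ham_edgesS]

theorem ham_symm {W : Type} [Fintype W] [DecidableEq W] (L : List (W × W)) (h : W → ℝ) :
    (ham L h).IsSymm := by
  have h1 : ∀ E : List (W × W), ((E.map fun e => hM e.1 e.2).sum)ᵀ =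
      (E.map fun e => hM e.1 e.2).sum := by
    intro E
    induction E with
    | nil => simp
    | cons e E ih => rw [List.map_cons, List.sum_cons, Matrix.transpose_add, ih, Lim.hM_transpose]
  unfold ham Matrix.IsSymm
  rw [Matrix.transpose_sub, h1, Matrix.transpose_sum]
  congr 1
  refine Finset.sum_congr rfl fun x _ => ?_
  rw [Matrix.transpose_smul, szM, Matrix.diagonal_transpose]

/-- **(M4)** The total magnetization of the copies converges to the magnetization of the spin
`s / 2` model. -/
theorem tendsto_gibbsMag [NeZero s] (hn : 3 ≤ n) {β : ℝ} (hβ : 0 < β) (h : ℝ) :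
    Tendsto (fun M : ℕ => ∑ z : Tor n × Fin s,
        (1 / 2 - rho (edgesS n s M) β (hS fun _ => h) z)) atTop
      (𝓝 (gibbsMagV s (torusAdj n) β h)) := by
  have hZ : ∀ M : ℕ, Matrix.trace (NormedSpace.exp
      (-β • ham (edgesS n s M) (hS fun _ : Tor n => h))) ≠ 0 := fun M => (trace_exp_pos_real (by
      unfold Matrix.IsSymm
      rw [Matrix.transpose_smul, ham_symm])).ne'
  have h1 : ∀ M : ℕ, ∑ z : Tor n × Fin s, (1 / 2 - rho (edgesS n s M) β (hS fun _ => h) z) =
      gib (Lm (edges n) s M) β (lift s fun _ : Tor n => h)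
        (∑ z : Tor n × Fin s, (1 / 2 : ℝ) • szM z) := by
    intro M
    have e1 : ∀ z : Tor n × Fin s, 1 / 2 - rho (edgesS n s M) β (hS fun _ => h) z =
        gib (edgesS n s M) β (hS fun _ => h) ((1 / 2 : ℝ) • szM z) :=
      fun z => rho_eq_gib _ _ _ _ (hZ M)
    rw [Finset.sum_congr rfl fun z _ => e1 z, ← gib_edgesS]
    unfold gib
    rw [← Finset.sum_div, Finset.mul_sum, Matrix.trace_sum]
    rfl
  simp only [h1]
  rw [gibbsMagV_spin hn]
  have key := Lim.tendsto_gib (interL (edges n) s) (intraL (Tor n) s) (lift s fun _ : Tor n => h) hβ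
    (symProd (Tor n) s) (∑ z : Tor n × Fin s, (1 / 2 : ℝ) • szM z) symProd_transpose
    (fun e he => by
      obtain ⟨⟨x, a⟩, ⟨y, b⟩⟩ := e
      have h2 := (mem_intraL.1 he).1
      dsimp only at h2
      subst h2
      exact swapM_mul_symProd x a b)
    (fun v hv => symProd_mulVec v fun x a b => by
      rcases lt_trichotomy a b with hab | hab | hab
      · exact hv ((x, a), (x, b)) (mem_intraL.2 ⟨rfl, hab⟩)
      · subst hab
        have : swapM (x, a) (x, a) = (1 : Matrix (Tor n × Fin s → Fin 2)
            (Tor n × Fin s → Fin 2) ℝ) := by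
          ext σ τ
          simp [swapM, Matrix.one_apply]
        rw [this, Matrix.one_mulVec]
      · have h3 := hv ((x, b), (x, a)) (mem_intraL.2 ⟨rfl, hab⟩)
        have h4 : swapM (x, a) (x, b) = swapM (x, b) (x, a) := by
          ext σ τ
          simp [swapM, Equiv.swap_comm]
        rw [h4]
        exact h3)
    (fun e he => by
      obtain ⟨⟨x, a⟩, ⟨y, b⟩⟩ := e
      have h2 := (mem_intraL.1 he).1
      dsimp only at h2
      subst h2
      exact comm_ham (edges n) _ x a b)
    (trace_symProd_exp_pos hn β h).ne'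
  exact key

end

end Vale.Agent.P361.LRO.GenS
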