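import Vale.Agent.P361.LRO.GenS.Top
import Vale.Agent.P361.LRO.GenS.LimS
import Vale.Agent.P361.LRO.GenS.EnergyS
import Vale.Agent.P361.LRO.Tw.Final
import Vale.Agent.P361.LRO.LY.Reg

/-!
P361 LRO, all spins: everything except the stiffness of the blocks (M2).
-/

namespace Vale.Agent.P361.LRO.GenS

open Finset Matrix Filter Topology

noncomputable section

/-- The block twist for `10 ≤ K ≤ |b|`, with the constant `1`. -/
theorem twistP {V : Type} [Fintype V] [DecidableEq V] (L : List (V × V)) {β : ℝ} (hβ : 0 < β)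
    {h : V → ℝ} (hh : ∀ x, 0 ≤ h x) {b : Finset V} {K κ : ℝ} (hK : 10 ≤ K) (hKb : K ≤ b.card)
    (hκ : 0 < κ) (hf : ∃ᶠ N : ℕ in atTop, κ ≤ kap L β N h K b) :
    (∑ x ∈ b, rho L β h x) / b.card ≤ 1 * (1 + K) ^ 4 * Db L β h b + 1 / κ := by
  have h1 := block_twist L hβ hh hK hKb hκ hf
  have h2 := Dst_nonneg L β h b
  rw [Db_eq_Dst]
  have h3 : K ^ 3 ≤ (1 + K) ^ 4 := by
    have e : (1 + K) ^ 4 - K ^ 3 = 1 + 4 * K + 6 * K ^ 2 + 3 * K ^ 3 + K ^ 4 := by ring
    have : 0 ≤ 1 + 4 * K + 6 * K ^ 2 + 3 * K ^ 3 + K ^ 4 := by positivity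
    linarith
  have h4 : K ^ 3 * Dst L β h b ≤ (1 + K) ^ 4 * Dst L β h b := mul_le_mul_of_nonneg_right h3 h2
  linarith

/-- The step of the bootstrap. -/
theorem stepP {s : ℕ} (hs : 1 ≤ s) (h7 : EnergyStmtS s) (h8 : RegStmt)
    (ht : TransStmtS s) (h6 : KappaStmtS s) :
    ∀ᶠ β : ℝ in atTop, ∀ᶠ n : ℕ in atTop, Odd n → ∀ [NeZero n] (M : ℕ) (h0 : ℝ),
      (n : ℝ) ^ (-(1 / 4) : ℝ) ≤ h0 → h0 ≤ 1 → BHS n s M β (lamS β) (etaB β) h0 →
        BHS n s M β (lamS β) (etaB β / 2) h0 := by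
  obtain ⟨c, hc, h6⟩ := h6
  set C1 : ℝ := 1 with hC1e
  have hC1 : 0 < C1 := one_pos
  obtain ⟨C, h7⟩ := h7
  have hsR : (1 : ℝ) ≤ s := by exact_mod_cast hs
  have hC' : 0 < max C 1 := lt_max_of_lt_right one_pos
  have hA : (0 : ℝ) < 32 * C1 / c := by positivity
  have hCC : 0 < C1 * max C 1 := by positivity
  obtain ⟨β0, h6⟩ := h6 _ hA
  filter_upwards [par_S _ (C1 * max C 1) hA hCC, eventually_ge_atTop β0,
    eventually_gt_atTop (1 : ℝ)] with β hp hβ0 hβ1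
  obtain ⟨n0, h6⟩ := h6 β hβ0
  obtain ⟨hw, hm, hlam, hK10, hKw, hpar, hd1, hd2⟩ := hp
  have hβ : 0 < β := by linarith
  have hη := etaB_pos hβ
  have hη1 := etaB_le_one hβ1.le
  filter_upwards [eventually_ge_atTop n0, eventually_ge_atTop 3,
    eventually_ge_atTop (3 * (wS β * mS β))] with n hn0' hn3 hnw3
  intro hodd _ M h0 hh0 hh01 hB h hh z0
  obtain ⟨x, i0⟩ := z0
  have hnw : wS β * mS β ≤ n := by omega
  have hn0 : (0 : ℝ) < n := by
    have : (3 : ℝ) ≤ n := by exact_mod_cast hn3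
    linarith
  have h0p : 0 < h0 := (Real.rpow_pos_of_pos hn0 _).trans_le hh0
  have hpos : ∀ y, 0 < h y := fun y => h0p.trans_le (hh.1 y).1
  set K : ℝ := 32 * C1 / c / etaB β with hK
  set κ : ℝ := c * K with hκ
  have hκ' : C1 / κ = etaB β / 32 := by
    rw [hκ, hK]
    field_simp
  have hκp : 0 < κ := by
    rw [hκ, hK]
    positivity
  have hKeq : K = 32 * C1 / c * β ^ (1 / 100 : ℝ) := by
    rw [hK]
    unfold etaB
    rw [Real.rpow_neg hβ.le, div_inv_eq_mul]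
  -- the blocks of the cube
  set bl : (Fin 3 → Fin (mS β)) → Finset (Tor n × Fin s) := fun y =>
    cubeS n s (x + fun i => ((wS β * (y i : ℕ) : ℕ) : ZMod n)) (wS β) with hbl
  have hwn : wS β ≤ n := le_trans (Nat.le_mul_of_pos_right _ hm) hnw
  have hcard : ∀ z : Tor n, (cubeS n s z (wS β)).card = wS β ^ 3 * s := fun z =>
    card_cubeS hwn z
  have e1 : (wS β : ℝ) = (3 : ℝ) ^ aS β := by
    unfold wS
    push_cast
    rfl
  have htw : ∀ y, (∑ z ∈ bl y, rho (edgesS n s M) β (hS h) z) / (bl y).card ≤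
      etaB β / 32 + C1 * (1 + K) ^ 4 * Db (edgesS n s M) β (hS h) (bl y) := by
    intro y
    have hκN : ∃ᶠ N : ℕ in atTop, κ ≤ kap (edgesS n s M) β N (hS h) K (bl y) := by
      have h2 := h6 n hn0' hodd M (aS β) (e1 ▸ wS_ge β) (e1 ▸ wS_le hβ1) h0 hh0 hh01
        (fun h' hh' x' => hB h' hh' x') h hh
        (x + fun i => ((wS β * (y i : ℕ) : ℕ) : ZMod n))
      rw [← hKeq] at h2
      exact h2
    have hKc : K ≤ ((bl y).card : ℝ) := by
      rw [hbl]
      dsimp only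
      rw [hcard]
      push_cast
      have hw3 : (0 : ℝ) ≤ (wS β : ℝ) ^ 3 := by positivity
      nlinarith
    have h2 := twistP (edgesS n s M) hβ (h := hS h) (fun z => (hpos z.1).le) hK10 hKc hκp hκN
    rw [hκ'] at h2
    linarith
  have hsum : ∑ y, (∑ z ∈ bl y, rho (edgesS n s M) β (hS h) z) / (bl y).card ≤
      (mS β : ℝ) ^ 3 * (etaB β / 16) := by
    refine (Finset.sum_le_sum fun y _ => htw y).trans ?_
    rw [Finset.sum_add_distrib, ← Finset.mul_sum, Finset.sum_const, Finset.card_univ,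
      Fintype.card_fun, Fintype.card_fin, Fintype.card_fin, nsmul_eq_mul]
    push_cast
    have h2 := h7 n M β h x (wS β) (mS β) hβ hpos hw hm hnw3
    have hm3' : (0 : ℝ) < (mS β : ℝ) ^ 3 := by positivity
    rw [div_le_iff₀ hm3'] at h2
    have hCm : C * (wS β : ℝ) ^ 2 * (1 / β + 1 / ((wS β : ℝ) * mS β)) ≤
        max C 1 * (wS β : ℝ) ^ 2 * (1 / β + 1 / ((wS β : ℝ) * mS β)) := by
      rw [mul_assoc, mul_assoc]
      refine mul_le_mul_of_nonneg_right (le_max_left _ _) ?_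
      positivity
    have h2' : ∑ y : Fin 3 → Fin (mS β), Db (edgesS n s M) β (hS h) (bl y) ≤
        (mS β : ℝ) ^ 3 * (max C 1 * (wS β : ℝ) ^ 2 * (1 / β + 1 / ((wS β : ℝ) * mS β))) := by
      have h3 := mul_le_mul_of_nonneg_right hCm hm3'.le
      rw [hbl]
      dsimp only
      linarith
    have hK3 : 0 ≤ C1 * (1 + K) ^ 4 := by positivity
    have h3 := mul_le_mul_of_nonneg_left h2' hK3
    have hm3 : (0 : ℝ) ≤ (mS β : ℝ) ^ 3 := by positivity
    have h4 := mul_le_mul_of_nonneg_left hpar hm3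
    have h5 : C1 * (1 + K) ^ 4 * ((mS β : ℝ) ^ 3 * (max C 1 * (wS β : ℝ) ^ 2 *
        (1 / β + 1 / ((wS β : ℝ) * mS β)))) =
        (mS β : ℝ) ^ 3 * ((1 + K) ^ 4 * (C1 * max C 1 * (wS β : ℝ) ^ 2 *
          (1 / β + 1 / ((wS β : ℝ) * mS β)))) := by ring
    rw [h5] at h3
    linarith
  -- a good point
  obtain ⟨y, z, hz, hρz⟩ : ∃ y, ∃ z ∈ bl y, rho (edgesS n s M) β (hS h) z ≤ etaB β / 16 :=
    good_point hm _ bl (fun y => hcard _) hw hs hsum
  -- the vector from `x` to `z`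
  obtain ⟨k, hk, hzk⟩ : ∃ k : Fin 3 → ℕ, (∀ i, k i ≤ wS β * mS β) ∧
      z.1 = x + fun i => (k i : ZMod n) := by
    rw [hbl] at hz
    unfold cubeS cube at hz
    dsimp only at hz
    rw [Finset.mem_product, Finset.mem_image] at hz
    obtain ⟨a, -, ha⟩ := hz.1
    refine ⟨fun i => wS β * (y i : ℕ) + (a i : ℕ), fun i => ?_, ?_⟩
    · have h2 : (y i : ℕ) + 1 ≤ mS β := (y i).2
      have h3 := Nat.mul_le_mul_left (wS β) h2
      have h4 : (a i : ℕ) < wS β := (a i).2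
      rw [mul_add, mul_one] at h3
      exact (Nat.add_le_add_left h4.le _).trans h3
    · rw [← ha, add_assoc]
      congr 1
      funext i
      simp only [Pi.add_apply]
      push_cast
      ring
  set v : Tor n := fun i => (k i : ZMod n) with hv
  -- Harnack
  have hd0 : (0 : ℝ) ≤ 3 * (wS β * mS β) * lamS β := by positivity
  have hlog : ∀ u, |Real.log (h (u + v)) - Real.log (h u)| ≤ 3 * (wS β * mS β) * lamS β := by
    intro u
    have := fam_log_vec hh h0p (wS β * mS β) k hk hlam u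
    push_cast at this
    exact this
  obtain ⟨hM, hH⟩ := h8 (Tor n × Fin s) (edgesS n s M) β (hS fun u => h (u + v)) (hS h) _ hβ
    (fun u => hpos _) (fun u => hpos _) hd0 hd2 (fun u => hlog u.1) (x, i0)
  have hzz : rho (edgesS n s M) β (hS fun u => h (u + v)) (x, i0) =
      rho (edgesS n s M) β (hS h) z := by
    rw [ht n M β h x v i0 z.2, ← hzk]
  rw [hzz] at hM hH
  have hM' : 0 < 1 - 2 * rho (edgesS n s M) β (hS h) (x, i0) :=
    (h8 (Tor n × Fin s) (edgesS n s M) β (hS h) (hS h) 0 hβ (fun u => hpos _) (fun u => hpos _)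
      le_rfl (by rw [mul_zero]; positivity) (fun u => by rw [sub_self, abs_zero]) (x, i0)).1
  exact end_calc hη hη1 hM' hM hρz (by linarith)

/-- **The bootstrap, assembled, for spin `s / 2`.** -/
theorem bootStmtS_ofP {s : ℕ} (hs : 1 ≤ s) (h6 : KappaStmtS s)
    (h7 : EnergyStmtS s) (h8 : RegStmt) (hst : StartStmtS s) (ht : TransStmtS s) :
    BootStmtS s := by
  have hstep := stepP hs h7 h8 ht h6
  obtain ⟨C, hst⟩ := hst
  have hlog : ∀ᶠ β : ℝ in atTop, C / β ≤ β ^ (-(1 / 100) : ℝ) := by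
    have h2 : Tendsto (fun β : ℝ => β ^ (99 / 100 : ℝ)) atTop atTop :=
      tendsto_rpow_atTop (by norm_num)
    filter_upwards [h2.eventually_ge_atTop C, eventually_gt_atTop (0 : ℝ)] with β hβ1 hβ
    rw [div_le_iff₀ hβ]
    refine hβ1.trans (le_of_eq ?_)
    conv_rhs =>
      rhs
      rw [← Real.rpow_one β]
    rw [← Real.rpow_add hβ]
    norm_num
  obtain ⟨β0, H⟩ := eventually_atTop.1 (hstep.and (hlog.and (eventually_ge_atTop (1 : ℝ))))
  refine ⟨β0, fun β hβ0 => ?_⟩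
  obtain ⟨hst', hlog, hβ1⟩ := H β hβ0
  have hβ : 0 < β := by linarith
  obtain ⟨n0, Hn⟩ := eventually_atTop.1 hst'
  refine ⟨n0, fun n _ hn hodd M h hh hh1 z => ?_⟩
  have hn0 : (0 : ℝ) < n := by exact_mod_cast NeZero.pos n
  have ha0 : (0 : ℝ) < (n : ℝ) ^ (-(1 / 4) : ℝ) := Real.rpow_pos_of_pos hn0 _
  have hη := etaB_pos hβ
  have hlam : 0 ≤ lamS β := (Real.rpow_pos_of_pos hβ _).le
  have key := bootS (n := n) (s := s) M (β := β) hη hlam ha0 (hh.trans hh1)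
    (fun z => (hst n M β z hβ).trans hlog)
    (fun h0 hh0 hh01 hB => Hn n hn hodd M h0 hh0 hh01 hB) (fun _ => h) ?_ z
  · have e1 : etaB β = β ^ (-(1 / 100) : ℝ) := rfl
    rw [← e1]
    linarith
  · refine ⟨fun _ => ⟨hh, hh1⟩, fun _ _ => ?_⟩
    have e2 : 1 ≤ Real.exp (lamS β) := Real.one_le_exp hlam
    have e3 : 0 < h := ha0.trans_le hh
    constructor <;> nlinarith

theorem limStmtS {s : ℕ} (hs : 1 ≤ s) : LimStmtS s := by
  intro n _ hn β h hβ _
  have : NeZero s := ⟨by omega⟩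
  exact tendsto_gibbsMag hn hβ h

/-- **Low-temperature order for every spin `s / 2`, from the stiffness of the blocks.** -/
theorem lroS_of_kappa {s : ℕ} (hs : 1 ≤ s) (h6 : KappaStmtS s) :
    ∃ β0 : ℝ, 0 < β0 ∧ ∀ β : ℝ, β0 ≤ β →
      (s : ℝ) / 2 - s * β ^ (-(1 / 100) : ℝ) ≤ Model.spontMag s β :=
  mainS_of (limStmtS hs)
    (bootStmtS_ofP hs h6 (EnS.energyStmtS s) LY.regStmt (startStmtS s) (transStmtS s))

end

end Vale.Agent.P361.LRO.GenS
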