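import Vale.Agent.P361.LRO.GenS.KappaS
import Vale.Agent.P361.LRO.GenS.Final

/-!
P361, low-temperature order for every spin `s / 2`: the final assembly.
-/

namespace Vale.Agent.P361.LRO.GenS

/-- **Low temperature order of the three-dimensional quantum Heisenberg ferromagnet, every spin
`s / 2`.** -/
theorem finalS (s : ℕ) (hs : 1 ≤ s) : ∃ β0 : ℝ, 0 < β0 ∧ ∀ β : ℝ, β0 ≤ β →
    (s : ℝ) / 2 - s * β ^ (-(1 / 100) : ℝ) ≤ Model.spontMag s β :=
  lroS_of_kappa hs (kappaStmtS' s hs)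

end Vale.Agent.P361.LRO.GenS
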