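import Vale.Agent.P361.LRO.Defs

/-!
P361, general spin: the symmetriser of `m` copies is exactly a finite product of exchange gates
`(1 - p) + p P_{ij}` with `p = 1 / (j - i + 1) ≤ 1/2` (fusion formula).
-/

namespace Vale.Agent.P361.LRO.GenS

open Finset Matrix Equiv

noncomputable section

/-! ### The fusion formula in an algebra -/

section Alg

variable {A : Type*} [Ring A] [Algebra ℝ A] {ι : Type*} [DecidableEq ι]

/-- The gate `(1 - p) + p U(x y)`. -/
def gU (U : Perm ι →* A) (e : ι × ι × ℝ) : A :=
  (1 - e.2.2) • (1 : A) + e.2.2 • U (swap e.1 e.2.1)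

/-- Fusion list: for `j < m`, for `i < j`, the gate `(c i, c j, 1 / (j - i + 1))`. -/
def fusL (c : ℕ → ι) : ℕ → List (ι × ι × ℝ)
  | 0 => []
  | (j + 1) => fusL c j ++ (List.range j).map fun i => (c i, c j, 1 / ((j : ℝ) - i + 1))

omit [DecidableEq ι] in
theorem fusL_mem (c : ℕ → ι) (m : ℕ) {e : ι × ι × ℝ} (he : e ∈ fusL c m) :
    ∃ i j : ℕ, i < j ∧ j < m ∧ e = (c i, c j, 1 / ((j : ℝ) - i + 1)) := by
  induction m with
  | zero => simp [fusL] at he
  | succ m ih =>
    rw [fusL, List.mem_append] at he
    rcases he with he | he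
    · obtain ⟨i, j, h1, h2, h3⟩ := ih he
      exact ⟨i, j, h1, by omega, h3⟩
    · rw [List.mem_map] at he
      obtain ⟨i, hi, rfl⟩ := he
      exact ⟨i, m, List.mem_range.1 hi, by omega, rfl⟩

omit [DecidableEq ι] in
theorem fusL_p (c : ℕ → ι) (m : ℕ) : ∀ e ∈ fusL c m, 0 ≤ e.2.2 ∧ e.2.2 ≤ 1 / 2 := by
  intro e he
  obtain ⟨i, j, h1, h2, rfl⟩ := fusL_mem c m he
  have h : (1 : ℝ) ≤ (j : ℝ) - i := by
    have : ((i + 1 : ℕ) : ℝ) ≤ (j : ℝ) := by exact_mod_cast h1
    push_cast at this
    linarith
  dsimp only
  constructor
  · positivity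
  · rw [div_le_div_iff₀ (by linarith) (by norm_num)]
    linarith

variable (U : Perm ι →* A) (c : ℕ → ι)

/-- stage: multiplication of `P` with the gates `(i j)`, `i < l`. -/
theorem stage {j : ℕ} (hc : ∀ i k, i ≤ j → k ≤ j → c i = c k → i = k) (P : A)
    (hP : ∀ i k, i < j → k < j → P * U (swap (c i) (c k)) = P) (l : ℕ) (hl : l ≤ j) :
    P * (((List.range l).map fun i => (c i, c j, 1 / ((j : ℝ) - i + 1))).map (gU U)).prod
      = (((j : ℝ) - l + 1) / (j + 1)) • P
          + (1 / ((j : ℝ) + 1)) • (P * ∑ i ∈ range l, U (swap (c i) (c j))) := by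
  have hj1 : (0 : ℝ) < (j : ℝ) + 1 := by positivity
  induction l with
  | zero =>
    have : ((j : ℝ) - ((0 : ℕ) : ℝ) + 1) / (j + 1) = 1 := by
      push_cast
      rw [sub_zero, div_self hj1.ne']
    rw [this]
    simp
  | succ l ih =>
    have ihl := ih (by omega)
    rw [List.range_succ, List.map_append, List.map_append, List.prod_append, ← mul_assoc, ihl]
    simp only [List.map_cons, List.map_nil, List.prod_cons, List.prod_nil, mul_one]
    have hjl : (0 : ℝ) < (j : ℝ) - l + 1 := by
      have : ((l + 1 : ℕ) : ℝ) ≤ (j : ℝ) := by exact_mod_cast hl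
      push_cast at this
      linarith
    set Y : A := U (swap (c l) (c j)) with hY
    set X : A := ∑ i ∈ range l, U (swap (c i) (c j)) with hX
    have hXY : P * X * Y = P * X := by
      rw [hX, Finset.mul_sum, Finset.sum_mul]
      refine sum_congr rfl fun i hi => ?_
      have hi' := mem_range.1 hi
      have e1 : swap (c i) (c j) * swap (c l) (c j) = swap (c i) (c l) * swap (c i) (c j) := by
        rw [Equiv.mul_swap_eq_swap_mul, Equiv.swap_apply_right, Equiv.swap_apply_of_ne_of_ne,
          Equiv.swap_comm (c l) (c i)]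
        · intro h; have := hc l i (by omega) (by omega) h; omega
        · intro h; have := hc l j (by omega) (by omega) h; omega
      rw [mul_assoc, hY, ← map_mul, e1, map_mul, ← mul_assoc, hP i l (by omega) (by omega)]
    rw [gU]
    dsimp only
    rw [sum_range_succ, ← hX, ← hY]
    have e2 : (((j : ℝ) - l + 1) / (j + 1)) • P * ((1 - 1 / ((j : ℝ) - l + 1)) • (1 : A)
          + (1 / ((j : ℝ) - l + 1)) • Y)
        = (((j : ℝ) - ((l + 1 : ℕ) : ℝ) + 1) / (j + 1)) • P + (1 / ((j : ℝ) + 1)) • (P * Y) := by
      rw [mul_add, mul_smul_comm, mul_one, smul_smul, mul_smul_comm, smul_mul_assoc, smul_smul]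
      congr 2
      · push_cast
        field_simp
        ring
      · field_simp
    have e3 : (1 / ((j : ℝ) + 1)) • (P * X) * ((1 - 1 / ((j : ℝ) - l + 1)) • (1 : A)
          + (1 / ((j : ℝ) - l + 1)) • Y) = (1 / ((j : ℝ) + 1)) • (P * X) := by
      rw [mul_add, mul_smul_comm, mul_one, smul_smul, mul_smul_comm, smul_mul_assoc, smul_smul,
        hXY, ← add_smul]
      congr 1
      ring
    rw [add_mul, e2, e3, mul_add, smul_add]
    abel

omit [Algebra ℝ A] in
/-- One more copy: if `P` absorbs the exchanges of the copies `< j`, then `P (1 + Σ (i j))` absorbs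
the exchanges of the copies `≤ j`. -/
theorem absorb_succ {j : ℕ} (hc : ∀ i k, i ≤ j → k ≤ j → c i = c k → i = k) (P : A)
    (hP : ∀ i k, i < j → k < j → P * U (swap (c i) (c k)) = P) (k l : ℕ) (hk : k ≤ j)
    (hl : l ≤ j) :
    (P + P * ∑ i ∈ range j, U (swap (c i) (c j))) * U (swap (c k) (c l))
      = P + P * ∑ i ∈ range j, U (swap (c i) (c j)) := by
  -- the case `l = j`
  have key : ∀ k, k < j → (P + P * ∑ i ∈ range j, U (swap (c i) (c j))) * U (swap (c k) (c j))
      = P + P * ∑ i ∈ range j, U (swap (c i) (c j)) := by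
    intro k hk
    have hkr : k ∈ range j := mem_range.2 hk
    rw [add_mul, ← Finset.add_sum_erase _ _ hkr, mul_add, add_mul]
    have h1 : P * U (swap (c k) (c j)) * U (swap (c k) (c j)) = P := by
      rw [mul_assoc, ← map_mul, Equiv.swap_mul_self, map_one, mul_one]
    have h2 : P * ∑ i ∈ (range j).erase k, U (swap (c i) (c j)) * U (swap (c k) (c j))
        = P * ∑ i ∈ (range j).erase k, U (swap (c i) (c j)) := by
      rw [Finset.mul_sum, Finset.mul_sum]
      refine sum_congr rfl fun i hi => ?_
      have hi' := mem_range.1 (mem_of_mem_erase hi)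
      have hik : i ≠ k := (mem_erase.1 hi).1
      have e1 : swap (c i) (c j) * swap (c k) (c j) = swap (c i) (c k) * swap (c i) (c j) := by
        rw [Equiv.mul_swap_eq_swap_mul, Equiv.swap_apply_right, Equiv.swap_apply_of_ne_of_ne,
          Equiv.swap_comm (c k) (c i)]
        · intro h; have := hc k i (by omega) (by omega) h; omega
        · intro h; have := hc k j (by omega) (by omega) h; omega
      rw [← map_mul, e1, map_mul, ← mul_assoc, hP i k (by omega) (by omega)]
    rw [h1, mul_assoc P _ (U (swap (c k) (c j))), Finset.sum_mul, h2]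
    abel
  have key2 : ∀ k l, k < j → l < j →
      (P + P * ∑ i ∈ range j, U (swap (c i) (c j))) * U (swap (c k) (c l))
      = P + P * ∑ i ∈ range j, U (swap (c i) (c j)) := by
    intro k l hk hl
    rw [add_mul, hP k l hk hl, mul_assoc]
    congr 1
    have e : (∑ i ∈ range j, U (swap (c i) (c j))) * U (swap (c k) (c l))
        = U (swap (c k) (c l)) * ∑ i ∈ range j, U (swap (c (swap k l i)) (c j)) := by
      rw [Finset.sum_mul, Finset.mul_sum]
      refine sum_congr rfl fun i hi => ?_
      have hi' := mem_range.1 hi
      rw [← map_mul, ← map_mul]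
      congr 1
      have hcc : swap (c k) (c l) (c (swap k l i)) = c i := by
        rcases eq_or_ne i k with rfl | hik
        · rw [Equiv.swap_apply_left, Equiv.swap_apply_right]
        · rcases eq_or_ne i l with rfl | hil
          · rw [Equiv.swap_apply_right, Equiv.swap_apply_left]
          · rw [Equiv.swap_apply_of_ne_of_ne hik hil, Equiv.swap_apply_of_ne_of_ne]
            · intro h; exact hik (hc i k (by omega) (by omega) h)
            · intro h; exact hil (hc i l (by omega) (by omega) h)
      have hcj : swap (c k) (c l) (c j) = c j := by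
        rw [Equiv.swap_apply_of_ne_of_ne]
        · intro h; have := hc j k (by omega) (by omega) h; omega
        · intro h; have := hc j l (by omega) (by omega) h; omega
      rw [Equiv.mul_swap_eq_swap_mul (swap (c k) (c l)) (c (swap k l i)) (c j), hcc, hcj]
    rw [e, ← mul_assoc, hP k l hk hl]
    congr 1
    refine Finset.sum_nbij' (fun i => swap k l i) (fun i => swap k l i) ?_ ?_ ?_ ?_ ?_
    · intro i hi
      rw [mem_range] at hi ⊢
      rcases eq_or_ne i k with rfl | hik
      · rwa [Equiv.swap_apply_left]
      · rcases eq_or_ne i l with rfl | hil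
        · rwa [Equiv.swap_apply_right]
        · rwa [Equiv.swap_apply_of_ne_of_ne hik hil]
    · intro i hi
      rw [mem_range] at hi ⊢
      rcases eq_or_ne i k with rfl | hik
      · rwa [Equiv.swap_apply_left]
      · rcases eq_or_ne i l with rfl | hil
        · rwa [Equiv.swap_apply_right]
        · rwa [Equiv.swap_apply_of_ne_of_ne hik hil]
    · intro i _
      exact Equiv.swap_apply_self k l i
    · intro i _
      exact Equiv.swap_apply_self k l i
    · intro i _
      rfl
  rcases lt_or_eq_of_le hk with hk | rfl
  · rcases lt_or_eq_of_le hl with hl | rfl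
    · exact key2 k l hk hl
    · exact key k hk
  · rcases lt_or_eq_of_le hl with hl | rfl
    · rw [Equiv.swap_comm]
      exact key l hl
    · rw [Equiv.swap_self]
      have : (Equiv.refl ι : Perm ι) = 1 := rfl
      rw [this, map_one, mul_one]

/-- The product of the fusion list absorbs the exchanges of all copies. -/
theorem fus_absorb (m : ℕ) (hc : ∀ i k, i < m → k < m → c i = c k → i = k) (k l : ℕ)
    (hk : k < m) (hl : l < m) :
    ((fusL c m).map (gU U)).prod * U (swap (c k) (c l)) = ((fusL c m).map (gU U)).prod := by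
  induction m generalizing k l with
  | zero => omega
  | succ j ih =>
    have ihj : ∀ i k, i < j → k < j →
        ((fusL c j).map (gU U)).prod * U (swap (c i) (c k)) = ((fusL c j).map (gU U)).prod :=
      fun i k hi hk => ih (fun a b ha hb => hc a b (by omega) (by omega)) i k hi hk
    have hc' : ∀ i k, i ≤ j → k ≤ j → c i = c k → i = k :=
      fun i k hi hk => hc i k (by omega) (by omega)
    have hst := stage U c hc' _ ihj j le_rfl
    rw [fusL, List.map_append, List.prod_append, hst]
    have e : ((j : ℝ) - j + 1) / (j + 1) = 1 / ((j : ℝ) + 1) := by ring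
    rw [e, ← smul_add, smul_mul_assoc, absorb_succ U c hc' _ ihj k l (by omega) (by omega)]

end Alg

/-! ### Matrices -/

section Mat

variable {ι : Type} [Fintype ι] [DecidableEq ι]

/-- The permutation matrix on configurations, `U g σ τ = 1` iff `σ ∘ g = τ`. -/
def permU : Perm ι →* Matrix (ι → Fin 2) (ι → Fin 2) ℝ where
  toFun g := Matrix.of fun σ τ => if σ ∘ g = τ then 1 else 0
  map_one' := by
    ext σ τ
    simp [Matrix.one_apply]
  map_mul' g h := by
    ext σ τ
    simp only [Matrix.mul_apply, Matrix.of_apply, Equiv.Perm.coe_mul]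
    rw [Finset.sum_eq_single (σ ∘ g)]
    · rw [if_pos rfl, one_mul]
      rfl
    · intro ρ _ hρ
      rw [if_neg (Ne.symm hρ), zero_mul]
    · intro h
      exact absurd (mem_univ _) h

theorem permU_apply (g : Perm ι) (σ τ : ι → Fin 2) :
    permU g σ τ = if σ ∘ g = τ then 1 else 0 := rfl

theorem permU_swap (x y : ι) : permU (swap x y) = swapM x y := by
  ext σ τ
  rw [permU_apply, swapM, Matrix.of_apply]
  congr 1
  apply propext
  constructor
  · rintro rfl
    funext z
    simp
  · rintro rfl
    funext z
    simp

/-- The gate `(1 - p) + p P_{xy}` as a matrix. -/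
def gM (e : ι × ι × ℝ) : Matrix (ι → Fin 2) (ι → Fin 2) ℝ :=
  (1 - e.2.2) • (1 : Matrix (ι → Fin 2) (ι → Fin 2) ℝ) + e.2.2 • swapM e.1 e.2.1

theorem gU_permU (e : ι × ι × ℝ) : gU permU e = gM e := by
  rw [gU, gM, permU_swap]

theorem mul_swapM_apply (P : Matrix (ι → Fin 2) (ι → Fin 2) ℝ) (x y : ι) (σ τ : ι → Fin 2) :
    (P * swapM x y) σ τ = P σ (τ ∘ swap x y) := by
  rw [← permU_swap, Matrix.mul_apply, Finset.sum_eq_single (τ ∘ swap x y)]
  · rw [permU_apply, if_pos, mul_one]
    funext z
    simp
  · intro ρ _ hρ
    rw [permU_apply, if_neg, mul_zero]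
    rintro rfl
    apply hρ
    funext z
    simp
  · intro h
    exact absurd (mem_univ _) h

theorem swapM_mul_apply (P : Matrix (ι → Fin 2) (ι → Fin 2) ℝ) (x y : ι) (σ τ : ι → Fin 2) :
    (swapM x y * P) σ τ = P (σ ∘ swap x y) τ := by
  rw [← permU_swap, Matrix.mul_apply, Finset.sum_eq_single (σ ∘ swap x y)]
  · rw [permU_apply, if_pos rfl, one_mul]
  · intro ρ _ hρ
    rw [permU_apply, if_neg (Ne.symm hρ), zero_mul]
  · intro h
    exact absurd (mem_univ _) h

end Mat

/-! ### Copies -/

section Copies

variable {V : Type} [Fintype V] [DecidableEq V] {m : ℕ} [NeZero m]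

/-- The gates of the symmetriser: sites in some order, at each site the fusion list. -/
def symGates (V : Type) [Fintype V] [DecidableEq V] (m : ℕ) [NeZero m] :
    List ((V × Fin m) × (V × Fin m) × ℝ) :=
  ((Finset.univ : Finset V).toList).flatMap fun x => fusL (fun i => (x, Fin.ofNat m i)) m

theorem symGates_p : ∀ e ∈ symGates V m, 0 ≤ e.2.2 ∧ e.2.2 ≤ 1 / 2 := by
  intro e he
  rw [symGates, List.mem_flatMap] at he
  obtain ⟨x, -, hx⟩ := he
  exact fusL_p _ _ e hx

theorem symGates_site : ∀ e ∈ symGates V m, e.1.1 = e.2.1.1 := by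
  intro e he
  rw [symGates, List.mem_flatMap] at he
  obtain ⟨x, -, hx⟩ := he
  obtain ⟨i, j, h1, h2, rfl⟩ := fusL_mem _ m hx
  rfl

/-- The product of the gates of the symmetriser. -/
def symProd (V : Type) [Fintype V] [DecidableEq V] (m : ℕ) [NeZero m] :
    Matrix (V × Fin m → Fin 2) (V × Fin m → Fin 2) ℝ :=
  ((symGates V m).map gM).prod

omit [NeZero m] in
theorem flat_prod (l : List V) (f : V → List ((V × Fin m) × (V × Fin m) × ℝ)) :
    ((l.flatMap f).map gM).prod = (l.map fun x => ((f x).map gM).prod).prod := by
  induction l with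
  | nil => simp
  | cons a l ih => simp [List.prod_append, ih]

/-- The symmetriser absorbs the exchange of two copies of a site. -/
theorem symProd_mul_swapM (x : V) (a b : Fin m) :
    symProd V m * swapM (x, a) (x, b) = symProd V m := by
  have hfus : ((fusL (fun i => (x, Fin.ofNat m i)) m).map gM).prod * swapM (x, a) (x, b)
      = ((fusL (fun i => (x, Fin.ofNat m i)) m).map gM).prod := by
    have h := fus_absorb (permU (ι := V × Fin m)) (fun i => (x, Fin.ofNat m i)) m
      (by
        intro i k hi hk h
        have h2 := congrArg (fun z : V × Fin m => (z.2 : ℕ)) h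
        simpa [Fin.ofNat, Nat.mod_eq_of_lt hi, Nat.mod_eq_of_lt hk] using h2)
      a b a.2 b.2
    have e1 : (gU (permU (ι := V × Fin m))) = gM := by
      funext e
      exact gU_permU e
    rw [e1, permU_swap] at h
    simpa using h
  have hcomm : ∀ y : V, y ≠ x →
      Commute (((fusL (fun i => (y, Fin.ofNat m i)) m).map gM).prod) (swapM (x, a) (x, b)) := by
    intro y hy
    refine List.prod_induction (fun M => Commute M (swapM (x, a) (x, b))) (fun A B hA hB => ?_)
      (Commute.one_left _) ?_
    · exact Commute.mul_left hA hB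
    · intro M hM
      rw [List.mem_map] at hM
      obtain ⟨e, he, rfl⟩ := hM
      obtain ⟨i, j, h1, h2, rfl⟩ := fusL_mem _ m he
      rw [gM]
      refine Commute.add_left ((Commute.one_left _).smul_left _) (Commute.smul_left ?_ _)
      rw [← permU_swap, ← permU_swap]
      have : Commute (swap (y, Fin.ofNat m i) (y, Fin.ofNat m j)) (swap (x, a) (x, b)) := by
        apply Equiv.Perm.Disjoint.commute
        intro z
        by_cases hz : z.1 = x
        · left
          rw [Equiv.swap_apply_of_ne_of_ne]
          · rintro rfl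
            exact hy hz
          · rintro rfl
            exact hy hz
        · right
          rw [Equiv.swap_apply_of_ne_of_ne]
          · rintro rfl
            exact hz rfl
          · rintro rfl
            exact hz rfl
      exact this.map permU
  rw [symProd, symGates, flat_prod]
  have hnd : ((Finset.univ : Finset V).toList).Nodup := Finset.nodup_toList _
  have hx : x ∈ (Finset.univ : Finset V).toList := by simp
  generalize (Finset.univ : Finset V).toList = l at hnd hx
  induction l with
  | nil => simp at hx
  | cons y l ih =>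
    rw [List.map_cons, List.prod_cons]
    rw [List.nodup_cons] at hnd
    by_cases hxl : x ∈ l
    · rw [mul_assoc, ih hnd.2 hxl]
    · have hyx : x = y := by
        rcases List.mem_cons.1 hx with h | h
        · exact h
        · exact absurd h hxl
      subst hyx
      have hc : Commute ((l.map fun x => ((fusL (fun i => (x, Fin.ofNat m i)) m).map gM).prod).prod)
          (swapM (x, a) (x, b)) := by
        refine List.prod_induction (fun M => Commute M (swapM (x, a) (x, b)))
          (fun A B hA hB => Commute.mul_left hA hB) (Commute.one_left _) ?_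
        intro M hM
        rw [List.mem_map] at hM
        obtain ⟨y, hy, rfl⟩ := hM
        exact hcomm y (by rintro rfl; exact hxl hy)
      rw [mul_assoc, hc.eq, ← mul_assoc, hfus]

/-- Every gate with the two copies at the same site is absorbed. -/
theorem symProd_mul_gM {e : (V × Fin m) × (V × Fin m) × ℝ} (he : e.1.1 = e.2.1.1) :
    symProd V m * gM e = symProd V m := by
  obtain ⟨⟨x, a⟩, ⟨y, b⟩, p⟩ := e
  dsimp only at he
  subst he
  rw [gM, mul_add, mul_smul_comm, mul_one, mul_smul_comm]
  dsimp only
  rw [symProd_mul_swapM, ← add_smul]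
  simp

theorem symProd_mul_list (l : List ((V × Fin m) × (V × Fin m) × ℝ))
    (hl : ∀ e ∈ l, e.1.1 = e.2.1.1) : symProd V m * (l.map gM).prod = symProd V m := by
  induction l with
  | nil => simp
  | cons e l ih =>
    rw [List.map_cons, List.prod_cons, ← mul_assoc, symProd_mul_gM (hl e (by simp)),
      ih fun e he => hl e (by simp [he])]

theorem symProd_sq : symProd V m * symProd V m = symProd V m :=
  symProd_mul_list _ symGates_site

/-- Everything which commutes with the exchanges of two copies of a site commutes with the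
symmetriser. -/
theorem symProd_comm (B : Matrix (V × Fin m → Fin 2) (V × Fin m → Fin 2) ℝ)
    (hB : ∀ (x : V) (a b : Fin m), Commute (swapM (x, a) (x, b)) B) :
    Commute (symProd V m) B := by
  rw [symProd]
  refine List.prod_induction (fun M => Commute M B) (fun A B hA hB => Commute.mul_left hA hB)
    (Commute.one_left _) ?_
  intro M hM
  rw [List.mem_map] at hM
  obtain ⟨e, he, rfl⟩ := hM
  have hs := symGates_site e he
  obtain ⟨⟨x, a⟩, ⟨y, b⟩, p⟩ := e
  dsimp only at hs
  subst hs
  rw [gM]
  exact Commute.add_left ((Commute.one_left _).smul_left _) (Commute.smul_left (hB _ _ _) _)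

/-- Number of copies at `x` which are down. -/
def cnt (σ : V × Fin m → Fin 2) (x : V) : ℕ := #{a : Fin m | σ (x, a) = 1}

omit [Fintype V] [NeZero m] in
theorem cnt_swap (σ : V × Fin m → Fin 2) (x : V) (a b : Fin m) (y : V) :
    cnt (σ ∘ swap (x, a) (x, b)) y = cnt σ y := by
  unfold cnt
  by_cases hy : y = x
  · subst hy
    refine Finset.card_nbij' (fun c => swap a b c) (fun c => swap a b c) ?_ ?_ ?_ ?_
    · intro c hc
      rw [mem_coe, mem_filter] at hc ⊢
      refine ⟨mem_univ _, ?_⟩
      rw [← hc.2]
      simp only [Function.comp_apply]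
      congr 1
      rcases eq_or_ne c a with rfl | hca
      · rw [Equiv.swap_apply_left, Equiv.swap_apply_left]
      · rcases eq_or_ne c b with rfl | hcb
        · rw [Equiv.swap_apply_right, Equiv.swap_apply_right]
        · rw [Equiv.swap_apply_of_ne_of_ne hca hcb, Equiv.swap_apply_of_ne_of_ne]
          · simpa using hca
          · simpa using hcb
    · intro c hc
      rw [mem_coe, mem_filter] at hc ⊢
      refine ⟨mem_univ _, ?_⟩
      rw [← hc.2]
      simp only [Function.comp_apply]
      congr 1
      rcases eq_or_ne c a with rfl | hca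
      · rw [Equiv.swap_apply_left, Equiv.swap_apply_right]
      · rcases eq_or_ne c b with rfl | hcb
        · rw [Equiv.swap_apply_right, Equiv.swap_apply_left]
        · rw [Equiv.swap_apply_of_ne_of_ne hca hcb, Equiv.swap_apply_of_ne_of_ne]
          · simpa using hca
          · simpa using hcb
    · intro c _
      exact Equiv.swap_apply_self a b c
    · intro c _
      exact Equiv.swap_apply_self a b c
  · congr 1
    refine filter_congr fun c _ => ?_
    rw [Function.comp_apply, Equiv.swap_apply_of_ne_of_ne]
    · rintro h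
      exact hy (congrArg Prod.fst h)
    · rintro h
      exact hy (congrArg Prod.fst h)

omit [NeZero m] in
/-- A product of gates inside the sites conserves the counts. -/
theorem list_supp (l : List ((V × Fin m) × (V × Fin m) × ℝ)) (hl : ∀ e ∈ l, e.1.1 = e.2.1.1)
    (σ τ : V × Fin m → Fin 2) (h : cnt σ ≠ cnt τ) : (l.map gM).prod σ τ = 0 := by
  induction l generalizing σ with
  | nil =>
    rw [List.map_nil, List.prod_nil, Matrix.one_apply, if_neg]
    rintro rfl
    exact h rfl
  | cons e l ih =>
    have he := hl e (by simp)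
    obtain ⟨⟨x, a⟩, ⟨y, b⟩, p⟩ := e
    dsimp only at he
    subst he
    have ih' := fun σ h => ih (fun e he => hl e (by simp [he])) σ h
    rw [List.map_cons, List.prod_cons, gM, add_mul, smul_mul_assoc, one_mul, smul_mul_assoc,
      Matrix.add_apply, Matrix.smul_apply, Matrix.smul_apply, swapM_mul_apply, ih' σ h, ih']
    · simp
    · intro h2
      apply h
      rw [← h2]
      funext y
      exact (cnt_swap σ x a b y).symm

omit [NeZero m] in
/-- Row sums of a product of gates. -/
theorem list_row (l : List ((V × Fin m) × (V × Fin m) × ℝ)) (σ : V × Fin m → Fin 2) :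
    ∑ τ, (l.map gM).prod σ τ = 1 := by
  induction l generalizing σ with
  | nil =>
    simp [Matrix.one_apply]
  | cons e l ih =>
    simp only [List.map_cons, List.prod_cons, gM, add_mul, smul_mul_assoc, one_mul,
      Matrix.add_apply, Matrix.smul_apply, swapM_mul_apply, Finset.sum_add_distrib, smul_eq_mul,
      ← Finset.mul_sum, ih]
    ring

/-- The entries of the symmetriser depend only on the counts of the column. -/
theorem symProd_const (σ : V × Fin m → Fin 2) : ∀ (d : ℕ) (τ τ' : V × Fin m → Fin 2),
    #{z | τ z ≠ τ' z} = d → cnt τ = cnt τ' → symProd V m σ τ = symProd V m σ τ' := by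
  intro d
  induction d using Nat.strong_induction_on with
  | _ d ih =>
    intro τ τ' hd hc
    by_cases h0 : τ = τ'
    · rw [h0]
    · obtain ⟨⟨x, a⟩, hxa⟩ := Function.ne_iff.1 h0
      -- there is `b` with the opposite difference
      have hb : ∃ b, τ (x, b) = τ' (x, a) ∧ τ' (x, b) = τ (x, a) := by
        by_contra hcon
        push Not at hcon
        have hcx : cnt τ x = cnt τ' x := by rw [hc]
        unfold cnt at hcx
        have h2 : ∀ u v : Fin 2, u ≠ v → (u = 0 ∧ v = 1) ∨ (u = 1 ∧ v = 0) := by decide
        rcases h2 _ _ hxa with ⟨h3, h4⟩ | ⟨h3, h4⟩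
        · -- τ (x,a) = 0, τ' (x,a) = 1
          have hsub : ({c : Fin m | τ (x, c) = 1} : Finset (Fin m))
              ⊂ ({c : Fin m | τ' (x, c) = 1} : Finset (Fin m)) := by
            rw [Finset.ssubset_iff_of_subset]
            · refine ⟨a, ?_, ?_⟩
              · simp [h4]
              · simp [h3]
            · intro c hcm
              rw [mem_filter] at hcm ⊢
              refine ⟨mem_univ _, ?_⟩
              have h5 := hcon c (by rw [hcm.2, h4])
              rw [h3] at h5
              by_contra h6
              have : ∀ u : Fin 2, u ≠ 1 → u = 0 := by decide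
              exact h5 (this _ h6)
          exact absurd hcx (Finset.card_lt_card hsub).ne
        · have hsub : ({c : Fin m | τ' (x, c) = 1} : Finset (Fin m))
              ⊂ ({c : Fin m | τ (x, c) = 1} : Finset (Fin m)) := by
            rw [Finset.ssubset_iff_of_subset]
            · refine ⟨a, ?_, ?_⟩
              · simp [h3]
              · simp [h4]
            · intro c hcm
              rw [mem_filter] at hcm ⊢
              refine ⟨mem_univ _, ?_⟩
              by_contra h6
              have : ∀ u : Fin 2, u ≠ 1 → u = 0 := by decide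
              have h5 := hcon c (by rw [h4]; exact this _ h6)
              rw [h3] at h5
              exact h5 hcm.2
          exact absurd hcx (Finset.card_lt_card hsub).ne'
      obtain ⟨b, hb1, hb2⟩ := hb
      have hstep : symProd V m σ τ = symProd V m σ (τ ∘ swap (x, a) (x, b)) := by
        have h := mul_swapM_apply (symProd V m) (x, a) (x, b) σ τ
        rw [symProd_mul_swapM] at h
        exact h
      rw [hstep]
      refine ih #{z | (τ ∘ swap (x, a) (x, b)) z ≠ τ' z} ?_ _ _ rfl ?_
      · rw [← hd]
        apply Finset.card_lt_card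
        rw [Finset.ssubset_iff_of_subset]
        · refine ⟨(x, a), ?_, ?_⟩
          · simpa using hxa
          · simp [hb1]
        · intro z hz
          rw [mem_filter] at hz ⊢
          refine ⟨mem_univ _, ?_⟩
          have hz2 := hz.2
          rw [Function.comp_apply] at hz2
          rcases eq_or_ne z (x, a) with rfl | h1
          · exact hxa
          · rcases eq_or_ne z (x, b) with rfl | h2
            · rw [Equiv.swap_apply_right] at hz2
              exact absurd hb2.symm hz2
            · rwa [Equiv.swap_apply_of_ne_of_ne h1 h2] at hz2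
      · rw [← hc]
        funext y
        exact cnt_swap τ x a b y

/-- The number of configurations of `m` copies with `k` downs. -/
theorem card_one (m k : ℕ) : #{f : Fin m → Fin 2 | #{a | f a = 1} = k} = m.choose k := by
  have h := Finset.card_powersetCard k (Finset.univ : Finset (Fin m))
  rw [Finset.card_univ, Fintype.card_fin] at h
  rw [← h]
  refine Finset.card_nbij' (fun f => ({a | f a = 1} : Finset (Fin m)))
    (fun s a => if a ∈ s then 1 else 0) ?_ ?_ ?_ ?_
  · intro f hf
    rw [mem_coe, mem_filter] at hf
    rw [mem_coe, mem_powersetCard]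
    exact ⟨subset_univ _, hf.2⟩
  · intro s hs
    rw [mem_coe, mem_powersetCard] at hs
    rw [mem_coe, mem_filter]
    refine ⟨mem_univ _, ?_⟩
    rw [← hs.2]
    congr 1
    ext a
    by_cases ha : a ∈ s <;> simp [ha]
  · intro f _
    funext a
    have h2 : ∀ u : Fin 2, (if u = 1 then (1 : Fin 2) else 0) = u := by decide
    simp only [mem_filter, mem_univ, true_and]
    exact h2 (f a)
  · intro s _
    ext a
    by_cases ha : a ∈ s <;> simp [ha]

omit [NeZero m] in
theorem card_cnt (k : V → ℕ) : #{τ : V × Fin m → Fin 2 | cnt τ = k} = ∏ x, m.choose (k x) := by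
  have h1 : #{τ : V × Fin m → Fin 2 | cnt τ = k}
      = #(Fintype.piFinset fun x => ({f : Fin m → Fin 2 | #{a | f a = 1} = k x} :
          Finset (Fin m → Fin 2))) := by
    refine Finset.card_nbij' (fun τ x a => τ (x, a)) (fun f z => f z.1 z.2) ?_ ?_ ?_ ?_
    · intro τ hτ
      rw [mem_coe, mem_filter] at hτ
      rw [mem_coe, Fintype.mem_piFinset]
      intro x
      rw [mem_filter]
      refine ⟨mem_univ _, ?_⟩
      rw [← hτ.2]
      rfl
    · intro f hf
      rw [mem_coe, Fintype.mem_piFinset] at hf
      rw [mem_coe, mem_filter]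
      refine ⟨mem_univ _, ?_⟩
      funext x
      exact (mem_filter.1 (hf x)).2
    · intro τ _
      rfl
    · intro f _
      rfl
  rw [h1, Fintype.card_piFinset]
  exact prod_congr rfl fun x _ => card_one m (k x)

/-- The entries of the symmetriser: `1 / ∏ C(m, d_x)` if the numbers `d_x` of downs agree. -/
theorem symProd_apply (σ τ : V × Fin m → Fin 2) :
    symProd V m σ τ = if cnt σ = cnt τ then ∏ x, ((m.choose (cnt σ x) : ℕ) : ℝ)⁻¹ else 0 := by
  by_cases h : cnt σ = cnt τ
  · rw [if_pos h]
    have hrow : ∑ τ', symProd V m σ τ' = 1 := list_row (symGates V m) σ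
    have h2 : ∑ τ', symProd V m σ τ'
        = ∑ τ' ∈ ({τ' | cnt τ' = cnt σ} : Finset (V × Fin m → Fin 2)), symProd V m σ τ := by
      rw [← Finset.sum_filter_add_sum_filter_not univ (fun τ' => cnt τ' = cnt σ)]
      have h3 : ∑ τ' ∈ univ.filter (fun τ' => ¬ cnt τ' = cnt σ), symProd V m σ τ' = 0 := by
        refine sum_eq_zero fun τ' hτ' => ?_
        exact list_supp (symGates V m) symGates_site σ τ' (Ne.symm (mem_filter.1 hτ').2)
      rw [h3, add_zero]
      refine sum_congr rfl fun τ' hτ' => ?_
      exact symProd_const σ _ τ' τ rfl (by rw [(mem_filter.1 hτ').2, h])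
    rw [h2, sum_const, card_cnt, nsmul_eq_mul] at hrow
    rw [Finset.prod_inv_distrib, ← Nat.cast_prod]
    exact eq_inv_of_mul_eq_one_right hrow
  · rw [if_neg h]
    exact list_supp (symGates V m) symGates_site σ τ h

theorem symProd_transpose : (symProd V m)ᵀ = symProd V m := by
  ext σ τ
  rw [Matrix.transpose_apply, symProd_apply, symProd_apply]
  by_cases h : cnt σ = cnt τ
  · rw [if_pos h, if_pos h.symm, h]
  · rw [if_neg h, if_neg (Ne.symm h)]

theorem swapM_transpose {ι : Type} [Fintype ι] [DecidableEq ι] (x y : ι) :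
    (swapM x y)ᵀ = swapM x y := by
  ext σ τ
  rw [Matrix.transpose_apply, swapM, Matrix.of_apply, Matrix.of_apply]
  congr 1
  apply propext
  constructor
  · rintro rfl
    funext z
    simp
  · rintro rfl
    funext z
    simp

theorem swapM_mul_symProd (x : V) (a b : Fin m) :
    swapM (x, a) (x, b) * symProd V m = symProd V m := by
  have h := congrArg Matrix.transpose (symProd_mul_swapM (V := V) (m := m) x a b)
  rwa [Matrix.transpose_mul, symProd_transpose, swapM_transpose] at h

theorem symProd_nonneg (σ τ : V × Fin m → Fin 2) : 0 ≤ symProd V m σ τ := by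
  rw [symProd_apply]
  split_ifs
  · exact prod_nonneg fun x _ => by positivity
  · exact le_rfl

end Copies

end

end Vale.Agent.P361.LRO.GenS
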