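import Vale.Agent.P361.LRO.GenS.Iface
import Vale.Agent.P361.LRO.GenS.CoarseDefs
import Vale.Agent.P361.LRO.Ind.LowInst

/-!
P361 LRO, all spins, block (6) by TYING THE COPIES (helper262): the network with copies on
`NdS n s N` is reduced to a network on `Nd n N` to which block (6) for `s = 1` applies verbatim.
-/

namespace Vale.Agent.P361.LRO.GenS

open Finset Vale.Agent.P361.LRO _root_.P361.LRO

noncomputable section

/-- The network with copies (zero on the diagonal). -/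
def physS (n s M N : ℕ) [NeZero n] (β K : ℝ) (b : Finset (Tor n)) (h : Tor n → ℝ) :
    NdS n s N → NdS n s N → ℝ :=
  Net.c0 (phys (edgesS n s M) β N) (th β N (hS h) (blk K (b ×ˢ univ)))

/-- Mean over the copies. -/
def avgC {n s N : ℕ} (a : NdS n s N → ℝ) : Ind.Nd n N → ℝ :=
  fun u => (1 / (s : ℝ)) * ∑ i : Fin s, a (u.1, (u.2, i))

/-- A potential on the sites as a potential on the copies. -/
def upC {n : ℕ} (s : ℕ) {N : ℕ} (a : Ind.Nd n N → ℝ) : NdS n s N → ℝ := fun z => a (z.1, z.2.1)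

/-- Tying the copies. -/
def tie {n s N : ℕ} (c : NdS n s N → NdS n s N → ℝ) : Ind.Nd n N → Ind.Nd n N → ℝ :=
  fun u v => (1 / (s : ℝ)) * ∑ i : Fin s, ∑ j : Fin s, c (u.1, (u.2, i)) (v.1, (v.2, j))

/-- The family of tied networks; the network in the field `1` is multiplied by `κ`. -/
def tieC (n s M N : ℕ) [NeZero n] (β K κ : ℝ) (b : Finset (Tor n)) (h : Tor n → ℝ) :
    Ind.Nd n N → Ind.Nd n N → ℝ :=
  fun u v => (if h = fun _ => 1 then κ else 1) * tie (physS n s M N β K b h) u v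

/-- All copies of the nodes of an electrode. -/
def liftN {n : ℕ} [NeZero n] (s : ℕ) {N : ℕ} (E : Finset (Ind.Nd n N)) : Finset (NdS n s N) :=
  univ.filter fun z => (z.1, z.2.1) ∈ E

/-- (M1) output of LOC with copies (`k = 0` allowed). -/
def LocStmtS (s : ℕ) : Prop :=
  ∃ c0 : ℝ, 0 < c0 ∧ ∀ (n : ℕ) [NeZero n] (M : ℕ) (β : ℝ) (N : ℕ) (h T : Tor n → ℝ),
    2 ≤ n → 1 ≤ β → 8 * β ≤ N → (∀ x, 0 ≤ h x ∧ h x ≤ 1) → (∀ x, 0 ≤ T x ∧ T x ≤ 1) →
    (∀ (k k' : Fin (N + 1)) (x y : Tor n) (i j : Fin s), k < k' →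
      1 / 4 ≤ ((k' : ℝ) - (k : ℝ)) * β / N → ((k' : ℝ) - (k : ℝ)) * β / N ≤ 1 →
      ((x, y) ∈ edges n ∨ (y, x) ∈ edges n) → x ≠ y →
      c0 * (th β N (hS h) (hS T) (k, (x, i)) * th β N (hS h) (hS T) (k', (y, j))) ≤
        cc (phys (edgesS n s M) β N) (th β N (hS h) (hS T)) (k, (x, i)) (k', (y, j))) ∧
    (∀ (k k' : Fin (N + 1)) (x : Tor n) (i : Fin s), k < k' →
      ((k' : ℝ) - (k : ℝ)) * β / N ≤ 1 →
      c0 * (th β N (hS h) (hS T) (k, (x, i)) * th β N (hS h) (hS T) (k', (x, i))) ≤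
        ∑ j, cc (phys (edgesS n s M) β N) (th β N (hS h) (hS T)) (k, (x, j)) (k', (x, i)))

end

end Vale.Agent.P361.LRO.GenS
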