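import Vale.Agent.P361.LRO.GenS.LocalInstS
import Vale.Agent.P361.LRO.GenS.Tie

/-!
P361 LRO, general spin: LOC with copies in the form `LocStmtS` of `GenS/Tie.lean`.
-/

namespace Vale.Agent.P361.LRO.GenS

open Finset Vale.Agent.P361.LRO _root_.P361.LRO

noncomputable section

theorem locStmtS (s : ℕ) : LocStmtS s := by
  set E : ℝ := Real.exp (-(3 / 2 * ((2 * (6 * s ^ 2) : ℕ) + 1))) with hE
  have hE0 : 0 < E := Real.exp_pos _
  refine ⟨E / 64, by positivity, ?_⟩
  intro n _ M β N h T hn hβ hN hh hTT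
  have hβ0 : (0:ℝ) < β := by linarith
  have hNp : (0:ℝ) < N := by linarith
  have hβN : β ≤ N := by linarith
  have hT : ∀ z : Tor n × Fin s, 0 ≤ hS T z ∧ hS T z ≤ 1 := fun z => hTT z.1
  have hhS : ∀ z : Tor n × Fin s, 0 ≤ hS h z ∧ hS h z ≤ 1 := fun z => hh z.1
  have hθ := fun z => Loc.th_mem (h := hS h) (T := hS T) hβ0.le hβN hhS hT z
  set p : ℝ := β / (2 * N) with hp
  have hp0 : 0 < p := by positivity
  have hp16 : p ≤ 1 / 16 := by
    rw [hp, div_le_iff₀ (by positivity)]; linarith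
  have hbd : ∀ i : Fin (N + 1), 0 < i → ∀ v : Tor n × Fin s,
      th β N (hS h) (hS T) (i, v) ≤ p := fun i hi v =>
    Loc.th_le hβ0.le hhS i (ne_of_gt hi) v
  have key : ∀ m : ℝ, m * β / N = 2 * (p * m) := by
    intro m; rw [hp]; field_simp
  have cast_sub : ∀ k k' : Fin (N + 1), k < k' →
      (((k' : ℕ) - (k : ℕ) : ℕ) : ℝ) = (k' : ℝ) - (k : ℝ) := by
    intro k k' hk
    rw [Nat.cast_sub (le_of_lt (show (k : ℕ) < (k' : ℕ) from hk))]
  constructor
  · intro k k' x y i j hk h1 h2 hed hxy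
    have := LocS.inter Prod.fst (interE n s) (intraM' n s M) (interE_ne hn) intraM_eq (6 * s ^ 2)
      (fun x => interE_deg x) β N hβ0 hβN (th β N (hS h) (hS T)) hθ (y, j) (x, i) (Ne.symm hxy)
      (fun a' b' ha' hb' => by
        rw [mem_interE', mem_interE', ha', hb']
        exact Or.symm hed) k k' hk p hp0.le (by linarith)
      (fun i hi _ v _ => hbd i (lt_of_le_of_lt (Fin.zero_le _) hi) v)
    rw [← edgesS_eq, ← hp] at this
    rw [Loc.ccSym]
    refine le_trans ?_ this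
    rw [key] at h1 h2
    rw [← cast_sub k k' hk] at h1 h2
    have h3 := Loc.loss p hp0.le hp16 ((k' : ℕ) - (k : ℕ)) (2 * (6 * s ^ 2)) (by linarith)
    have h5 : E / 64 ≤ 1 / 8 * (p * (((k' : ℕ) - (k : ℕ) : ℕ) : ℝ)) *
        (((1 - p) / (1 + p)) ^ (2 * (6 * s ^ 2) * ((k' : ℕ) - (k : ℕ))) *
          ((1 - p) / (1 + p)) ^ ((k' : ℕ) - (k : ℕ))) := by
      calc E / 64 = (1 / 8 * (1 / 8)) * E := by ring
        _ ≤ _ := mul_le_mul (by linarith) h3 hE0.le (by positivity)
    calc _ = th β N (hS h) (hS T) (k', (y, j)) * th β N (hS h) (hS T) (k, (x, i)) *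
          (E / 64) := by ring
      _ ≤ _ := mul_le_mul_of_nonneg_left h5 (mul_nonneg (hθ _).1 (hθ _).1)
  · intro k k' x i hk h2
    have hbot : ∀ v : Tor n × Fin s, v.1 = (x, i).1 →
        th β N (hS h) (hS T) (k, (x, i)) ≤ th β N (hS h) (hS T) (k, v) := by
      intro v hv
      apply le_of_eq
      unfold th hS
      rw [hv]
    have := LocS.contact Prod.fst (interE n s) (intraM' n s M) (interE_ne hn) intraM_eq
      (6 * s ^ 2) (fun x => interE_deg x) β N hβ0 hβN (th β N (hS h) (hS T)) hθ (x, i) k k' hk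
      p (th β N (hS h) (hS T) (k, (x, i))) hp0.le (by linarith) (hθ _).1
      (fun i hi _ v _ => hbd i (lt_of_le_of_lt (Fin.zero_le _) hi) v) hbot
    rw [← edgesS_eq, ← hp] at this
    have hfilt : (univ.filter fun v : Tor n × Fin s => v.1 = x) =
        (univ : Finset (Fin s)).image fun i => (x, i) := by
      ext v
      simp only [Finset.mem_filter, Finset.mem_univ, true_and, Finset.mem_image]
      constructor
      · intro hv
        exact ⟨v.2, by rw [← hv]⟩
      · rintro ⟨i, rfl⟩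
        rfl
    simp only at this
    rw [hfilt, Finset.sum_image (fun a _ b _ hab => congrArg Prod.snd hab)] at this
    have h9 : ∑ j, cc (phys (edgesS n s M) β N) (th β N (hS h) (hS T)) (k, (x, j)) (k', (x, i)) =
        ∑ j, cc (phys (edgesS n s M) β N) (th β N (hS h) (hS T)) (k', (x, i)) (k, (x, j)) :=
      Finset.sum_congr rfl fun j _ => Loc.ccSym _ _ _ _
    rw [h9]
    refine le_trans ?_ this
    rw [key, ← cast_sub k k' hk] at h2
    have h3 := Loc.loss p hp0.le hp16 ((k' : ℕ) - (k : ℕ)) (6 * s ^ 2) (by linarith)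
    have h4 : E ≤ Real.exp (-(3 / 2 * (((6 * s ^ 2 : ℕ) : ℝ) + 1))) := by
      rw [hE]
      apply Real.exp_le_exp.2
      push_cast
      nlinarith [sq_nonneg (s : ℝ)]
    have h5 : E / 64 ≤ 1 / 4 *
        (((1 - p) / (1 + p)) ^ (6 * s ^ 2 * ((k' : ℕ) - (k : ℕ))) *
          ((1 - p) / (1 + p)) ^ ((k' : ℕ) - (k : ℕ))) := by
      linarith
    calc _ = th β N (hS h) (hS T) (k', (x, i)) * th β N (hS h) (hS T) (k, (x, i)) *
          (E / 64) := by ring
      _ ≤ _ := mul_le_mul_of_nonneg_left h5 (mul_nonneg (hθ _).1 (hθ _).1)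

end

end Vale.Agent.P361.LRO.GenS
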