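import Vale.Agent.P361.LRO.GenS.Iface

/-!
P361 LRO, all spins, T5: the multiset of exchanges is invariant under a permutation of the copies.
-/

namespace Vale.Agent.P361.LRO.GenS

open Finset Filter Vale.Agent.P361.LRO

noncomputable section

namespace TieEdge

theorem finRange_perm {s : ℕ} (σ : Equiv.Perm (Fin s)) :
    ((List.finRange s).map σ).Perm (List.finRange s) := by
  refine (List.perm_ext_iff_of_nodup ((List.nodup_finRange s).map σ.injective)
    (List.nodup_finRange s)).2 fun a => ?_
  simp only [List.mem_map, List.mem_finRange, true_and, iff_true]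
  exact ⟨σ.symm a, σ.apply_symm_apply a⟩

theorem inner {γ : Type} {s : ℕ} (σ : Equiv.Perm (Fin s)) (g : Fin s → Fin s → γ) :
    ((List.finRange s).flatMap fun i => (List.finRange s).map fun j => g (σ i) (σ j)).Perm
      ((List.finRange s).flatMap fun i => (List.finRange s).map fun j => g i j) := by
  have h1 : ∀ i, ((List.finRange s).map fun j => g i (σ j)).Perm
      ((List.finRange s).map fun j => g i j) := by
    intro i
    have := (finRange_perm σ).map (g i)
    rw [List.map_map] at this
    exact this
  have h2 : ((List.finRange s).flatMap fun i => (List.finRange s).map fun j => g (σ i) (σ j)) =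
      ((List.finRange s).map σ).flatMap fun i => (List.finRange s).map fun j => g i (σ j) := by
    rw [List.flatMap_map]
  rw [h2]
  refine (List.Perm.flatMap_right _ (finRange_perm σ)).trans ?_
  exact List.Perm.flatMap_left _ fun i _ => h1 i

theorem inter (n s : ℕ) [NeZero n] (σ : Equiv.Perm (Fin s)) :
    ((interE n s).map fun e => Equiv.swap (e.1.1, σ e.1.2) (e.2.1, σ e.2.2)).Perm
      ((interE n s).map fun e => Equiv.swap e.1 e.2) := by
  unfold interE
  rw [List.map_flatMap, List.map_flatMap]
  refine List.Perm.flatMap_left _ fun e _ => ?_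
  simp only [List.map_flatMap, List.map_map, Function.comp_def]
  exact inner σ fun i j => Equiv.swap (e.1, i) (e.2, j)

theorem intra (n s : ℕ) [NeZero n] (σ : Equiv.Perm (Fin s)) :
    ((intraE n s).map fun e => Equiv.swap (e.1.1, σ e.1.2) (e.2.1, σ e.2.2)).Perm
      ((intraE n s).map fun e => Equiv.swap e.1 e.2) := by
  unfold intraE
  rw [List.map_map, List.map_map]
  rw [← Multiset.coe_eq_coe, ← Multiset.map_coe, ← Multiset.map_coe, Finset.coe_toList]
  refine Multiset.map_eq_map_of_bij_of_nodup _ _ (Finset.nodup _) (Finset.nodup _)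
    (fun z _ => (z.1, min (σ z.2.1) (σ z.2.2), max (σ z.2.1) (σ z.2.2))) ?_ ?_ ?_ ?_
  · rintro ⟨x, i, j⟩ h
    simp only [Finset.mem_val, Finset.mem_filter, Finset.mem_univ, true_and] at h ⊢
    have hne : σ i ≠ σ j := fun e => h.ne (σ.injective e)
    exact min_lt_max.2 hne
  · rintro ⟨x, i, j⟩ h ⟨x', i', j'⟩ h' e
    simp only [Finset.mem_val, Finset.mem_filter, Finset.mem_univ, true_and] at h h'
    simp only [Prod.mk.injEq] at e
    obtain ⟨rfl, e1, e2⟩ := e
    rcases le_total (σ i) (σ j) with a | a <;> rcases le_total (σ i') (σ j') with b | b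
    · rw [min_eq_left a, min_eq_left b] at e1
      rw [max_eq_right a, max_eq_right b] at e2
      rw [σ.injective e1, σ.injective e2]
    · rw [min_eq_left a, min_eq_right b] at e1
      rw [max_eq_right a, max_eq_left b] at e2
      have e3 := σ.injective e1
      have e4 := σ.injective e2
      subst e3 e4
      exact absurd h (not_lt.2 h'.le)
    · rw [min_eq_right a, min_eq_left b] at e1
      rw [max_eq_left a, max_eq_right b] at e2
      have e3 := σ.injective e1
      have e4 := σ.injective e2
      subst e3 e4
      exact absurd h (not_lt.2 h'.le)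
    · rw [min_eq_right a, min_eq_right b] at e1
      rw [max_eq_left a, max_eq_left b] at e2
      rw [σ.injective e1, σ.injective e2]
  · rintro ⟨x, i, j⟩ h
    simp only [Finset.mem_val, Finset.mem_filter, Finset.mem_univ, true_and] at h
    have hne : σ.symm i ≠ σ.symm j := fun e => h.ne (σ.symm.injective e)
    refine ⟨(x, min (σ.symm i) (σ.symm j), max (σ.symm i) (σ.symm j)), ?_, ?_⟩
    · simp only [Finset.mem_val, Finset.mem_filter, Finset.mem_univ, true_and]
      exact min_lt_max.2 hne
    · rcases le_total (σ.symm i) (σ.symm j) with a | a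
      · simp only [min_eq_left a, max_eq_right a, Equiv.apply_symm_apply, min_eq_left h.le,
          max_eq_right h.le]
      · simp only [min_eq_right a, max_eq_left a, Equiv.apply_symm_apply, min_eq_right h.le,
          max_eq_left h.le]
  · rintro ⟨x, i, j⟩ _
    simp only [Function.comp_def]
    rcases le_total (σ i) (σ j) with a | a
    · rw [min_eq_left a, max_eq_right a]
    · rw [min_eq_right a, max_eq_left a, Equiv.swap_comm]

theorem repl {α β : Type} {f g : α → β} {l : List α} (h : (l.map f).Perm (l.map g)) (M : ℕ) :
    (((List.replicate M l).flatten).map f).Perm (((List.replicate M l).flatten).map g) := by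
  induction M with
  | zero => simp
  | succ M ih =>
    rw [List.replicate_succ, List.flatten_cons, List.map_append, List.map_append]
    exact h.append ih

end TieEdge

theorem edgesS_sym (n s M : ℕ) [NeZero n] (σ : Equiv.Perm (Fin s)) :
    ((edgesS n s M).map fun e => Equiv.swap (e.1.1, σ e.1.2) (e.2.1, σ e.2.2)).Perm
      ((edgesS n s M).map fun e => Equiv.swap e.1 e.2) := by
  unfold edgesS
  rw [List.map_append, List.map_append]
  exact (TieEdge.inter n s σ).append (TieEdge.repl (TieEdge.intra n s σ) M)

end

end Vale.Agent.P361.LRO.GenS
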