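import Vale.Agent.P361.LRO.Defs

/-!
P361 LRO, all spins, leaf T3 (TIE route): relabelling the vertices.
-/

set_option linter.unusedSectionVars false

namespace Vale.Agent.P361.LRO.GenS.TieRelabel

open Finset Vale.Agent.P361.LRO

noncomputable section

section Abs

variable {X : Type} [Fintype X] [DecidableEq X]

theorem law_conj (R : Equiv.Perm X) (l : List (X × X × ℝ)) (σ π : Equiv.Perm X) :
    law (l.map fun g => (R g.1, R g.2.1, g.2.2)) (R * σ * R⁻¹) (R * π * R⁻¹) = law l σ π := by
  induction l generalizing π with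
  | nil =>
    simp only [List.map_nil, law, Pi.single_apply]
    have : (R * π * R⁻¹ = R * σ * R⁻¹) ↔ π = σ := by
      constructor
      · intro h
        exact mul_left_cancel (mul_right_cancel h)
      · rintro rfl; rfl
    simp only [this]
  | cons g l ih =>
    simp only [List.map_cons, law]
    have e : Equiv.swap (R g.1) (R g.2.1) * (R * π * R⁻¹) =
        R * (Equiv.swap g.1 g.2.1 * π) * R⁻¹ := by
      rw [Equiv.swap_apply_apply]
      simp [mul_assoc]
    rw [ih, e, ih]

/-- Sum over permutations and spins, relabelled. -/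
theorem sum_conj (R : Equiv.Perm X) (F : Equiv.Perm X → (X → Fin 2) → ℝ) :
    ∑ π, ∑ s, F π s = ∑ π : Equiv.Perm X, ∑ s : X → Fin 2, F (R * π * R⁻¹) (s ∘ R.symm) := by
  have h1 : ∑ π, ∑ s, F π s = ∑ π : Equiv.Perm X, ∑ s : X → Fin 2, F (R * π * R⁻¹) s :=
    (Equiv.sum_comp (MulAut.conj R).toEquiv fun π => ∑ s, F π s).symm
  rw [h1]
  refine Finset.sum_congr rfl fun π _ => ?_
  exact (Equiv.sum_comp (Equiv.arrowCongr R (Equiv.refl (Fin 2))) fun s => F (R * π * R⁻¹) s).symm

theorem wt_conj (R : Equiv.Perm X) (θ : X → ℝ) (π : Equiv.Perm X) (s : X → Fin 2) :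
    wt (fun x => θ (R.symm x)) (R * π * R⁻¹) (s ∘ R.symm) = wt θ π s := by
  unfold wt
  rw [← Equiv.prod_comp R]
  refine Finset.prod_congr rfl fun x _ => ?_
  simp only [Function.comp, Equiv.symm_apply_apply, Equiv.Perm.mul_apply]
  have : R⁻¹ (R x) = x := R.symm_apply_apply x
  rw [this]

theorem jj_conj (R : Equiv.Perm X) (π : Equiv.Perm X) (s : X → Fin 2) (x : X) :
    jj (R * π * R⁻¹) (s ∘ R.symm) (R x) = jj π s x := by
  unfold jj
  simp only [Function.comp, Equiv.symm_apply_apply, Equiv.Perm.mul_apply]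
  have : R⁻¹ (R x) = x := R.symm_apply_apply x
  rw [this]

theorem KK_conj (R : Equiv.Perm X) (μ μ' : Equiv.Perm X → ℝ)
    (hμ : ∀ π, μ' (R * π * R⁻¹) = μ π) (θ a : X → ℝ) :
    KK μ θ (fun x => a (R x)) = KK μ' (fun x => θ (R.symm x)) a := by
  unfold KK EE ZZ
  rw [sum_conj R (fun π s => μ' π * wt (fun x => θ (R.symm x)) π s *
      (∑ x, a x * jj π s x) ^ 2),
    sum_conj R (fun π s => μ' π * wt (fun x => θ (R.symm x)) π s)]
  congr 1
  · refine Finset.sum_congr rfl fun π _ => Finset.sum_congr rfl fun s _ => ?_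
    have e : (∑ x, a (R x) * jj π s x) = ∑ x, a x * jj (R * π * R⁻¹) (s ∘ R.symm) x := by
      rw [← Equiv.sum_comp R fun x => a x * jj (R * π * R⁻¹) (s ∘ R.symm) x]
      exact Finset.sum_congr rfl fun x _ => by rw [jj_conj]
    rw [hμ, wt_conj]
    show _ * (∑ x, a (R x) * jj π s x) ^ 2 = _
    rw [e]
  · refine Finset.sum_congr rfl fun π _ => Finset.sum_congr rfl fun s _ => ?_
    rw [hμ, wt_conj]

end Abs

end

end Vale.Agent.P361.LRO.GenS.TieRelabel

namespace Vale.Agent.P361.LRO.GenS

open Finset Vale.Agent.P361.LRO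

/-- **T3** -/
theorem KK_relabel {V : Type} [Fintype V] [DecidableEq V] (ρ : Equiv.Perm V) (L : List (V × V))
    (β : ℝ) (N : ℕ) (θ a : Fin (N + 1) × V → ℝ) :
    KK (phys L β N) θ (fun z => a (z.1, ρ z.2)) =
      KK (phys (L.map fun e => (ρ e.1, ρ e.2)) β N) (fun z => θ (z.1, ρ.symm z.2)) a := by
  set R : Equiv.Perm (Fin (N + 1) × V) := Equiv.prodCongr (Equiv.refl _) ρ with hR
  have h := TieRelabel.KK_conj R (phys L β N) (phys (L.map fun e => (ρ e.1, ρ e.2)) β N)
    (fun π => by
      unfold phys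
      have h1 : gates (L.map fun e => (ρ e.1, ρ e.2)) N (β / (2 * N)) =
          (gates L N (β / (2 * N))).map fun g => (R g.1, R g.2.1, g.2.2) := by
        unfold gates
        rw [List.map_flatMap]
        congr 1
        funext k
        rw [List.map_map, List.map_map]
        rfl
      have h2 : base (V := V) N = R * base N * R⁻¹ := by
        rw [eq_mul_inv_iff_mul_eq]
        ext z
        · rfl
        · rfl
      rw [h1]
      conv_lhs => rw [h2]
      exact TieRelabel.law_conj R _ _ _) θ a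
  exact h

end Vale.Agent.P361.LRO.GenS
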