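import Vale.Agent.P361.LRO.Defs

/-!
P361 LRO, all spins: the law of the worldline permutation depends on the order of the gates of a
layer only by `O(p²)` per layer in `ℓ¹`.
-/

set_option linter.unusedSectionVars false
set_option linter.unusedVariables false

namespace Vale.Agent.P361.LRO.GenS

open Finset

noncomputable section

namespace TV

variable {X : Type} [Fintype X] [DecidableEq X]

/-- One random gate. -/
def stepT (g : Equiv.Perm X) (p : ℝ) (f : Equiv.Perm X → ℝ) : Equiv.Perm X → ℝ :=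
  fun π => (1 - p) * f π + p * f (g * π)

/-- A list of random gates. -/
def listT : List (Equiv.Perm X) → ℝ → (Equiv.Perm X → ℝ) → Equiv.Perm X → ℝ
  | [], _, f => f
  | g :: l, p, f => stepT g p (listT l p f)

/-- `ℓ¹` norm. -/
def nm (f : Equiv.Perm X → ℝ) : ℝ := ∑ π, |f π|

theorem nm_nonneg (f : Equiv.Perm X → ℝ) : 0 ≤ nm f := Finset.sum_nonneg fun _ _ => abs_nonneg _

theorem nm_shift (g : Equiv.Perm X) (f : Equiv.Perm X → ℝ) : (∑ π, |f (g * π)|) = nm f := by
  unfold nm
  exact Equiv.sum_comp (Equiv.mulLeft g) (fun π => |f π|)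

theorem nm_add (f g : Equiv.Perm X → ℝ) : nm (fun π => f π + g π) ≤ nm f + nm g := by
  unfold nm
  rw [← Finset.sum_add_distrib]
  exact Finset.sum_le_sum fun π _ => abs_add_le _ _

theorem nm_step {p : ℝ} (h0 : 0 ≤ p) (h1 : p ≤ 1) (g : Equiv.Perm X) (f : Equiv.Perm X → ℝ) :
    nm (stepT g p f) ≤ nm f := by
  have h2 : nm (stepT g p f) ≤ (1 - p) * nm f + p * nm f := by
    conv_rhs => rw [← nm_shift g f]
    unfold nm stepT
    rw [Finset.mul_sum, Finset.mul_sum, ← Finset.sum_add_distrib]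
    have h4 : ∑ π, |f (g * π)| = ∑ π, |f π| := nm_shift g f
    have h5 : ∀ π, |(1 - p) * f π + p * f (g * π)| ≤ (1 - p) * |f π| + p * |f (g * π)| := by
      intro π
      refine (abs_add_le _ _).trans ?_
      rw [abs_mul, abs_mul, abs_of_nonneg h0, abs_of_nonneg (sub_nonneg.2 h1)]
    refine (Finset.sum_le_sum fun π _ => h5 π).trans ?_
    rw [Finset.sum_add_distrib, Finset.sum_add_distrib, ← Finset.mul_sum, ← Finset.mul_sum,
      ← Finset.mul_sum, h4]
  linarith

theorem step_sub (g : Equiv.Perm X) (p : ℝ) (f f' : Equiv.Perm X → ℝ) :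
    stepT g p (fun π => f π - f' π) = fun π => stepT g p f π - stepT g p f' π := by
  funext π
  unfold stepT
  ring

theorem nm_list {p : ℝ} (h0 : 0 ≤ p) (h1 : p ≤ 1) (l : List (Equiv.Perm X))
    (f : Equiv.Perm X → ℝ) : nm (listT l p f) ≤ nm f := by
  induction l with
  | nil => exact le_rfl
  | cons g l ih => exact (nm_step h0 h1 g _).trans ih

theorem list_sub (l : List (Equiv.Perm X)) (p : ℝ) (f f' : Equiv.Perm X → ℝ) :
    listT l p (fun π => f π - f' π) = fun π => listT l p f π - listT l p f' π := by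
  induction l with
  | nil => rfl
  | cons g l ih =>
    change stepT g p (listT l p _) = fun π => stepT g p _ π - stepT g p _ π
    rw [ih, step_sub]

theorem nm_list_sub {p : ℝ} (h0 : 0 ≤ p) (h1 : p ≤ 1) (l : List (Equiv.Perm X))
    (f f' : Equiv.Perm X → ℝ) :
    nm (fun π => listT l p f π - listT l p f' π) ≤ nm (fun π => f π - f' π) := by
  rw [← list_sub]
  exact nm_list h0 h1 l _

theorem nm_swap {p : ℝ} (h0 : 0 ≤ p) (g h : Equiv.Perm X) (f : Equiv.Perm X → ℝ) :
    nm (fun π => stepT g p (stepT h p f) π - stepT h p (stepT g p f) π) ≤ 2 * p ^ 2 * nm f := by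
  have e1 : ∀ π, stepT g p (stepT h p f) π - stepT h p (stepT g p f) π =
      p ^ 2 * (f (h * (g * π)) - f (g * (h * π))) := by
    intro π
    unfold stepT
    ring
  unfold nm
  simp only [e1]
  have h2 : ∀ π, |p ^ 2 * (f (h * (g * π)) - f (g * (h * π)))| ≤
      p ^ 2 * |f (h * (g * π))| + p ^ 2 * |f (g * (h * π))| := by
    intro π
    rw [abs_mul, abs_of_nonneg (sq_nonneg p), ← mul_add]
    exact mul_le_mul_of_nonneg_left (abs_sub _ _) (sq_nonneg p)
  refine (Finset.sum_le_sum fun π _ => h2 π).trans ?_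
  rw [Finset.sum_add_distrib, ← Finset.mul_sum, ← Finset.mul_sum]
  have h3 : ∑ π, |f (h * (g * π))| = ∑ π, |f π| := by
    have h4 := nm_shift g (fun π => f (h * π))
    rw [h4]
    exact nm_shift h f
  have h5 : ∑ π, |f (g * (h * π))| = ∑ π, |f π| := by
    have h4 := nm_shift h (fun π => f (g * π))
    rw [h4]
    exact nm_shift g f
  rw [h3, h5]
  linarith

/-- Permuting a list of gates. -/
theorem perm_bound {V : Type} {A A' : List (Equiv.Perm V)} (hp : A.Perm A') :
    ∃ C : ℝ, 0 ≤ C ∧ ∀ (X : Type) [Fintype X] [DecidableEq X]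
      (φ : Equiv.Perm V → Equiv.Perm X) (p : ℝ) (f : Equiv.Perm X → ℝ), 0 ≤ p → p ≤ 1 →
      nm (fun π => listT (A.map φ) p f π - listT (A'.map φ) p f π) ≤ C * p ^ 2 * nm f := by
  induction hp with
  | nil =>
    refine ⟨0, le_rfl, fun X _ _ φ p f _ _ => ?_⟩
    unfold nm
    simp [listT]
  | cons g _ ih =>
    obtain ⟨C, hC, h⟩ := ih
    refine ⟨C, hC, fun X _ _ φ p f h0 h1 => ?_⟩
    refine le_trans ?_ (h X φ p f h0 h1)
    simp only [List.map_cons]
    change nm (fun π => stepT (φ g) p _ π - stepT (φ g) p _ π) ≤ _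
    rw [← step_sub]
    exact nm_step h0 h1 _ _
  | swap g g' l =>
    refine ⟨2, by norm_num, fun X _ _ φ p f h0 h1 => ?_⟩
    simp only [List.map_cons]
    change nm (fun π => stepT (φ g') p (stepT (φ g) p (listT (l.map φ) p f)) π -
      stepT (φ g) p (stepT (φ g') p (listT (l.map φ) p f)) π) ≤ _
    refine (nm_swap h0 _ _ _).trans ?_
    exact mul_le_mul_of_nonneg_left (nm_list h0 h1 _ _) (by positivity)
  | trans _ _ ih1 ih2 =>
    obtain ⟨C1, hC1, h1⟩ := ih1
    obtain ⟨C2, hC2, h2⟩ := ih2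
    refine ⟨C1 + C2, add_nonneg hC1 hC2, fun X _ _ φ p f hp0 hp1 => ?_⟩
    have h3 := h1 X φ p f hp0 hp1
    have h4 := h2 X φ p f hp0 hp1
    have h5 := (nm_add _ _).trans (add_le_add h3 h4)
    simp only [sub_add_sub_cancel] at h5
    exact h5.trans (le_of_eq (by ring))

theorem law_eq_listT (l : List (X × X × ℝ)) (p : ℝ) (hl : ∀ g ∈ l, g.2.2 = p)
    (l' : List (X × X × ℝ)) (σ : Equiv.Perm X) :
    law (l ++ l') σ = listT (l.map fun g => Equiv.swap g.1 g.2.1) p (law l' σ) := by
  induction l with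
  | nil => rfl
  | cons g l ih =>
    have h1 := ih fun g' hg' => hl g' (List.mem_cons_of_mem _ hg')
    have h2 : g.2.2 = p := hl g List.mem_cons_self
    rw [List.cons_append, List.map_cons]
    change (fun π => (1 - g.2.2) * law (l ++ l') σ π +
      g.2.2 * law (l ++ l') σ (Equiv.swap g.1 g.2.1 * π)) = stepT _ p (listT _ p _)
    rw [h1, h2]
    rfl

end TV

open TV

variable {V : Type} [Fintype V] [DecidableEq V]

/-- The gates of one layer. -/
def layG (L : List (V × V)) {N : ℕ} (p : ℝ) (k : Fin N) :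
    List ((Fin (N + 1) × V) × (Fin (N + 1) × V) × ℝ) :=
  L.map fun e => ((k.castSucc, e.1), (k.castSucc, e.2), p)

/-- A permutation of `V` acting on one layer. -/
def layPerm {N : ℕ} (k : Fin (N + 1)) (g : Equiv.Perm V) : Equiv.Perm (Fin (N + 1) × V) where
  toFun z := if z.1 = k then (z.1, g z.2) else z
  invFun z := if z.1 = k then (z.1, g.symm z.2) else z
  left_inv z := by
    obtain ⟨a, v⟩ := z
    by_cases h : a = k
    · subst h; simp
    · simp [h]
  right_inv z := by
    obtain ⟨a, v⟩ := z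
    by_cases h : a = k
    · subst h; simp
    · simp [h]

theorem layPerm_swap {N : ℕ} (k : Fin (N + 1)) (x y : V) :
    layPerm k (Equiv.swap x y) = Equiv.swap (k, x) (k, y) := by
  ext z : 1
  change (if z.1 = k then (z.1, Equiv.swap x y z.2) else z) = _
  by_cases h : z.1 = k
  · rw [if_pos h]
    obtain ⟨a, v⟩ := z
    simp only at h
    subst h
    by_cases h1 : v = x
    · subst h1; simp
    · by_cases h2 : v = y
      · subst h2; simp
      · rw [Equiv.swap_apply_of_ne_of_ne h1 h2, Equiv.swap_apply_of_ne_of_ne]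
        · intro h3; exact h1 (congrArg Prod.snd h3)
        · intro h3; exact h2 (congrArg Prod.snd h3)
  · rw [if_neg h, Equiv.swap_apply_of_ne_of_ne]
    · intro h3; exact h (congrArg Prod.fst h3)
    · intro h3; exact h (congrArg Prod.fst h3)

theorem nm_law {N : ℕ} {p : ℝ} (h0 : 0 ≤ p) (h1 : p ≤ 1) (L : List (V × V)) (ks : List (Fin N))
    (σ : Equiv.Perm (Fin (N + 1) × V)) : nm (law (ks.flatMap (layG L p)) σ) ≤ 1 := by
  have h2 := law_eq_listT (ks.flatMap (layG L p)) p (by
    intro g hg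
    rw [List.mem_flatMap] at hg
    obtain ⟨k, -, hg⟩ := hg
    unfold layG at hg
    rw [List.mem_map] at hg
    obtain ⟨e, -, rfl⟩ := hg
    rfl) [] σ
  rw [List.append_nil] at h2
  rw [h2]
  refine (nm_list h0 h1 _ _).trans ?_
  unfold nm
  change ∑ π, |(Pi.single σ 1 : Equiv.Perm (Fin (N + 1) × V) → ℝ) π| ≤ 1
  rw [Finset.sum_eq_single σ]
  · simp
  · intro π _ hπ
    rw [Pi.single_eq_of_ne hπ, abs_zero]
  · intro h; exact absurd (Finset.mem_univ _) h

theorem law_layers (L L' : List (V × V)) {C : ℝ} (hC : 0 ≤ C)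
    (h : ∀ (X : Type) [Fintype X] [DecidableEq X] (φ : Equiv.Perm V → Equiv.Perm X) (p : ℝ)
      (f : Equiv.Perm X → ℝ), 0 ≤ p → p ≤ 1 →
      nm (fun π => listT ((L.map fun e => Equiv.swap e.1 e.2).map φ) p f π -
        listT ((L'.map fun e => Equiv.swap e.1 e.2).map φ) p f π) ≤ C * p ^ 2 * nm f)
    {N : ℕ} {p : ℝ} (h0 : 0 ≤ p) (h1 : p ≤ 1) (ks : List (Fin N))
    (σ : Equiv.Perm (Fin (N + 1) × V)) :
    nm (fun π => law (ks.flatMap (layG L p)) σ π - law (ks.flatMap (layG L' p)) σ π) ≤
      ks.length * (C * p ^ 2) := by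
  have hswap : ∀ (L : List (V × V)) (k : Fin N), (layG L p k).map (fun g => Equiv.swap g.1 g.2.1) =
      (L.map fun e => Equiv.swap e.1 e.2).map (layPerm k.castSucc) := by
    intro L k
    unfold layG
    rw [List.map_map, List.map_map]
    refine List.map_congr_left fun e _ => ?_
    exact (layPerm_swap k.castSucc e.1 e.2).symm
  have hp : ∀ (L : List (V × V)) (k : Fin N), ∀ g ∈ layG L p k, g.2.2 = p := by
    intro L k g hg
    unfold layG at hg
    rw [List.mem_map] at hg
    obtain ⟨e, -, rfl⟩ := hg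
    rfl
  induction ks with
  | nil =>
    unfold nm
    simp
  | cons k ks ih =>
    rw [List.flatMap_cons, List.flatMap_cons, law_eq_listT _ p (hp L k),
      law_eq_listT _ p (hp L' k), hswap, hswap]
    have h2 := h _ (layPerm k.castSucc) p (law (ks.flatMap (layG L p)) σ) h0 h1
    have h3 := nm_list_sub h0 h1
      ((L'.map fun e => Equiv.swap e.1 e.2).map (layPerm k.castSucc))
      (law (ks.flatMap (layG L p)) σ) (law (ks.flatMap (layG L' p)) σ)
    have h4 := nm_law h0 h1 L ks σ
    have h5 : C * p ^ 2 * nm (law (ks.flatMap (layG L p)) σ) ≤ C * p ^ 2 :=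
      mul_le_of_le_one_right (by positivity) h4
    have h6 := nm_add
      (fun π => listT ((L.map fun e => Equiv.swap e.1 e.2).map (layPerm k.castSucc)) p
          (law (ks.flatMap (layG L p)) σ) π -
        listT ((L'.map fun e => Equiv.swap e.1 e.2).map (layPerm k.castSucc)) p
          (law (ks.flatMap (layG L p)) σ) π)
      (fun π => listT ((L'.map fun e => Equiv.swap e.1 e.2).map (layPerm k.castSucc)) p
          (law (ks.flatMap (layG L p)) σ) π -
        listT ((L'.map fun e => Equiv.swap e.1 e.2).map (layPerm k.castSucc)) p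
          (law (ks.flatMap (layG L' p)) σ) π)
    simp only [sub_add_sub_cancel] at h6
    refine h6.trans ?_
    rw [List.length_cons]
    push_cast
    linarith

theorem phys_tv (L L' : List (V × V))
    (hp : (L.map fun e => Equiv.swap e.1 e.2).Perm (L'.map fun e => Equiv.swap e.1 e.2)) :
    ∃ C : ℝ, ∀ (β : ℝ) (N : ℕ), 0 ≤ β → β ≤ N → 0 < N →
      ∑ π, |phys L β N π - phys L' β N π| ≤ C * β ^ 2 / N := by
  obtain ⟨C, hC, h⟩ := perm_bound hp
  refine ⟨C / 4, fun β N hβ hβN hN => ?_⟩
  have hN' : (0 : ℝ) < N := by exact_mod_cast hN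
  have h0 : 0 ≤ β / (2 * N) := by positivity
  have h1 : β / (2 * N) ≤ 1 := by
    rw [div_le_one (by positivity)]
    linarith
  have h2 := law_layers L L' hC h (N := N) h0 h1 (List.finRange N) (base N)
  have h3 : nm (fun π => law ((List.finRange N).flatMap (layG L (β / (2 * N)))) (base N) π -
      law ((List.finRange N).flatMap (layG L' (β / (2 * N)))) (base N) π) =
      ∑ π, |phys L β N π - phys L' β N π| := rfl
  rw [h3, List.length_finRange] at h2
  refine h2.trans (le_of_eq ?_)
  field_simp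
  ring

end

end Vale.Agent.P361.LRO.GenS
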