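import Vale.Agent.P361.LRO.Defs

/-!
P361 LRO, all spins, tying the copies, leaf T2: the worldline permutation goes down one layer;
bound of the total weight (a configuration is determined by its values on the layer `0` and its
flips).
-/

namespace Vale.Agent.P361.LRO.GenS

open Finset Filter Vale.Agent.P361.LRO

noncomputable section

theorem law_layer {V : Type} [Fintype V] [DecidableEq V] {N : ℕ}
    (l : List ((Fin (N + 1) × V) × (Fin (N + 1) × V) × ℝ)) (hl : ∀ g ∈ l, g.1.1 = g.2.1.1)
    (σ π : Equiv.Perm (Fin (N + 1) × V)) (h : law l σ π ≠ 0) (z : Fin (N + 1) × V) :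
    (π z).1 = (σ z).1 := by
  induction l generalizing π with
  | nil =>
    have h2 : π = σ := by
      by_contra hne
      apply h
      change Pi.single (M := fun _ => ℝ) σ 1 π = 0
      rw [Pi.single_apply, if_neg hne]
    rw [h2]
  | cons g l ih =>
    have ih' := ih fun g hg => hl g (by simp [hg])
    have hg := hl g (by simp)
    have h2 : (1 - g.2.2) * law l σ π + g.2.2 * law l σ (Equiv.swap g.1 g.2.1 * π) ≠ 0 := h
    by_cases h3 : law l σ π = 0
    · have h4 : law l σ (Equiv.swap g.1 g.2.1 * π) ≠ 0 := by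
        intro h5
        apply h2
        rw [h3, h5]
        simp
      have h5 := ih' _ h4
      rw [← h5, Equiv.Perm.mul_apply]
      rcases eq_or_ne (π z) g.1 with h6 | h6
      · rw [h6, Equiv.swap_apply_left, hg]
      · rcases eq_or_ne (π z) g.2.1 with h7 | h7
        · rw [h7, Equiv.swap_apply_right, hg]
        · rw [Equiv.swap_apply_of_ne_of_ne h6 h7]
    · exact ih' π h3

theorem phys_layer {V : Type} [Fintype V] [DecidableEq V] (L : List (V × V)) (β : ℝ) (N : ℕ)
    (π : Equiv.Perm (Fin (N + 1) × V)) (h : phys L β N π ≠ 0) (z : Fin (N + 1) × V) :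
    (π z).1 = z.1 - 1 := by
  have h1 := law_layer (gates L N (β / (2 * N))) (by
    intro g hg
    rw [gates, List.mem_flatMap] at hg
    obtain ⟨k, -, hk⟩ := hg
    rw [List.mem_map] at hk
    obtain ⟨e, -, rfl⟩ := hk
    rfl) (base N) π h z
  rw [h1]
  rfl

theorem wt_sum_le (V : Type) [Fintype V] [DecidableEq V] (β : ℝ) (hβ : 0 ≤ β) :
    ∃ B : ℝ, 0 < B ∧ ∀ N : ℕ, 0 < N → ∀ θ : Fin (N + 1) × V → ℝ, (∀ z, 0 ≤ θ z ∧ θ z ≤ 1) →
      (∀ z, z.1 ≠ 0 → θ z ≤ β / (2 * N)) → ∀ π : Equiv.Perm (Fin (N + 1) × V),
      (∀ z, (π z).1 = z.1 - 1) →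
      ∑ s, wt θ π s * (1 + (∑ x, |jj π s x|) ^ 2) ≤ B := by
  refine ⟨3 * (Fintype.card (V → Fin 2) * (3 ^ Fintype.card V *
    Real.exp (β * Fintype.card V))), by positivity, ?_⟩
  intro N hN θ h01 hθ π hπ
  classical
  set F : (Fin (N + 1) × V → Fin 2) → Finset (Fin (N + 1) × V) :=
    fun s => univ.filter fun z => s z ≠ s (π z) with hF
  -- weight
  have hwt : ∀ s, wt θ π s = ∏ z ∈ F s, θ z := by
    intro s
    rw [wt, hF, Finset.prod_filter]
    refine Finset.prod_congr rfl fun z _ => ?_
    by_cases h : s z = s (π z)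
    · simp [h]
    · simp [h]
  have hj : ∀ s, ∑ x, |jj π s x| = ((F s).card : ℝ) := by
    intro s
    rw [hF, Finset.card_filter]
    push_cast
    refine Finset.sum_congr rfl fun z _ => ?_
    have h2 : ∀ u v : Fin 2, |((u : ℕ) : ℝ) - ((v : ℕ) : ℝ)| = if u ≠ v then 1 else 0 := by
      intro u v
      fin_cases u <;> fin_cases v <;> simp
    rw [jj, h2]
  have hk : ∀ k : ℕ, (1 : ℝ) + (k : ℝ) ^ 2 ≤ 3 * 2 ^ k := by
    intro k
    have h3 : ∀ k : ℕ, 1 + k ^ 2 ≤ 3 * 2 ^ k := by
      intro k
      induction k with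
      | zero => norm_num
      | succ k ih =>
        rcases Nat.lt_or_ge k 3 with h | h
        · interval_cases k <;> norm_num
        · rw [pow_succ 2 k]
          nlinarith
    exact_mod_cast h3 k
  have hterm : ∀ s, wt θ π s * (1 + (∑ x, |jj π s x|) ^ 2) ≤ 3 * ∏ z ∈ F s, (2 * θ z) := by
    intro s
    rw [hwt, hj, Finset.prod_mul_distrib, Finset.prod_const]
    have h0 : 0 ≤ ∏ z ∈ F s, θ z := Finset.prod_nonneg fun z _ => (h01 z).1
    calc (∏ z ∈ F s, θ z) * (1 + ((F s).card : ℝ) ^ 2)
        ≤ (∏ z ∈ F s, θ z) * (3 * 2 ^ (F s).card) := mul_le_mul_of_nonneg_left (hk _) h0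
      _ = _ := by ring
  -- injectivity
  have hinj : Function.Injective fun s : Fin (N + 1) × V → Fin 2 =>
      ((fun x : V => s (0, x)), F s) := by
    intro s t hst
    have h0 : ∀ x : V, s (0, x) = t (0, x) := fun x => congrFun (congrArg Prod.fst hst) x
    have hFst : F s = F t := congrArg Prod.snd hst
    have key : ∀ k : ℕ, ∀ z : Fin (N + 1) × V, (z.1 : ℕ) = k → s z = t z := by
      intro k
      induction k with
      | zero =>
        intro z hz
        have : z.1 = 0 := Fin.ext (by simpa using hz)
        obtain ⟨a, x⟩ := z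
        dsimp only at this
        subst this
        exact h0 x
      | succ k ih =>
        intro z hz
        have hz0 : z.1 ≠ 0 := by
          intro h
          rw [h] at hz
          simp at hz
        have h1 : ((π z).1 : ℕ) = k := by
          rw [hπ, Fin.val_sub_one_of_ne_zero hz0, hz]
          rfl
        have h2 := ih (π z) h1
        have h3 : (s z ≠ s (π z)) ↔ (t z ≠ t (π z)) := by
          have := Finset.ext_iff.1 hFst z
          simpa [hF] using this
        rw [← h2] at h3
        have h4 : ∀ u v w : Fin 2, ((u ≠ w) ↔ (v ≠ w)) → u = v := by decide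
        exact h4 _ _ _ h3
    funext z
    exact key _ z rfl
  calc ∑ s, wt θ π s * (1 + (∑ x, |jj π s x|) ^ 2)
      ≤ ∑ s, 3 * ∏ z ∈ F s, (2 * θ z) := Finset.sum_le_sum fun s _ => hterm s
    _ = 3 * ∑ s, ∏ z ∈ F s, (2 * θ z) := by rw [Finset.mul_sum]
    _ ≤ 3 * ∑ p : (V → Fin 2) × Finset (Fin (N + 1) × V), ∏ z ∈ p.2, (2 * θ z) := by
        refine mul_le_mul_of_nonneg_left ?_ (by norm_num)
        have h1 : ∑ s, ∏ z ∈ F s, (2 * θ z)
            = ∑ p ∈ univ.image (fun s : Fin (N + 1) × V → Fin 2 =>
              ((fun x : V => s (0, x)), F s)), ∏ z ∈ p.2, (2 * θ z) := by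
          rw [Finset.sum_image fun a _ b _ h => hinj h]
        rw [h1]
        refine Finset.sum_le_sum_of_subset_of_nonneg (Finset.subset_univ _) fun p _ _ => ?_
        exact Finset.prod_nonneg fun z _ => by
          have := (h01 z).1
          positivity
    _ = 3 * (Fintype.card (V → Fin 2) * ∏ z, (1 + 2 * θ z)) := by
        rw [Fintype.sum_prod_type]
        dsimp only
        rw [Finset.sum_const, Finset.card_univ, nsmul_eq_mul]
        congr 2
        have h1 := Finset.prod_one_add (ι := Fin (N + 1) × V) (s := univ) (f := fun z => 2 * θ z)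
        rw [h1, Finset.powerset_univ]
    _ ≤ _ := by
        refine mul_le_mul_of_nonneg_left ?_ (by norm_num)
        refine mul_le_mul_of_nonneg_left ?_ (by positivity)
        have hNp : (0 : ℝ) < N := by exact_mod_cast hN
        have h1 : ∏ z, (1 + 2 * θ z) ≤ ∏ z : Fin (N + 1) × V,
            (if z.1 = 0 then (3 : ℝ) else Real.exp (β / N)) := by
          refine Finset.prod_le_prod (fun z _ => ?_) fun z _ => ?_
          · have := (h01 z).1
            positivity
          · split_ifs with h
            · have := (h01 z).2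
              linarith
            · have h2 := hθ z h
              have h3 := Real.add_one_le_exp (β / N)
              have h4 : 2 * (β / (2 * (N : ℝ))) = β / N := by
                field_simp
              linarith
        refine h1.trans (le_of_eq ?_)
        rw [Fintype.prod_prod_type, Fin.prod_univ_succ]
        simp only [if_true, Fin.succ_ne_zero, if_false, Finset.prod_const, Finset.card_univ,
          Fintype.card_fin]
        rw [← pow_mul, ← Real.exp_nat_mul]
        congr 2
        push_cast
        field_simp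

end

end Vale.Agent.P361.LRO.GenS
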