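import Vale.Agent.P361.LRO.BaseA
import Vale.Agent.P361.LRO.GenS.TieTV
import Vale.Agent.P361.LRO.GenS.TieWt
import Vale.Agent.P361.LRO.GenS.TieRelabel

/-!
P361 LRO, all spins, leaf T4 (TIE route): `KK` is almost invariant under a relabelling of the
vertices that permutes the gates (the order of the gates changes).
-/

set_option linter.unusedSectionVars false

namespace Vale.Agent.P361.LRO.GenS.TieSym

open Finset Vale.Agent.P361.LRO

noncomputable section

section Abs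

variable {X : Type} [Fintype X] [DecidableEq X]

theorem sum_cmp {μ μ' F : Equiv.Perm X → ℝ} {B D : ℝ}
    (hF0 : ∀ π, 0 ≤ F π) (hF : ∀ π, (μ π ≠ 0 ∨ μ' π ≠ 0) → F π ≤ B) (hB : 0 ≤ B)
    (hD : ∑ π, |μ π - μ' π| ≤ D) :
    |(∑ π, μ π * F π) - ∑ π, μ' π * F π| ≤ D * B := by
  rw [← Finset.sum_sub_distrib]
  calc |∑ π, (μ π * F π - μ' π * F π)| ≤ ∑ π, |μ π * F π - μ' π * F π| :=
        Finset.abs_sum_le_sum_abs _ _
    _ ≤ ∑ π, |μ π - μ' π| * B := by
        refine Finset.sum_le_sum fun π _ => ?_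
        rw [← sub_mul, abs_mul, abs_of_nonneg (hF0 π)]
        by_cases h : μ π ≠ 0 ∨ μ' π ≠ 0
        · exact mul_le_mul_of_nonneg_left (hF π h) (abs_nonneg _)
        · push Not at h
          rw [h.1, h.2]
          simp
    _ ≤ D * B := by
        rw [← Finset.sum_mul]
        exact mul_le_mul_of_nonneg_right hD hB

theorem sum_le {μ F : Equiv.Perm X → ℝ} {B : ℝ} (h0 : ∀ π, 0 ≤ μ π) (h1 : ∑ π, μ π = 1)
    (hF : ∀ π, μ π ≠ 0 → F π ≤ B) : ∑ π, μ π * F π ≤ B := by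
  calc ∑ π, μ π * F π ≤ ∑ π, μ π * B := by
        refine Finset.sum_le_sum fun π _ => ?_
        by_cases h : μ π = 0
        · rw [h]
          simp
        · exact mul_le_mul_of_nonneg_left (hF π h) (h0 π)
    _ = B := by rw [← Finset.sum_mul, h1, one_mul]

theorem KK_cmp {μ μ' : Equiv.Perm X → ℝ} (h0 : ∀ π, 0 ≤ μ π) (h1 : ∑ π, μ π = 1)
    (h0' : ∀ π, 0 ≤ μ' π) (h1' : ∑ π, μ' π = 1) {θ : X → ℝ} (hθ : ∀ x, 0 ≤ θ x) {B D : ℝ}
    (hB : 0 ≤ B)
    (hW : ∀ π, (μ π ≠ 0 ∨ μ' π ≠ 0) → ∑ s, wt θ π s * (1 + (∑ x, |jj π s x|) ^ 2) ≤ B)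
    (hD : ∑ π, |μ π - μ' π| ≤ D) {a : X → ℝ} (ha : ∀ x, |a x| ≤ 1) :
    KK μ θ a ≤ KK μ' θ a + D * B * (1 + B) := by
  set f : Equiv.Perm X → (X → Fin 2) → ℝ := fun π s => (∑ x, a x * jj π s x) ^ 2 with hf
  set W : Equiv.Perm X → ℝ := fun π => ∑ s, wt θ π s * f π s with hWd
  set Y : Equiv.Perm X → ℝ := fun π => ∑ s, wt θ π s with hYd
  have hf0 : ∀ π s, 0 ≤ f π s := fun π s => sq_nonneg _
  have hf1 : ∀ π s, f π s ≤ (∑ x, |jj π s x|) ^ 2 := by
    intro π s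
    change (∑ x, a x * jj π s x) ^ 2 ≤ (∑ x, |jj π s x|) ^ 2
    refine sq_le_sq' ?_ ?_ |>.trans le_rfl
    · refine neg_le_of_abs_le ?_
      refine (Finset.abs_sum_le_sum_abs _ _).trans (Finset.sum_le_sum fun x _ => ?_)
      rw [abs_mul]
      calc |a x| * |jj π s x| ≤ 1 * |jj π s x| :=
            mul_le_mul_of_nonneg_right (ha x) (abs_nonneg _)
        _ = _ := one_mul _
    refine (le_abs_self _).trans ?_
    refine (Finset.abs_sum_le_sum_abs _ _).trans (Finset.sum_le_sum fun x _ => ?_)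
    rw [abs_mul]
    calc |a x| * |jj π s x| ≤ 1 * |jj π s x| :=
          mul_le_mul_of_nonneg_right (ha x) (abs_nonneg _)
      _ = _ := one_mul _
  have hw : ∀ π s, 0 ≤ wt θ π s := fun π s => wt_nonneg hθ π s
  have hW0 : ∀ π, 0 ≤ W π := fun π => Finset.sum_nonneg fun s _ => mul_nonneg (hw π s) (hf0 π s)
  have hY0 : ∀ π, 0 ≤ Y π := fun π => Finset.sum_nonneg fun s _ => hw π s
  have hWB : ∀ π, (μ π ≠ 0 ∨ μ' π ≠ 0) → W π ≤ B := fun π h =>
    (Finset.sum_le_sum fun s _ => mul_le_mul_of_nonneg_left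
      ((hf1 π s).trans (by linarith)) (hw π s)).trans (hW π h)
  have hYB : ∀ π, (μ π ≠ 0 ∨ μ' π ≠ 0) → Y π ≤ B := fun π h =>
    (Finset.sum_le_sum fun s _ => by
      have h2 : wt θ π s * 1 ≤ wt θ π s * (1 + (∑ x, |jj π s x|) ^ 2) :=
        mul_le_mul_of_nonneg_left (by nlinarith [sq_nonneg (∑ x, |jj π s x|)]) (hw π s)
      rw [mul_one] at h2
      exact h2).trans (hW π h)
  have hZ : ∀ ν : Equiv.Perm X → ℝ, ZZ ν θ = ∑ π, ν π * Y π := by
    intro ν
    unfold ZZ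
    exact Finset.sum_congr rfl fun π _ => by rw [hYd, Finset.mul_sum]
  have hK : ∀ ν : Equiv.Perm X → ℝ, KK ν θ a = (∑ π, ν π * W π) / ZZ ν θ := by
    intro ν
    unfold KK EE
    congr 1
    refine Finset.sum_congr rfl fun π _ => ?_
    rw [hWd, Finset.mul_sum]
    exact Finset.sum_congr rfl fun s _ => by rw [hf, mul_assoc]
  have hZ1 : 1 ≤ ZZ μ θ := ZZ_ge_two h0 h1 hθ
  have hZ1' : 1 ≤ ZZ μ' θ := ZZ_ge_two h0' h1' hθ
  have hn := sum_cmp hW0 hWB hB hD
  have hz := sum_cmp hY0 hYB hB hD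
  rw [← hZ μ, ← hZ μ'] at hz
  have hn' : ∑ π, μ' π * W π ≤ B := sum_le h0' h1' fun π h => hWB π (Or.inr h)
  have hn0' : 0 ≤ ∑ π, μ' π * W π := Finset.sum_nonneg fun π _ => mul_nonneg (h0' π) (hW0 π)
  have hD0 : 0 ≤ D := (Finset.sum_nonneg fun π _ => abs_nonneg _).trans hD
  rw [hK μ, hK μ']
  set n := ∑ π, μ π * W π
  set n' := ∑ π, μ' π * W π
  set z := ZZ μ θ
  set z' := ZZ μ' θ
  have hzp : 0 < z := lt_of_lt_of_le one_pos hZ1
  have hzp' : 0 < z' := lt_of_lt_of_le one_pos hZ1'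
  have hDB : 0 ≤ D * B := mul_nonneg hD0 hB
  have e : n / z = n' / z' + ((n - n') / z + n' / z' * ((z' - z) / z)) := by
    field_simp
    ring
  rw [e]
  have e1 : (n - n') / z ≤ D * B := by
    rw [div_le_iff₀ hzp]
    have := (abs_le.1 hn).2
    nlinarith
  have e2 : (z' - z) / z ≤ D * B := by
    rw [div_le_iff₀ hzp]
    have := (abs_le.1 hz).1
    nlinarith
  have e3 : 0 ≤ n' / z' := div_nonneg hn0' hzp'.le
  have e4 : n' / z' ≤ B := by
    rw [div_le_iff₀ hzp']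
    nlinarith
  have e5 : n' / z' * ((z' - z) / z) ≤ B * (D * B) :=
    (mul_le_mul_of_nonneg_left e2 e3).trans (mul_le_mul_of_nonneg_right e4 hDB)
  nlinarith

end Abs

theorem law_phys {V : Type} [Fintype V] [DecidableEq V] (L : List (V × V)) {β : ℝ}
    (hβ : 0 ≤ β) {N : ℕ} (hN : β ≤ N) :
    (∀ π, 0 ≤ phys L β N π) ∧ ∑ π, phys L β N π = 1 := by
  refine ⟨law_nonneg _ (fun g hg => ?_) _, law_sum _ _⟩
  rw [gates, List.mem_flatMap] at hg
  obtain ⟨k, -, hk⟩ := hg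
  rw [List.mem_map] at hk
  obtain ⟨e, -, rfl⟩ := hk
  dsimp only
  constructor
  · positivity
  · rcases Nat.eq_zero_or_pos N with h | h
    · subst h
      simp
    · have hN' : (0 : ℝ) < N := by exact_mod_cast h
      rw [div_le_one (by positivity)]
      linarith

end

end Vale.Agent.P361.LRO.GenS.TieSym

namespace Vale.Agent.P361.LRO.GenS

open Finset Filter Vale.Agent.P361.LRO 

noncomputable section

/-- **T4** -/
theorem KK_sym {V : Type} [Fintype V] [DecidableEq V] (L : List (V × V)) (ρ : Equiv.Perm V)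
    (hp : (L.map fun e => Equiv.swap (ρ e.1) (ρ e.2)).Perm
      (L.map fun e => Equiv.swap e.1 e.2)) (β : ℝ) (hβ : 0 < β) (δ : ℝ) (hδ : 0 < δ) :
    ∃ N0 : ℕ, ∀ N : ℕ, N0 ≤ N → ∀ h T : V → ℝ, (∀ x, 0 ≤ h x ∧ h x ≤ 1) →
      (∀ x, 0 ≤ T x ∧ T x ≤ 1) → (∀ x, h (ρ x) = h x) → (∀ x, T (ρ x) = T x) →
      ∀ a : Fin (N + 1) × V → ℝ, (∀ z, 0 ≤ a z ∧ a z ≤ 1) →
      KK (phys L β N) (th β N h T) (fun z => a (z.1, ρ z.2)) ≤
        KK (phys L β N) (th β N h T) a + δ := by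
  obtain ⟨C, hC⟩ := phys_tv (L.map fun e => (ρ e.1, ρ e.2)) L (by
    rw [List.map_map]
    exact hp)
  obtain ⟨B, hB, hW⟩ := wt_sum_le V β hβ.le
  obtain ⟨N1, hN1⟩ := exists_nat_gt (|C| * β ^ 2 * B * (1 + B) / δ)
  obtain ⟨N2, hN2⟩ := exists_nat_gt β
  refine ⟨max N1 N2, fun N hN h T hh hT hhρ hTρ a ha => ?_⟩
  have hβN : β < N := hN2.trans_le (by exact_mod_cast (le_max_right N1 N2).trans hN)
  have hNp : (0 : ℝ) < N := hβ.trans hβN
  have hN0 : 0 < N := by exact_mod_cast hNp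
  have hbig : |C| * β ^ 2 * B * (1 + B) / δ < N :=
    hN1.trans_le (by exact_mod_cast (le_max_left N1 N2).trans hN)
  have hsymm : (fun z : Fin (N + 1) × V => th β N h T (z.1, ρ.symm z.2)) = th β N h T := by
    funext z
    have e1 : h (ρ.symm z.2) = h z.2 := by
      have := hhρ (ρ.symm z.2)
      rw [Equiv.apply_symm_apply] at this
      exact this.symm
    have e2 : T (ρ.symm z.2) = T z.2 := by
      have := hTρ (ρ.symm z.2)
      rw [Equiv.apply_symm_apply] at this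
      exact this.symm
    unfold th
    dsimp only
    rw [e1, e2]
  rw [KK_relabel, hsymm]
  obtain ⟨p0, p1⟩ := TieSym.law_phys L hβ.le hβN.le
  obtain ⟨q0, q1⟩ := TieSym.law_phys (L.map fun e => (ρ e.1, ρ e.2)) hβ.le hβN.le
  have hθ : ∀ z, 0 ≤ th β N h T z ∧ th β N h T z ≤ 1 := by
    intro z
    unfold th
    split_ifs
    · exact hT z.2
    · have := hh z.2
      refine ⟨by have := this.1; positivity, ?_⟩
      rw [div_le_one (by positivity)]
      nlinarith [this.1, this.2]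
  have hθ1 : ∀ z, z.1 ≠ 0 → th β N h T z ≤ β / (2 * N) := by
    intro z hz
    unfold th
    rw [if_neg hz]
    refine div_le_div_of_nonneg_right ?_ (by positivity)
    have := (hh z.2).2
    nlinarith
  have hmain := TieSym.KK_cmp q0 q1 p0 p1 (fun z => (hθ z).1) hB.le (fun π hπ => by
      refine hW N hN0 _ hθ hθ1 π fun z => ?_
      rcases hπ with h | h
      · exact phys_layer _ β N π h z
      · exact phys_layer _ β N π h z) (hC β N hβ.le hβN.le hN0) (a := a) (fun z => by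
        rw [abs_le]
        have := ha z
        constructor <;> linarith [this.1, this.2])
  refine hmain.trans ?_
  have hfin : C * β ^ 2 / N * B * (1 + B) ≤ δ := by
    rw [div_lt_iff₀ hδ] at hbig
    have h3 : C * β ^ 2 / N * B * (1 + B) = C * (β ^ 2 * B * (1 + B)) / N := by ring
    rw [h3, div_le_iff₀ hNp]
    have h4 : C * (β ^ 2 * B * (1 + B)) ≤ |C| * (β ^ 2 * B * (1 + B)) :=
      mul_le_mul_of_nonneg_right (le_abs_self C) (by positivity)
    nlinarith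
  linarith

end

end Vale.Agent.P361.LRO.GenS
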