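import Vale.Agent.P361.LRO.GenS.Tie
import Vale.Agent.P361.LRO.GenS.TieSym
import Vale.Agent.P361.LRO.GenS.TieEdge
import Vale.Agent.P361.LRO.SR.Good

/-!
P361 LRO, all spins, tying the copies, leaf T6 (helper213): the mean over the copies does not
increase the energy of a potential, up to `δ`.
-/

namespace Vale.Agent.P361.LRO.GenS.TieAv

open Finset Filter Vale.Agent.P361.LRO _root_.P361.LRO

noncomputable section

/-- Convexity of `KK` (uniform mean of finitely many potentials). -/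
theorem KK_mean_le {X ι : Type} [Fintype X] [DecidableEq X] [Fintype ι] [Nonempty ι]
    {μ : Equiv.Perm X → ℝ} {θ : X → ℝ} (hμ : ∀ π, 0 ≤ μ π) (hμ1 : 0 < ∑ π, μ π)
    (hθ : ∀ x, 0 ≤ θ x) (a : ι → X → ℝ) :
    KK μ θ (fun x => (1 / (Fintype.card ι : ℝ)) * ∑ i, a i x) ≤
      (1 / (Fintype.card ι : ℝ)) * ∑ i, KK μ θ (a i) := by
  have hc : (0 : ℝ) < Fintype.card ι := by exact_mod_cast Fintype.card_pos
  have hZ := Net.ZZ_pos hμ hμ1 hθ
  unfold KK EE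
  rw [← Finset.sum_div, ← mul_div_assoc]
  refine div_le_div_of_nonneg_right ?_ hZ.le
  have e0 : (1 / (Fintype.card ι : ℝ)) * ∑ i, ∑ π, ∑ s, μ π * wt θ π s *
      (∑ x, a i x * jj π s x) ^ 2 = ∑ π, ∑ s, μ π * wt θ π s *
      ((1 / (Fintype.card ι : ℝ)) * ∑ i, (∑ x, a i x * jj π s x) ^ 2) := by
    rw [Finset.sum_comm, Finset.mul_sum]
    refine Finset.sum_congr rfl fun π _ => ?_
    rw [Finset.sum_comm, Finset.mul_sum]
    refine Finset.sum_congr rfl fun s _ => ?_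
    rw [← Finset.mul_sum, mul_left_comm]
  rw [e0]
  refine Finset.sum_le_sum fun π _ => Finset.sum_le_sum fun s _ => ?_
  have hw : 0 ≤ μ π * wt θ π s := mul_nonneg (hμ π) (Net.wt_nonneg hθ π s)
  refine mul_le_mul_of_nonneg_left ?_ hw
  beta_reduce
  have e1 : ∑ x, (1 / (Fintype.card ι : ℝ)) * (∑ i, a i x) * jj π s x =
      (1 / (Fintype.card ι : ℝ)) * ∑ i, ∑ x, a i x * jj π s x := by
    rw [Finset.sum_comm, Finset.mul_sum]
    refine Finset.sum_congr rfl fun x _ => ?_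
    rw [mul_assoc, Finset.sum_mul]
  rw [e1, mul_pow]
  have h2 := sq_sum_le_card_mul_sum_sq (s := (Finset.univ : Finset ι))
    (f := fun i => ∑ x, a i x * jj π s x)
  rw [Finset.card_univ] at h2
  calc (1 / (Fintype.card ι : ℝ)) ^ 2 * (∑ i, ∑ x, a i x * jj π s x) ^ 2
      ≤ (1 / (Fintype.card ι : ℝ)) ^ 2 *
        ((Fintype.card ι : ℝ) * ∑ i, (∑ x, a i x * jj π s x) ^ 2) :=
        mul_le_mul_of_nonneg_left h2 (by positivity)
    _ = (1 / (Fintype.card ι : ℝ)) * ∑ i, (∑ x, a i x * jj π s x) ^ 2 := by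
        field_simp

theorem isLaw_ph {V : Type} [Fintype V] [DecidableEq V] (L : List (V × V)) {β : ℝ}
    (hβ : 0 ≤ β) {N : ℕ} (hN : β ≤ N) : IsLaw (phys L β N) := by
  refine ⟨gates L N (β / (2 * N)), base N, ?_, rfl⟩
  intro g hg
  unfold gates at hg
  rw [List.mem_flatMap] at hg
  obtain ⟨k, -, hk⟩ := hg
  rw [List.mem_map] at hk
  obtain ⟨e, -, rfl⟩ := hk
  refine ⟨by positivity, ?_⟩
  rcases eq_or_lt_of_le hβ with h0 | h0
  · rw [← h0]; norm_num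
  · have hNp : (0 : ℝ) < N := h0.trans_le hN
    show β / (2 * N) ≤ 1 / 2
    rw [div_le_iff₀ (by positivity)]
    linarith

/-- The cyclic shift of the copies. -/
def shf {n s : ℕ} [NeZero s] (i : Fin s) : Equiv.Perm (Tor n × Fin s) :=
  Equiv.prodCongr (Equiv.refl _) (Equiv.addRight i)

theorem up_avg_eq {n s N : ℕ} [NeZero s] (a : NdS n s N → ℝ) :
    upC s (avgC a) = fun z => (1 / (Fintype.card (Fin s) : ℝ)) *
      ∑ i : Fin s, a (z.1, shf i z.2) := by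
  funext z
  unfold upC avgC
  rw [Fintype.card_fin]
  congr 1
  rw [← Equiv.sum_comp (Equiv.addLeft z.2.2)]
  rfl

theorem avg_le_of (n s M : ℕ) [NeZero n] (hs : 0 < s) (β : ℝ) (hβ : 0 < β)
    (hsym : ∀ σ : Equiv.Perm (Fin s), ∀ δ : ℝ, 0 < δ → ∃ N0 : ℕ, ∀ N : ℕ, N0 ≤ N →
      ∀ h T : Tor n × Fin s → ℝ, (∀ x, 0 ≤ h x ∧ h x ≤ 1) → (∀ x, 0 ≤ T x ∧ T x ≤ 1) →
      (∀ x, h (Equiv.prodCongr (Equiv.refl _) σ x) = h x) →
      (∀ x, T (Equiv.prodCongr (Equiv.refl _) σ x) = T x) →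
      ∀ a : Fin (N + 1) × (Tor n × Fin s) → ℝ, (∀ z, 0 ≤ a z ∧ a z ≤ 1) →
      KK (phys (edgesS n s M) β N) (th β N h T)
        (fun z => a (z.1, Equiv.prodCongr (Equiv.refl _) σ z.2)) ≤
        KK (phys (edgesS n s M) β N) (th β N h T) a + δ) (δ : ℝ) (hδ : 0 < δ) :
    ∃ N0 : ℕ, ∀ N : ℕ, N0 ≤ N → ∀ (K : ℝ), 0 ≤ K → ∀ (b : Finset (Tor n)) (h : Tor n → ℝ),
      (∀ x, 0 ≤ h x ∧ h x ≤ 1) → ∀ a : NdS n s N → ℝ, (∀ z, 0 ≤ a z ∧ a z ≤ 1) →
      netK (physS n s M N β K b h) (upC s (avgC a)) ≤ netK (physS n s M N β K b h) a + δ := by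
  have : NeZero s := ⟨hs.ne'⟩
  have : Nonempty (Fin s) := ⟨0⟩
  choose N1 hN1 using fun i : Fin s => hsym (Equiv.addRight i) δ hδ
  refine ⟨(Finset.univ.sup N1) ⊔ ⌈β⌉₊, fun N hN K hK b h hh a ha => ?_⟩
  have hNβ : β ≤ N := by
    have h1 : ⌈β⌉₊ ≤ N := le_trans le_sup_right hN
    exact (Nat.le_ceil β).trans (by exact_mod_cast h1)
  have hNi : ∀ i, N1 i ≤ N := fun i =>
    le_trans (Finset.le_sup (Finset.mem_univ i)) (le_trans le_sup_left hN)
  have hgood : Net.Good (phys (edgesS n s M) β N) :=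
    good_of_isLaw (isLaw_ph _ hβ.le hNβ)
  have hTm : ∀ x, 0 ≤ blk K (b ×ˢ (univ : Finset (Fin s))) x ∧
      blk K (b ×ˢ (univ : Finset (Fin s))) x ≤ 1 := Ind.blk_mem hK _
  have hth : ∀ z, 0 ≤ th β N (hS h) (blk K (b ×ˢ (univ : Finset (Fin s)))) z := by
    intro z
    unfold th
    split_ifs
    · exact (hTm z.2).1
    · exact div_nonneg (mul_nonneg hβ.le (hh z.2.1).1) (by positivity)
  unfold physS
  rw [Net.netK_c0, Net.netK_c0, up_avg_eq]
  refine (KK_mean_le hgood.nn hgood.pos hth fun i z => a (z.1, shf i z.2)).trans ?_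
  have hc : (0 : ℝ) < Fintype.card (Fin s) := by exact_mod_cast Fintype.card_pos
  have h1 : ∀ i ∈ (Finset.univ : Finset (Fin s)),
      KK (phys (edgesS n s M) β N) (th β N (hS h) (blk K (b ×ˢ univ)))
        (fun z => a (z.1, shf i z.2)) ≤
      KK (phys (edgesS n s M) β N) (th β N (hS h) (blk K (b ×ˢ univ))) a + δ := by
    intro i _
    refine hN1 i N (hNi i) (hS h) _ (fun x => hh x.1) hTm (fun x => rfl) (fun x => ?_) a ha
    unfold blk
    have hiff : (Equiv.prodCongr (Equiv.refl (Tor n)) (Equiv.addRight i)) x ∈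
        b ×ˢ (univ : Finset (Fin s)) ↔ x ∈ b ×ˢ (univ : Finset (Fin s)) := by
      simp [Finset.mem_product]
    simp only [hiff]
  have h2 := Finset.sum_le_sum h1
  rw [Finset.sum_const, Finset.card_univ, nsmul_eq_mul] at h2
  calc _ ≤ (1 / (Fintype.card (Fin s) : ℝ)) * ((Fintype.card (Fin s) : ℝ) *
        (KK (phys (edgesS n s M) β N) (th β N (hS h) (blk K (b ×ˢ univ))) a + δ)) :=
        mul_le_mul_of_nonneg_left h2 (by positivity)
    _ = _ := by field_simp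

end

end Vale.Agent.P361.LRO.GenS.TieAv

namespace Vale.Agent.P361.LRO.GenS

open Finset Filter Vale.Agent.P361.LRO _root_.P361.LRO

/-- (T6) The mean over the copies. -/
theorem avg_le (n s M : ℕ) [NeZero n] (hs : 0 < s) (β : ℝ) (hβ : 0 < β) (δ : ℝ) (hδ : 0 < δ) :
    ∃ N0 : ℕ, ∀ N : ℕ, N0 ≤ N → ∀ (K : ℝ), 0 ≤ K → ∀ (b : Finset (Tor n)) (h : Tor n → ℝ),
      (∀ x, 0 ≤ h x ∧ h x ≤ 1) → ∀ a : NdS n s N → ℝ, (∀ z, 0 ≤ a z ∧ a z ≤ 1) →
      netK (physS n s M N β K b h) (upC s (avgC a)) ≤ netK (physS n s M N β K b h) a + δ :=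
  TieAv.avg_le_of n s M hs β hβ (fun σ δ' hδ' =>
    KK_sym (edgesS n s M) (Equiv.prodCongr (Equiv.refl _) σ) (edgesS_sym n s M σ) β hβ δ' hδ')
    δ hδ

end Vale.Agent.P361.LRO.GenS
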