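import Vale.Agent.P361.LRO.GenS.Tie

/-!
P361 LRO, all spins, tying the copies: comparison of the networks (helper535).
-/

namespace Vale.Agent.P361.LRO.GenS

open Finset Filter Vale.Agent.P361.LRO _root_.P361.LRO

noncomputable section

lemma tb_sum {n s N : ℕ} [NeZero n] (f : NdS n s N → ℝ) :
    ∑ z, f z = ∑ u : Ind.Nd n N, ∑ i : Fin s, f (u.1, (u.2, i)) := by
  rw [Fintype.sum_prod_type, Fintype.sum_prod_type]
  refine Finset.sum_congr rfl fun k _ => ?_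
  rw [Fintype.sum_prod_type]

theorem netK_tie {n s N : ℕ} [NeZero n] (hs : 0 < s) (c : NdS n s N → NdS n s N → ℝ)
    (a : Ind.Nd n N → ℝ) : netK (tie c) a = (1 / (s : ℝ)) * netK c (upC s a) := by
  have _ := hs
  unfold netK tie
  rw [mul_left_comm]
  congr 1
  rw [tb_sum, Finset.mul_sum]
  refine Finset.sum_congr rfl fun u _ => ?_
  have h1 : ∀ i : Fin s, ∑ y : NdS n s N, c (u.1, (u.2, i)) y * (upC s a (u.1, (u.2, i)) - upC s a y) ^ 2 =
      ∑ v : Ind.Nd n N, ∑ j : Fin s, c (u.1, (u.2, i)) (v.1, (v.2, j)) * (a u - a v) ^ 2 :=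
    fun i => tb_sum _
  rw [Finset.sum_congr rfl fun i _ => h1 i, Finset.sum_comm, Finset.mul_sum]
  refine Finset.sum_congr rfl fun v _ => ?_
  rw [mul_assoc, Finset.sum_mul]
  congr 1
  refine Finset.sum_congr rfl fun i _ => ?_
  rw [Finset.sum_mul]

theorem avg_up {n s N : ℕ} (hs : 0 < s) (a : Ind.Nd n N → ℝ) : avgC (upC s a) = a := by
  funext u
  have hs' : (s : ℝ) ≠ 0 := Nat.cast_ne_zero.2 hs.ne'
  have h1 : avgC (upC s a) u = (1 / (s : ℝ)) * ∑ _i : Fin s, a u := rfl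
  rw [h1, Finset.sum_const, Finset.card_univ, Fintype.card_fin, nsmul_eq_mul]
  field_simp

/-- The variance is at most the mean square deviation from any constant. -/
lemma tb_var {s : ℕ} (hs : 0 < s) (f : Fin s → ℝ) (x : ℝ) :
    ∑ i, (f i - (1 / (s : ℝ)) * ∑ j, f j) ^ 2 ≤ ∑ i, (f i - x) ^ 2 := by
  have hs' : (0 : ℝ) < s := Nat.cast_pos.2 hs
  obtain ⟨m, hm⟩ : ∃ m : ℝ, m = (1 / (s : ℝ)) * ∑ j, f j := ⟨_, rfl⟩
  rw [← hm]
  have h1 : ∑ i, (f i - m) = 0 := by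
    rw [Finset.sum_sub_distrib, Finset.sum_const, Finset.card_univ, Fintype.card_fin, nsmul_eq_mul, hm]
    field_simp
    ring
  have h2 : ∀ i, (f i - x) ^ 2 = (f i - m) ^ 2 + 2 * (m - x) * (f i - m) + (m - x) ^ 2 := fun i => by ring
  rw [Finset.sum_congr rfl fun i _ => h2 i, Finset.sum_add_distrib, Finset.sum_add_distrib,
    ← Finset.mul_sum, h1, mul_zero, add_zero]
  have h3 : (0 : ℝ) ≤ ∑ _i : Fin s, (m - x) ^ 2 := Finset.sum_nonneg fun _ _ => sq_nonneg _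
  linarith

theorem tie_compare {n s N : ℕ} [NeZero n] (hs : 0 < s) (c : NdS n s N → NdS n s N → ℝ)
    (symm : ∀ u v, c u v = c v u) (nonneg : ∀ u v, 0 ≤ c u v) (t : Ind.Nd n N → ℝ)
    (tot : ∀ (u : Ind.Nd n N) (i : Fin s), ∑ v, c (u.1, (u.2, i)) v ≤ t u)
    (κ : ℝ) (hκ : 0 < κ)
    (hP : ∀ u : Ind.Nd n N, 0 < t u → ∃ (P : Finset (NdS n s N)) (w : ℝ), P.Nonempty ∧ 0 < w ∧
      κ * t u ≤ P.card * w ∧ ∀ i : Fin s, ∀ v ∈ P, w ≤ c (u.1, (u.2, i)) v)
    (a : NdS n s N → ℝ) :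
    netK (tie c) (avgC a) ≤ (3 / s) * (1 + 2 / κ) * netK c a := by
  have hs' : (0 : ℝ) < s := Nat.cast_pos.2 hs
  rw [netK_tie hs]
  obtain ⟨b, hb⟩ : ∃ b : NdS n s N → ℝ, b = upC s (avgC a) := ⟨_, rfl⟩
  rw [← hb]
  -- dissipation inside a site
  have hsite : ∀ u : Ind.Nd n N, ∑ i : Fin s, (∑ v, c (u.1, (u.2, i)) v) *
      (a (u.1, (u.2, i)) - b (u.1, (u.2, i))) ^ 2 ≤
      (1 / κ) * ∑ i : Fin s, ∑ v, c (u.1, (u.2, i)) v * (a (u.1, (u.2, i)) - a v) ^ 2 := by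
    intro u
    have hR : 0 ≤ ∑ i : Fin s, ∑ v, c (u.1, (u.2, i)) v * (a (u.1, (u.2, i)) - a v) ^ 2 :=
      Finset.sum_nonneg fun i _ => Finset.sum_nonneg fun v _ => mul_nonneg (nonneg _ _) (sq_nonneg _)
    have hbu : ∀ i : Fin s, b (u.1, (u.2, i)) = (1 / (s : ℝ)) * ∑ j : Fin s, a (u.1, (u.2, j)) := by
      intro i
      rw [hb]
      rfl
    have h0 : ∑ i : Fin s, (∑ v, c (u.1, (u.2, i)) v) * (a (u.1, (u.2, i)) - b (u.1, (u.2, i))) ^ 2 ≤
        t u * ∑ i : Fin s, (a (u.1, (u.2, i)) - (1 / (s : ℝ)) * ∑ j : Fin s, a (u.1, (u.2, j))) ^ 2 := by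
      rw [Finset.mul_sum]
      refine Finset.sum_le_sum fun i _ => ?_
      rw [hbu i]
      exact mul_le_mul_of_nonneg_right (tot u i) (sq_nonneg _)
    by_cases ht : 0 < t u
    · obtain ⟨P, w, hPn, hw, hc, hwP⟩ := hP u ht
      have hPc : (0 : ℝ) < P.card := Nat.cast_pos.2 hPn.card_pos
      obtain ⟨Vr, hVr⟩ : ∃ Vr : ℝ, Vr = ∑ i : Fin s, (a (u.1, (u.2, i)) -
        (1 / (s : ℝ)) * ∑ j : Fin s, a (u.1, (u.2, j))) ^ 2 := ⟨_, rfl⟩
      rw [← hVr] at h0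
      have hVr0 : 0 ≤ Vr := by rw [hVr]; exact Finset.sum_nonneg fun i _ => sq_nonneg _
      have h1 : (P.card : ℝ) * w * Vr ≤
          ∑ i : Fin s, ∑ v, c (u.1, (u.2, i)) v * (a (u.1, (u.2, i)) - a v) ^ 2 := by
        have e1 : (P.card : ℝ) * w * Vr = ∑ _v ∈ P, w * Vr := by
          rw [Finset.sum_const, nsmul_eq_mul, mul_assoc]
        have e2 : ∑ _v ∈ P, w * Vr ≤ ∑ v ∈ P, w * ∑ i : Fin s, (a (u.1, (u.2, i)) - a v) ^ 2 := by
          refine Finset.sum_le_sum fun v _ => mul_le_mul_of_nonneg_left ?_ hw.le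
          rw [hVr]
          exact tb_var hs (fun i => a (u.1, (u.2, i))) (a v)
        have e3 : ∑ v ∈ P, w * ∑ i : Fin s, (a (u.1, (u.2, i)) - a v) ^ 2 =
            ∑ i : Fin s, ∑ v ∈ P, w * (a (u.1, (u.2, i)) - a v) ^ 2 := by
          rw [Finset.sum_comm]
          exact Finset.sum_congr rfl fun v _ => Finset.mul_sum _ _ _
        have e4 : ∑ i : Fin s, ∑ v ∈ P, w * (a (u.1, (u.2, i)) - a v) ^ 2 ≤
            ∑ i : Fin s, ∑ v, c (u.1, (u.2, i)) v * (a (u.1, (u.2, i)) - a v) ^ 2 := by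
          refine Finset.sum_le_sum fun i _ => ?_
          refine le_trans (Finset.sum_le_sum fun v hv =>
            mul_le_mul_of_nonneg_right (hwP i v hv) (sq_nonneg _)) ?_
          exact Finset.sum_le_sum_of_subset_of_nonneg (Finset.subset_univ _) fun v _ _ =>
            mul_nonneg (nonneg _ _) (sq_nonneg _)
        rw [e1]
        exact e2.trans (e3.le.trans e4)
      have h2 : κ * t u * Vr ≤ (P.card : ℝ) * w * Vr := mul_le_mul_of_nonneg_right hc hVr0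
      refine h0.trans ?_
      rw [div_mul_eq_mul_div, one_mul, le_div_iff₀ hκ]
      calc t u * Vr * κ = κ * t u * Vr := by ring
        _ ≤ _ := h2.trans h1
    · refine h0.trans (le_trans (mul_nonpos_of_nonpos_of_nonneg (not_lt.1 ht)
        (Finset.sum_nonneg fun i _ => sq_nonneg _)) ?_)
      exact mul_nonneg (by positivity) hR
  have hall : ∑ z : NdS n s N, (∑ v, c z v) * (a z - b z) ^ 2 ≤ (2 / κ) * netK c a := by
    rw [tb_sum]
    refine (Finset.sum_le_sum fun u _ => hsite u).trans ?_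
    rw [← Finset.mul_sum, ← tb_sum (fun z => ∑ v, c z v * (a z - a v) ^ 2)]
    unfold netK
    apply le_of_eq
    ring
  -- the three terms
  have hkey : netK c b ≤ 3 * (netK c a + ∑ z : NdS n s N, (∑ v, c z v) * (a z - b z) ^ 2) := by
    have e1 : ∑ z : NdS n s N, (∑ v, c z v) * (a z - b z) ^ 2 =
        ∑ z : NdS n s N, ∑ v, c z v * (a z - b z) ^ 2 :=
      Finset.sum_congr rfl fun z _ => Finset.sum_mul _ _ _
    have e2 : ∑ z : NdS n s N, ∑ v, c z v * (a z - b z) ^ 2 =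
        ∑ z : NdS n s N, ∑ v, c z v * (a v - b v) ^ 2 := by
      rw [Finset.sum_comm]
      exact Finset.sum_congr rfl fun z _ => Finset.sum_congr rfl fun v _ => by rw [symm v z]
    have e3 : netK c b ≤ (1 / 2) * ∑ z : NdS n s N, ∑ v, (3 * (c z v * (a z - a v) ^ 2) +
        3 * (c z v * (a z - b z) ^ 2) + 3 * (c z v * (a v - b v) ^ 2)) := by
      unfold netK
      refine mul_le_mul_of_nonneg_left ?_ (by norm_num)
      refine Finset.sum_le_sum fun z _ => Finset.sum_le_sum fun v _ => ?_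
      have h1 : (b z - b v) ^ 2 ≤ 3 * (a z - a v) ^ 2 + 3 * (a z - b z) ^ 2 + 3 * (a v - b v) ^ 2 := by
        nlinarith [sq_nonneg ((a z - a v) + (a z - b z)), sq_nonneg ((a z - a v) - (a v - b v)),
          sq_nonneg ((a z - b z) + (a v - b v))]
      have h2 := mul_le_mul_of_nonneg_left h1 (nonneg z v)
      linarith
    have e4 : ∑ z : NdS n s N, ∑ v, (3 * (c z v * (a z - a v) ^ 2) +
        3 * (c z v * (a z - b z) ^ 2) + 3 * (c z v * (a v - b v) ^ 2)) =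
        3 * (∑ z : NdS n s N, ∑ v, c z v * (a z - a v) ^ 2) +
        3 * (∑ z : NdS n s N, ∑ v, c z v * (a z - b z) ^ 2) +
        3 * (∑ z : NdS n s N, ∑ v, c z v * (a v - b v) ^ 2) := by
      simp only [Finset.sum_add_distrib, ← Finset.mul_sum]
    rw [e4, ← e2, ← e1] at e3
    refine e3.trans (le_of_eq ?_)
    unfold netK
    ring
  have h3 : (1 / (s : ℝ)) * netK c b ≤ (1 / (s : ℝ)) * (3 * (netK c a + (2 / κ) * netK c a)) :=
    mul_le_mul_of_nonneg_left (hkey.trans (by linarith)) (by positivity)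
  refine h3.trans (le_of_eq ?_)
  ring

end

end Vale.Agent.P361.LRO.GenS
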