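import Vale.Agent.P361.LRO.GenS.Tie
import Vale.Agent.P361.LRO.Ind.LocalInst

/-!
P361 LRO, all spins, TIE route, T8 (helper993): the tied network satisfies `Ind.Local`.
-/

namespace Vale.Agent.P361.LRO.GenS

open Finset Filter Vale.Agent.P361.LRO _root_.P361.LRO

noncomputable section

namespace TieLoc

theorem tie_symm {n s N : ℕ} {c : NdS n s N → NdS n s N → ℝ} (h : ∀ u v, c u v = c v u)
    (u v : Ind.Nd n N) : tie c u v = tie c v u := by
  unfold tie
  rw [Finset.sum_comm]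
  refine congrArg _ (Finset.sum_congr rfl fun i _ => Finset.sum_congr rfl fun j _ => h _ _)

theorem tie_nonneg {n s N : ℕ} {c : NdS n s N → NdS n s N → ℝ} (h : ∀ u v, 0 ≤ c u v)
    (u v : Ind.Nd n N) : 0 ≤ tie c u v := by
  unfold tie
  exact mul_nonneg (by positivity) (Finset.sum_nonneg fun i _ => Finset.sum_nonneg fun j _ => h _ _)

theorem tie_sum {n s N : ℕ} [NeZero n] (c : NdS n s N → NdS n s N → ℝ) (u : Ind.Nd n N) :
    ∑ v, tie c u v = (1 / (s : ℝ)) * ∑ i : Fin s, ∑ z, c (u.1, (u.2, i)) z := by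
  unfold tie
  rw [← Finset.mul_sum, Finset.sum_comm]
  congr 1
  refine Finset.sum_congr rfl fun i _ => ?_
  rw [Fintype.sum_prod_type, Fintype.sum_prod_type]
  refine Finset.sum_congr rfl fun k _ => ?_
  rw [Fintype.sum_prod_type]

/-- the extra slice on all copies of `b`. -/
theorem blk_hS {n s : ℕ} (K : ℝ) (b : Finset (Tor n)) :
    blk K (b ×ˢ (univ : Finset (Fin s))) = hS (blk (K / s) b) := by
  funext z
  unfold blk hS
  simp only [Finset.mem_product, Finset.mem_univ, and_true, Finset.card_product, Finset.card_univ,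
    Fintype.card_fin]
  split_ifs with h
  · congr 1
    push_cast
    rw [div_div]
    congr 1
    ring
  · rfl

/-- lower bound for the tied network from a lower bound for every copy of the second node. -/
theorem tie_ge {n s N : ℕ} (hs : 0 < s) {c : NdS n s N → NdS n s N → ℝ} {u v : Ind.Nd n N} {A : ℝ}
    (h : ∀ i : Fin s, A ≤ ∑ j : Fin s, c (u.1, (u.2, j)) (v.1, (v.2, i))) : A ≤ tie c u v := by
  unfold tie
  have hs' : (0 : ℝ) < s := by exact_mod_cast hs
  rw [Finset.sum_comm]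
  have h1 : ∑ _i : Fin s, A ≤ ∑ i : Fin s, ∑ j : Fin s, c (u.1, (u.2, j)) (v.1, (v.2, i)) :=
    Finset.sum_le_sum fun i _ => h i
  rw [Finset.sum_const, Finset.card_univ, Fintype.card_fin, nsmul_eq_mul] at h1
  calc A = (1 / (s : ℝ)) * (s * A) := by field_simp
    _ ≤ _ := mul_le_mul_of_nonneg_left h1 (by positivity)

theorem num1 {c0 β N : ℝ} (hN : 0 < N) :
    c0 / 4 * (β / N) ^ 2 = c0 * (β * 1 / (2 * N) * (β * 1 / (2 * N))) := by
  field_simp
  ring

theorem num2 {κ c0 s A : ℝ} (hκ : 0 < κ) (hc : 0 < c0) (hs : 1 ≤ s) (hA : 0 ≤ A) :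
    κ * c0 / (16 * s) * A ≤ κ * (c0 / 4 * A) := by
  have hs0 : 0 < s := by linarith
  have : κ * c0 / (16 * s) * A = κ * (c0 / 4 * A) * (1 / (4 * s)) := by
    field_simp
    ring
  rw [this]
  refine mul_le_of_le_one_right (by positivity) ?_
  rw [div_le_one (by positivity)]
  linarith

theorem num3 {κ c0 s K B β N : ℝ} (hκ : 0 < κ) (hc : 0 < c0) (hs : 0 < s) (hK : 0 < K)
    (hB : 0 < B) (hβ : 0 < β) (hN : 0 < N) :
    κ * c0 / (16 * s) * (K / B) * (β / N) ≤ κ * (c0 * ((K / s / B / 4) * (β / (2 * N)))) := by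
  have : κ * c0 / (16 * s) * (K / B) * (β / N) =
      κ * (c0 * ((K / s / B / 4) * (β / (2 * N)))) * (1 / 2) := by
    field_simp
    ring
  rw [this]
  exact mul_le_of_le_one_right (by positivity) (by norm_num)

theorem blk_ge {n : ℕ} {K s : ℝ} (hK : 0 < K) (hs : 1 ≤ s) {b : Finset (Tor n)} {x : Tor n}
    (hx : x ∈ b) (hKb : K ≤ b.card) : K / s / b.card / 4 ≤ blk (K / s) b x := by
  have hs0 : 0 < s := by linarith
  have hbp : (0:ℝ) < b.card := by
    have : 0 < b.card := Finset.card_pos.2 ⟨x, hx⟩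
    exact_mod_cast this
  unfold blk
  rw [if_pos hx]
  have h6 : K / s / (2 * b.card) ≤ 1 := by
    rw [div_le_one (by positivity)]
    have : K / s ≤ K := div_le_self hK.le hs
    linarith
  have := Ind.tanh_ge (K / s / (2 * b.card)) (by positivity) h6
  refine le_trans ?_ this
  apply le_of_eq
  field_simp
  ring

theorem local_abs {n s N W : ℕ} [NeZero n] (hs : 0 < s) {β K κ c0 f : ℝ} {b : Finset (Tor n)}
    {h : Tor n → ℝ} {c : NdS n s N → NdS n s N → ℝ} (hκ : 0 < κ) (hc0 : 0 < c0) (hK : 0 < K)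
    (hβ : 0 < β) (hN : (0 : ℝ) < N) (hfκ : κ ≤ f) (hf1 : f ≤ 1)
    (symm : ∀ u v, c u v = c v u) (nn : ∀ u v, 0 ≤ c u v)
    (tot : ∀ (k : Fin (N + 1)) (x : Tor n) (i : Fin s), k ≠ 0 →
      ∑ v, c (k, (x, i)) v ≤ β * h x / (2 * N))
    (same : ∀ (k l : Fin (N + 1)) (x : Tor n) (i : Fin s), k ≠ 0 → k < l → (l : ℕ) ≤ k + 3 * W →
      h x = 1 → c0 / 4 * (β / N) ^ 2 ≤ ∑ j, c (k, (x, j)) (l, (x, i)))
    (nbr : ∀ (k l : Fin (N + 1)) (x : Tor n) (e : Fin 3) (i j : Fin s), k ≠ 0 → l ≠ 0 →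
      ((k : ℕ) + W ≤ l ∨ (l : ℕ) + W ≤ k) → (l : ℕ) ≤ k + 3 * W → (k : ℕ) ≤ l + 3 * W →
      h x = 1 → h (x + Pi.single e 1) = 1 →
      c0 / 4 * (β / N) ^ 2 ≤ c (k, (x, i)) (l, (x + Pi.single e 1, j)))
    (con : ∀ (k : Fin (N + 1)) (x : Tor n) (i : Fin s), k ≠ 0 → (k : ℕ) ≤ W → x ∈ b → h x = 1 →
      c0 * ((K / s / b.card / 4) * (β / (2 * N))) ≤ ∑ j, c (0, (x, j)) (k, (x, i))) :
    Ind.Local n N W β K (κ * c0 / (16 * s)) b h (fun u v => f * tie c u v) := by
  have hs' : (0 : ℝ) < s := by exact_mod_cast hs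
  have hs1 : (1 : ℝ) ≤ s := by exact_mod_cast hs
  have hf0 : 0 ≤ f := hκ.le.trans hfκ
  have hlow : ∀ (u v : Ind.Nd n N) (A : ℝ), 0 ≤ A →
      (∀ i : Fin s, A ≤ ∑ j : Fin s, c (u.1, (u.2, j)) (v.1, (v.2, i))) →
      κ * A ≤ f * tie c u v :=
    fun u v A hA hi => mul_le_mul hfκ (tie_ge hs hi) hA hf0
  refine ⟨?_, ?_, ?_, ?_, ?_, ?_⟩
  · intro u v
    rw [tie_symm symm]
  · intro u v
    exact mul_nonneg hf0 (tie_nonneg nn _ _)
  · intro k x hk
    rw [← Finset.mul_sum]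
    have h2 : ∑ v, tie c (k, x) v ≤ β * h x / (2 * N) := by
      rw [tie_sum]
      have h3 : ∑ i : Fin s, ∑ z, c (k, (x, i)) z ≤ ∑ _i : Fin s, β * h x / (2 * N) :=
        Finset.sum_le_sum fun i _ => tot k x i hk
      rw [Finset.sum_const, Finset.card_univ, Fintype.card_fin, nsmul_eq_mul] at h3
      calc (1 / (s : ℝ)) * ∑ i : Fin s, ∑ z, c (k, (x, i)) z
          ≤ (1 / (s : ℝ)) * (s * (β * h x / (2 * N))) :=
            mul_le_mul_of_nonneg_left h3 (by positivity)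
        _ = β * h x / (2 * N) := by field_simp
    have h4 : 0 ≤ ∑ v, tie c (k, x) v := Finset.sum_nonneg fun v _ => tie_nonneg nn _ _
    calc f * ∑ v, tie c (k, x) v ≤ 1 * ∑ v, tie c (k, x) v := mul_le_mul_of_nonneg_right hf1 h4
      _ ≤ _ := by rw [one_mul]; exact h2
  · intro k l x hk hkl hl hx
    exact (num2 hκ hc0 hs1 (sq_nonneg _)).trans
      (hlow (k, x) (l, x) _ (by positivity) fun i => same k l x i hk hkl hl hx)
  · intro k l x e hk hl hkl h3 h4 hx hx'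
    refine (num2 hκ hc0 hs1 (sq_nonneg _)).trans
      (hlow (k, x) (l, x + Pi.single e 1) _ (by positivity) fun j => ?_)
    refine (nbr k l x e j j hk hl hkl h3 h4 hx hx').trans ?_
    exact Finset.single_le_sum (f := fun j' : Fin s => c (k, (x, j')) (l, (x + Pi.single e 1, j)))
      (fun j' _ => nn _ _) (Finset.mem_univ j)
  · intro k x hk hkW hxb hx
    have hbp : (0:ℝ) < b.card := by
      have : 0 < b.card := Finset.card_pos.2 ⟨x, hxb⟩
      exact_mod_cast this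
    exact (num3 hκ hc0 hs' hK hbp hβ hN).trans
      (hlow (0, x) (k, x) _ (by positivity) fun i => con k x i hk hkW hxb hx)

theorem lag_upper {N W m : ℕ} {β : ℝ} (hβ0 : 0 < β) (hNp : (0:ℝ) < N) (hNm : N = m * W)
    (hW : 0 < W) (hwin : Ind.Win β m) (k l : Fin (N + 1)) (hl : (l : ℕ) ≤ k + 3 * W) :
    ((l : ℝ) - (k : ℝ)) * β / N ≤ 1 := by
  have hmW : (N : ℝ) = m * W := by rw [hNm]; push_cast; ring
  have hWp : (0:ℝ) < W := by exact_mod_cast hW
  have hmp : (0:ℝ) < m := by exact_mod_cast hwin.pos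
  have hWβ : (W:ℝ) * β / N = β / m := by rw [hmW]; field_simp
  have h2 : ((l : ℝ) - (k : ℝ)) ≤ 3 * W := by
    have : ((l : ℕ) : ℝ) ≤ ((k : ℕ) + 3 * W : ℕ) := by exact_mod_cast hl
    push_cast at this; linarith
  calc ((l : ℝ) - (k : ℝ)) * β / N ≤ (3 * W) * β / N := by
        apply div_le_div_of_nonneg_right _ hNp.le
        exact mul_le_mul_of_nonneg_right h2 hβ0.le
    _ = 3 * (W * β / N) := by ring
    _ ≤ 1 := by rw [hWβ]; have := hwin.hi; linarith

theorem lag_lower {N W m : ℕ} {β : ℝ} (hβ0 : 0 < β) (hNp : (0:ℝ) < N) (hNm : N = m * W)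
    (hW : 0 < W) (hwin : Ind.Win β m) (k l : Fin (N + 1)) (hl : (k : ℕ) + W ≤ l) :
    1 / 4 ≤ ((l : ℝ) - (k : ℝ)) * β / N := by
  have hmW : (N : ℝ) = m * W := by rw [hNm]; push_cast; ring
  have hWp : (0:ℝ) < W := by exact_mod_cast hW
  have hmp : (0:ℝ) < m := by exact_mod_cast hwin.pos
  have hWβ : (W:ℝ) * β / N = β / m := by rw [hmW]; field_simp
  have h2 : (W : ℝ) ≤ ((l : ℝ) - (k : ℝ)) := by
    have : (((k : ℕ) + W : ℕ) : ℝ) ≤ ((l : ℕ) : ℝ) := by exact_mod_cast hl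
    push_cast at this; linarith
  calc (1:ℝ) / 4 ≤ W * β / N := by rw [hWβ]; exact hwin.lo
    _ ≤ _ := by
        apply div_le_div_of_nonneg_right _ hNp.le
        exact mul_le_mul_of_nonneg_right h2 hβ0.le

theorem th_phys {n s N : ℕ} {β : ℝ} {h T : Tor n → ℝ} {k : Fin (N + 1)} {x : Tor n} {i : Fin s}
    (hk : k ≠ 0) (hx : h x = 1) : th β N (hS h) (hS T) (k, (x, i)) = β * 1 / (2 * N) := by
  unfold th
  rw [if_neg hk]
  show β * h x / (2 * N) = _
  rw [hx]

end TieLoc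

open TieLoc

theorem tie_local (s : ℕ) (hs : 0 < s) (hloc : LocStmtS s) (hNet : Loc.NetStmt) (κ : ℝ)
    (hκ : 0 < κ) (hκ1 : κ ≤ 1) :
    ∃ c1 : ℝ, 0 < c1 ∧ ∀ (n N W m M : ℕ) [NeZero n] (β K : ℝ) (b : Finset (Tor n))
      (h : Tor n → ℝ), 2 ≤ n → 1 ≤ β → 8 * β ≤ N → 0 < W → N = m * W → Ind.Win β m →
      0 < K → K ≤ b.card → (∀ x, 0 ≤ h x ∧ h x ≤ 1) →
      Ind.Local n N W β K c1 b h (tieC n s M N β K κ b h) := by
  obtain ⟨c0, hc0, hloc⟩ := hloc
  have hs' : (0 : ℝ) < s := by exact_mod_cast hs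
  have hs1 : (1 : ℝ) ≤ s := by exact_mod_cast hs
  refine ⟨κ * c0 / (16 * s), by positivity, ?_⟩
  intro n N W m M _ β K b h hn hβ hN hW hNm hwin hK hKb hh
  have hβ0 : (0:ℝ) < β := by linarith
  have hNp : (0:ℝ) < N := by linarith
  have hβN : β ≤ N := by linarith
  set T : Tor n → ℝ := blk (K / s) b with hTdef
  have hT : ∀ x, 0 ≤ T x ∧ T x ≤ 1 := Ind.blk_mem (by positivity) b
  have hTS : blk K (b ×ˢ (univ : Finset (Fin s))) = hS T := blk_hS K b
  have hlaw := Ind.isLaw_phys' (edgesS n s M) hβ0.le hβN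
  have hθ := fun z => Loc.th_mem (h := (hS h : Tor n × Fin s → ℝ)) (T := hS T) hβ0.le hβN
    (fun z => hh z.1) (fun z => hT z.1) z
  obtain ⟨hZ, hccn, hccs, hsum, hKK, hvv⟩ := hNet _ _ hlaw _ hθ
  obtain ⟨l1, l2⟩ := hloc n M β N h T hn hβ hN hh hT
  have hphys : physS n s M N β K b h =
      Net.c0 (phys (edgesS n s M) β N) (th β N (hS h) (hS T)) := by
    unfold physS; rw [hTS]
  have upper := lag_upper hβ0 hNp hNm hW hwin
  have lower := lag_lower hβ0 hNp hNm hW hwin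
  have hcceq : ∀ u v : NdS n s N, u ≠ v → physS n s M N β K b h u v =
      cc (phys (edgesS n s M) β N) (th β N (hS h) (hS T)) u v := by
    intro u v huv
    rw [hphys]
    unfold Net.c0
    rw [if_neg huv]
  have hsum2 : ∀ (k l : Fin (N + 1)) (x : Tor n) (i : Fin s), k < l →
      ((l : ℝ) - (k : ℝ)) * β / N ≤ 1 →
      c0 * (th β N (hS h) (hS T) (k, (x, i)) * th β N (hS h) (hS T) (l, (x, i))) ≤
        ∑ j, physS n s M N β K b h (k, (x, j)) (l, (x, i)) := by
    intro k l x i hkl hd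
    refine (l2 k l x i hkl hd).trans (le_of_eq (Finset.sum_congr rfl fun j _ => ?_))
    exact (hcceq _ _ (fun h => (ne_of_lt hkl) (congrArg Prod.fst h))).symm
  have hfκ : κ ≤ (if h = fun _ => 1 then κ else 1) := by
    split_ifs
    · exact le_rfl
    · exact hκ1
  have hf1 : (if h = fun _ => 1 then κ else 1) ≤ 1 := by
    split_ifs
    · exact hκ1
    · exact le_rfl
  refine local_abs hs hκ hc0 hK hβ0 hNp hfκ hf1 ?_ ?_ ?_ ?_ ?_ ?_
  · intro u v
    rw [hphys]
    unfold Net.c0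
    by_cases huv : u = v
    · rw [if_pos huv, if_pos huv.symm]
    · rw [if_neg huv, if_neg (Ne.symm huv), hccs]
  · intro u v
    rw [hphys]
    unfold Net.c0
    by_cases huv : u = v
    · rw [if_pos huv]
    · rw [if_neg huv]; exact hccn u v huv
  · intro k x i hk
    have h1 : ∑ v, physS n s M N β K b h (k, (x, i)) v =
        ∑ v ∈ univ.erase (k, (x, i)),
          cc (phys (edgesS n s M) β N) (th β N (hS h) (hS T)) (k, (x, i)) v := by
      rw [hphys]
      unfold Net.c0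
      rw [← Finset.add_sum_erase Finset.univ _ (Finset.mem_univ (k, (x, i)))]
      rw [if_pos rfl, zero_add]
      refine Finset.sum_congr rfl fun v hv => ?_
      rw [if_neg (Ne.symm (Finset.ne_of_mem_erase hv))]
    rw [h1, hsum]
    refine (hvv _).trans (le_of_eq ?_)
    unfold th
    rw [if_neg hk]
    rfl
  · intro k l x i hk hkl hl hx
    refine le_trans (le_of_eq ?_) (hsum2 k l x i hkl (upper k l hl))
    rw [th_phys hk hx, th_phys (ne_of_gt (lt_of_le_of_lt (Fin.zero_le k) hkl)) hx]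
    exact num1 hNp
  · intro k l x e i j hk hl hkl h3 h4 hx hx'
    have hxne := Ind.ne_add n hn x e
    rw [hcceq _ _ (fun h => hxne (congrArg (fun z : NdS n s N => z.2.1) h))]
    rcases hkl with hkl | hkl
    · have hlt : k < l := by rw [Fin.lt_def]; omega
      refine le_trans (le_of_eq ?_) (l1 k l x (x + Pi.single e 1) i j hlt (lower k l hkl)
        (upper k l h3) (Or.inl (Ind.mem_edges n x e)) hxne)
      rw [th_phys hk hx, th_phys hl hx']
      exact num1 hNp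
    · have hlt : l < k := by rw [Fin.lt_def]; omega
      rw [hccs]
      refine le_trans (le_of_eq ?_) (l1 l k (x + Pi.single e 1) x j i hlt (lower l k hkl)
        (upper l k h4) (Or.inr (Ind.mem_edges n x e)) (Ne.symm hxne))
      rw [th_phys hk hx, th_phys hl hx']
      exact num1 hNp
  · intro k x i hk hkW hxb hx
    have hk0 : 0 < k := Fin.pos_of_ne_zero hk
    have ht : K / s / b.card / 4 ≤ T x := blk_ge hK hs1 hxb hKb
    have hd : ((k : ℝ) - ((0 : Fin (N + 1)) : ℝ)) * β / N ≤ 1 := by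
      refine upper 0 k ?_
      rw [Fin.val_zero]
      omega
    refine le_trans ?_ (hsum2 0 k x i hk0 hd)
    have h7 : th β N (hS h) (hS T) ((0 : Fin (N + 1)), (x, i)) = T x := by
      unfold th; rw [if_pos rfl]; rfl
    rw [th_phys hk hx, h7, mul_one]
    exact mul_le_mul_of_nonneg_left (mul_le_mul_of_nonneg_right ht (by positivity)) hc0.le

end

end Vale.Agent.P361.LRO.GenS
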