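import Vale.Agent.P361.LRO.GenS.TieBase
import Vale.Agent.P361.LRO.Ind.LocalInst

/-!
P361 LRO, all spins, route TIE, T9: at the field `1` the potentials are close to their mean over
the copies.
-/

namespace Vale.Agent.P361.LRO.GenS

open Finset Filter Vale.Agent.P361.LRO _root_.P361.LRO

/-- The extra slice as a profile on the sites. -/
noncomputable def toT {n : ℕ} [NeZero n] (s : ℕ) (K : ℝ) (b : Finset (Tor n)) (x : Tor n) : ℝ :=
  if x ∈ b then Real.tanh (K / (2 * ((b ×ˢ (univ : Finset (Fin s))).card : ℝ))) else 0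

theorem toT_blk {n : ℕ} [NeZero n] (s : ℕ) (K : ℝ) (b : Finset (Tor n)) :
    blk K (b ×ˢ (univ : Finset (Fin s))) = hS (toT s K b) := by
  funext z
  unfold blk hS toT
  simp only [mem_product, mem_univ, and_true]

theorem toT_mem {n : ℕ} [NeZero n] (s : ℕ) {K : ℝ} (hK : 0 ≤ K) (b : Finset (Tor n)) (x : Tor n) :
    0 ≤ toT s K b x ∧ toT s K b x ≤ 1 := by
  unfold toT
  split_ifs
  · have h0 : 0 ≤ K / (2 * ((b ×ˢ (univ : Finset (Fin s))).card : ℝ)) := by positivity
    refine ⟨?_, (Real.tanh_lt_one _).le⟩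
    rw [Real.tanh_eq_sinh_div_cosh]
    exact div_nonneg (Real.sinh_nonneg_iff.2 h0) (Real.cosh_pos _).le
  · norm_num

/-- The window of layers used for the node in layer `k`. -/
def tOwin (N W : ℕ) (k : Fin (N + 1)) : Finset (Fin (N + 1)) :=
  univ.filter fun l => if (k : ℕ) + 3 * W ≤ N then (k : ℕ) + W ≤ l ∧ (l : ℕ) ≤ k + 3 * W
    else (l : ℕ) + W ≤ k ∧ (k : ℕ) ≤ l + 3 * W

theorem tOwin_card {N W : ℕ} (hW : 6 * W ≤ N) (k : Fin (N + 1)) :
    2 * W ≤ (tOwin N W k).card := by
  classical
  have key : ∀ a : ℕ, (∀ t < 2 * W, a + t < N + 1) →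
      (∀ (l : Fin (N + 1)), (∃ t < 2 * W, (l : ℕ) = a + t) → l ∈ tOwin N W k) →
      2 * W ≤ (tOwin N W k).card := by
    intro a ha hmem
    have h1 : (Finset.univ : Finset (Fin (2 * W))).card ≤ (tOwin N W k).card := by
      refine card_le_card_of_injOn (fun t => (⟨a + t.1, ha t.1 t.2⟩ : Fin (N + 1))) ?_ ?_
      · intro t _
        exact hmem _ ⟨t.1, t.2, rfl⟩
      · intro t _ t' _ h
        have := congrArg Fin.val h
        simp only at this
        exact Fin.ext (by omega)
    simpa using h1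
  by_cases h : (k : ℕ) + 3 * W ≤ N
  · refine key (k + W) (fun t ht => by omega) fun l hl => ?_
    obtain ⟨t, ht, hl⟩ := hl
    unfold tOwin
    rw [mem_filter, if_pos h]
    exact ⟨mem_univ _, by omega, by omega⟩
  · refine key (k - 3 * W) (fun t ht => by omega) fun l hl => ?_
    obtain ⟨t, ht, hl⟩ := hl
    unfold tOwin
    rw [mem_filter, if_neg h]
    exact ⟨mem_univ _, by omega, by omega⟩

theorem tie_one (s : ℕ) (hs : 0 < s) (hloc : LocStmtS s) (hNet : Loc.NetStmt) :
    ∃ κ : ℝ, 0 < κ ∧ κ ≤ 1 ∧ ∀ (n N W m M : ℕ) [NeZero n] (β K : ℝ) (b : Finset (Tor n)),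
      2 ≤ n → 3 ≤ β → 8 * β ≤ N → 0 < W → N = m * W → Ind.Win β m → 0 < K → K ≤ b.card →
      ∀ a : NdS n s N → ℝ,
        κ * netK (tie (physS n s M N β K b fun _ => 1)) (avgC a) ≤
          (1 / (s : ℝ)) * netK (physS n s M N β K b fun _ => 1) a := by
  obtain ⟨c0, hc0, hloc⟩ := hloc
  have hs0 : (0 : ℝ) < s := by exact_mod_cast hs
  have hκ' : 0 < c0 * s / 4 := by positivity
  have hq : 0 < 3 * (1 + 2 / (c0 * s / 4)) := by positivity
  have hq1 : 1 ≤ 3 * (1 + 2 / (c0 * s / 4)) := by
    have : 0 < 2 / (c0 * s / 4) := by positivity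
    linarith
  refine ⟨1 / (3 * (1 + 2 / (c0 * s / 4))), by positivity, ?_, ?_⟩
  · rw [div_le_one hq]; exact hq1
  intro n N W m M _ β K b hn hβ hβN hW hNm hwin hK hKb a
  have hβ0 : (0 : ℝ) < β := by linarith
  have hNp : (0 : ℝ) < N := by linarith
  have hβN' : β ≤ N := by linarith
  have hmW : (N : ℝ) = m * W := by rw [hNm]; push_cast; ring
  have hWp : (0 : ℝ) < W := by exact_mod_cast hW
  have hmp : (0 : ℝ) < m := by exact_mod_cast hwin.pos
  have hWβ : (W : ℝ) * β / N = β / m := by rw [hmW]; field_simp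
  have hm6 : 6 ≤ m := by
    have h1 := hwin.hi
    rw [div_le_iff₀ hmp] at h1
    have h2 : (9 : ℝ) ≤ m := by linarith
    have h3 : (6 : ℝ) ≤ m := by linarith
    exact_mod_cast h3
  have h6W : 6 * W ≤ N := by rw [hNm]; exact Nat.mul_le_mul_right _ hm6
  have hlaw := Ind.isLaw_phys' (edgesS n s M) hβ0.le hβN'
  have hTm : ∀ z : Tor n × Fin s, 0 ≤ hS (n := n) (s := s) (toT s K b) z ∧
      hS (n := n) (s := s) (toT s K b) z ≤ 1 := fun z => toT_mem s hK.le b z.1
  have hhm : ∀ z : Tor n × Fin s, 0 ≤ hS (n := n) (s := s) (fun _ => (1 : ℝ)) z ∧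
      hS (n := n) (s := s) (fun _ => (1 : ℝ)) z ≤ 1 := fun z => by unfold hS; norm_num
  have hθ := fun z => Loc.th_mem (h := hS (n := n) (s := s) (fun _ => (1 : ℝ)))
    (T := hS (n := n) (s := s) (toT s K b)) (N := N) hβ0.le hβN' hhm hTm z
  obtain ⟨hZ, hccn, hccs, hsum, hKK, hvv⟩ := hNet _ _ hlaw _ hθ
  obtain ⟨l1, l2⟩ := hloc n M β N (fun _ => 1) (toT s K b) hn (by linarith) hβN
    (fun _ => by norm_num) (fun x => toT_mem s hK.le b x)
  have hc : physS n s M N β K b (fun _ => 1) = Net.c0 (phys (edgesS n s M) β N)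
      (th β N (hS fun _ => 1) (hS (toT s K b))) := by
    unfold physS
    rw [toT_blk]
  have hsymm : ∀ u v, physS n s M N β K b (fun _ => 1) u v =
      physS n s M N β K b (fun _ => 1) v u := by
    intro u v
    rw [hc]
    unfold Net.c0
    by_cases huv : u = v
    · rw [if_pos huv, if_pos huv.symm]
    · rw [if_neg huv, if_neg (Ne.symm huv), hccs]
  have hnn : ∀ u v, 0 ≤ physS n s M N β K b (fun _ => 1) u v := by
    intro u v
    rw [hc]
    unfold Net.c0
    by_cases huv : u = v
    · rw [if_pos huv]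
    · rw [if_neg huv]; exact hccn u v huv
  -- the totals
  have htot : ∀ (u : Ind.Nd n N) (i : Fin s),
      ∑ v, physS n s M N β K b (fun _ => 1) (u.1, (u.2, i)) v ≤
        th β N (fun _ => 1) (toT s K b) u := by
    intro u i
    rw [hc]
    have h1 : ∑ v, Net.c0 (phys (edgesS n s M) β N) (th β N (hS fun _ => 1) (hS (toT s K b)))
        (u.1, (u.2, i)) v = ∑ v ∈ univ.erase (u.1, (u.2, i)),
          cc (phys (edgesS n s M) β N) (th β N (hS fun _ => 1) (hS (toT s K b)))
            (u.1, (u.2, i)) v := by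
      unfold Net.c0
      rw [← Finset.add_sum_erase Finset.univ _ (Finset.mem_univ (u.1, (u.2, i)))]
      rw [if_pos rfl, zero_add]
      refine Finset.sum_congr rfl fun v hv => ?_
      rw [if_neg (Ne.symm (Finset.ne_of_mem_erase hv))]
    rw [h1, hsum]
    refine (hvv _).trans (le_of_eq ?_)
    unfold th hS
    rfl
  have upper : ∀ k l : Fin (N + 1), (l : ℕ) ≤ k + 3 * W → ((l : ℝ) - (k : ℝ)) * β / N ≤ 1 := by
    intro k l hl
    have h2 : ((l : ℝ) - (k : ℝ)) ≤ 3 * W := by
      have : ((l : ℕ) : ℝ) ≤ ((k : ℕ) + 3 * W : ℕ) := by exact_mod_cast hl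
      push_cast at this; linarith
    calc ((l : ℝ) - (k : ℝ)) * β / N ≤ (3 * W) * β / N := by
          apply div_le_div_of_nonneg_right _ hNp.le
          exact mul_le_mul_of_nonneg_right h2 hβ0.le
      _ = 3 * (W * β / N) := by ring
      _ ≤ 1 := by rw [hWβ]; have := hwin.hi; linarith
  have lower : ∀ k l : Fin (N + 1), (k : ℕ) + W ≤ l → 1 / 4 ≤ ((l : ℝ) - (k : ℝ)) * β / N := by
    intro k l hl
    have h2 : (W : ℝ) ≤ ((l : ℝ) - (k : ℝ)) := by
      have : (((k : ℕ) + W : ℕ) : ℝ) ≤ ((l : ℕ) : ℝ) := by exact_mod_cast hl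
      push_cast at this; linarith
    calc (1:ℝ) / 4 ≤ W * β / N := by rw [hWβ]; exact hwin.lo
      _ ≤ _ := by
          apply div_le_div_of_nonneg_right _ hNp.le
          exact mul_le_mul_of_nonneg_right h2 hβ0.le
  have hcmp := tie_compare hs (physS n s M N β K b fun _ => 1) hsymm hnn
    (th β N (fun _ => 1) (toT s K b)) htot (c0 * s / 4) hκ' (by
      intro u hu
      obtain ⟨k, x⟩ := u
      have hxne := Ind.ne_add n hn x 0
      set w : ℝ := c0 * (th β N (fun _ => 1) (toT s K b) (k, x) * (β / (2 * N))) with hw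
      have hw0 : 0 < w := by positivity
      have hcard := tOwin_card h6W k
      refine ⟨tOwin N W k ×ˢ ({x + Pi.single 0 1} ×ˢ univ), w, ?_, hw0, ?_, ?_⟩
      · have hW2 : 0 < (tOwin N W k).card := by omega
        refine Finset.Nonempty.product (card_pos.1 hW2) (Finset.Nonempty.product
          (singleton_nonempty _) ?_)
        have : Nonempty (Fin s) := ⟨⟨0, hs⟩⟩
        exact univ_nonempty
      · rw [card_product, card_product, card_singleton, card_univ, Fintype.card_fin, one_mul]
        push_cast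
        have h1 : (2 : ℝ) * W ≤ (tOwin N W k).card := by exact_mod_cast hcard
        have h2 : 1 / 4 ≤ W * β / N := by rw [hWβ]; exact hwin.lo
        calc c0 * s / 4 * th β N (fun _ => 1) (toT s K b) (k, x)
            = (c0 * s * th β N (fun _ => 1) (toT s K b) (k, x)) * (1 / 4) := by ring
          _ ≤ (c0 * s * th β N (fun _ => 1) (toT s K b) (k, x)) * (W * β / N) := by
              refine mul_le_mul_of_nonneg_left h2 (by positivity)
          _ = (2 * W * s) * w := by rw [hw]; field_simp
          _ ≤ ((tOwin N W k).card * s) * w := by gcongr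
      · intro i v hv
        obtain ⟨l, y, j⟩ := v
        simp only [mem_product, mem_singleton, mem_univ, and_true] at hv
        obtain ⟨hl, rfl⟩ := hv
        have hne : (k, (x, i)) ≠ (l, (x + Pi.single 0 1, j)) := fun h =>
          hxne (congrArg (fun z => z.2.1) h)
        rw [hc]
        unfold Net.c0
        rw [if_neg hne]
        unfold tOwin at hl
        rw [mem_filter] at hl
        have hl2 := hl.2
        by_cases hroom : (k : ℕ) + 3 * W ≤ N
        · rw [if_pos hroom] at hl2
          have hlt : k < l := by rw [Fin.lt_def]; omega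
          have hl0 : l ≠ 0 := by
            intro h
            rw [h] at hlt
            exact absurd hlt (Fin.not_lt_zero k)
          have h1 := l1 k l x (x + Pi.single 0 1) i j hlt (lower k l hl2.1) (upper k l hl2.2)
            (Or.inl (Ind.mem_edges n x 0)) hxne
          refine le_trans (le_of_eq ?_) h1
          rw [hw]
          congr 1
          unfold th hS
          simp only [if_neg hl0, mul_one]
        · rw [if_neg hroom] at hl2
          have hlt : l < k := by rw [Fin.lt_def]; omega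
          have hl0 : l ≠ 0 := by
            intro h
            rw [h] at hl2
            simp only [Fin.val_zero] at hl2
            omega
          have h1 := l1 l k (x + Pi.single 0 1) x j i hlt (lower l k hl2.1) (upper l k hl2.2)
            (Or.inr (Ind.mem_edges n x 0)) (Ne.symm hxne)
          rw [hccs]
          refine le_trans (le_of_eq ?_) h1
          rw [hw]
          congr 1
          unfold th hS
          simp only [if_neg hl0, mul_one]
          ring) a
  have h1 := mul_le_mul_of_nonneg_left hcmp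
    (show (0 : ℝ) ≤ 1 / (3 * (1 + 2 / (c0 * s / 4))) by positivity)
  refine h1.trans (le_of_eq ?_)
  field_simp

end Vale.Agent.P361.LRO.GenS
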