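import Vale.Agent.P361.LRO.GenS.TieLow
import Vale.Agent.P361.LRO.GenS.TieBase
import Vale.Agent.P361.LRO.GenS.TieOne
import Vale.Agent.P361.LRO.GenS.TieLocal
import Vale.Agent.P361.LRO.GenS.TieAvg
import Vale.Agent.P361.LRO.GenS.TieSym
import Vale.Agent.P361.LRO.GenS.TieEdge
import Vale.Agent.P361.LRO.GenS.LocT
import Vale.Agent.P361.LRO.Ind.Kappa
import Vale.Agent.P361.LRO.Ind.Final

/-!
P361 LRO, all spins: (M2) `KappaStmtS` from `block6` of the case `s = 1` by tying the copies.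
-/

namespace Vale.Agent.P361.LRO.GenS

open Finset Filter Vale.Agent.P361.LRO _root_.P361.LRO

noncomputable section

theorem physS_nonneg {n s M N : ℕ} [NeZero n] {β K : ℝ} {b : Finset (Tor n)} {h : Tor n → ℝ}
    (hgood : Net.Good (phys (edgesS n s M) β N)) (hβ : 0 ≤ β) (hN : β ≤ N) (hK : 0 ≤ K)
    (hh : ∀ x, 0 ≤ h x ∧ h x ≤ 1) (u v : NdS n s N) : 0 ≤ physS n s M N β K b h u v := by
  unfold physS Net.c0
  split_ifs with huv
  · exact le_refl _
  · exact hgood.ccnn _ (fun z => Loc.th_mem hβ hN (fun y => hh y.1) (Ind.blk_mem hK _) z) u v huv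

theorem kap_of_tie {n s M N : ℕ} [NeZero n] (hs : 0 < s) {β K κ : ℝ} {b : Finset (Tor n)}
    {h : Tor n → ℝ} (hκ1 : κ ≤ 1) (hcnn : ∀ u v, 0 ≤ physS n s M N β K b h u v) {A : ℝ}
    (key : A ≤ netK (tieC n s M N β K κ b h) (fun z => if z ∈ hatb N b then 1 else 0)) :
    A ≤ kap (edgesS n s M) β N (hS h) K (b ×ˢ univ) := by
  have hsp : (0:ℝ) < s := by exact_mod_cast hs
  have hs1 : (1:ℝ) ≤ s := by exact_mod_cast hs
  have hup : upC s (fun z : Ind.Nd n N => if z ∈ hatb N b then (1:ℝ) else 0) =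
      fun z => if z ∈ hatb N (b ×ˢ (univ : Finset (Fin s))) then 1 else 0 := by
    funext z
    unfold upC hatb
    simp only [Finset.mem_product, Finset.mem_univ, and_true]
  have hn0 := netK_nonneg hcnn (upC s (fun z : Ind.Nd n N => if z ∈ hatb N b then (1:ℝ) else 0))
  have h1s : (1:ℝ) / s ≤ 1 := by rw [div_le_one hsp]; exact hs1
  have hfin : netK (tieC n s M N β K κ b h) (fun z => if z ∈ hatb N b then 1 else 0) ≤
      netK (physS n s M N β K b h) (upC s (fun z : Ind.Nd n N =>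
        if z ∈ hatb N b then (1:ℝ) else 0)) := by
    by_cases h1 : h = fun _ => 1
    · subst h1
      rw [tieC_one, netK_tie']
      have e1 : κ * (1 / (s:ℝ)) ≤ 1 := by
        calc κ * (1 / (s:ℝ)) ≤ 1 * 1 := mul_le_mul hκ1 h1s (by positivity) zero_le_one
          _ = 1 := by norm_num
      rw [← mul_assoc]
      have := mul_le_mul_of_nonneg_right e1 hn0
      linarith
    · rw [tieC_ne h1, netK_tie']
      have := mul_le_mul_of_nonneg_right h1s hn0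
      linarith
  refine (key.trans hfin).trans ?_
  rw [hup, netK_physS]
  exact le_refl _

theorem kappaStmtS (s : ℕ) (hs : 0 < s) (hlocS : LocStmtS s) : KappaStmtS s := by
  obtain ⟨κ, hκ, hκ1, hOne⟩ := tie_one s hs hlocS locNet
  obtain ⟨c1, hc1, hloc⟩ := tie_local s hs hlocS locNet κ hκ hκ1
  obtain ⟨β6, c3, c4, hβ6, hc3, hc4, H6⟩ := Ind.block6 c1 hc1
  refine ⟨c3, hc3, fun A hA => ?_⟩
  -- conditions on β
  have hlim : ∀ (a : ℝ), 0 < a → ∀ B : ℝ, ∀ᶠ β : ℝ in atTop, B ≤ β ^ a := fun a ha B =>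
    (tendsto_rpow_atTop ha).eventually_ge_atTop B
  set M' : ℝ := 2 * Real.exp (A / 2) with hM
  have hMp : 0 < M' := by positivity
  have hlog : ∀ᶠ β : ℝ in atTop, M' * Real.log β / β ^ (1 / 200 : ℝ) ≤ c4 := by
    have h1 : Tendsto (fun β : ℝ => Real.log β / β ^ (1 / 200 : ℝ)) atTop (nhds 0) :=
      (isLittleO_log_rpow_atTop (by norm_num)).tendsto_div_nhds_zero
    have h2 := h1.const_mul M'
    rw [mul_zero] at h2
    filter_upwards [h2.eventually_le_const hc4] with β hβ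
    rw [mul_div_assoc]; exact hβ
  have hall : ∀ᶠ β : ℝ in atTop, β6 ≤ β ∧ 1 ≤ β ∧ 1 / A ≤ β ^ (1 / 100 : ℝ) ∧
      A ≤ β ^ (1 / 25 : ℝ) ∧ 3 ≤ β ^ (13 / 20 : ℝ) ∧ 2 * M' ≤ β ^ (1 / 200 : ℝ) ∧
      M' * Real.log β / β ^ (1 / 200 : ℝ) ≤ c4 := by
    filter_upwards [eventually_ge_atTop β6, eventually_ge_atTop (1:ℝ),
      hlim (1 / 100) (by norm_num) (1 / A), hlim (1 / 25) (by norm_num) A,
      hlim (13 / 20) (by norm_num) 3, hlim (1 / 200) (by norm_num) (2 * M'), hlog] with β a1 a2 a3 a4 a5 a6 a7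
    exact ⟨a1, a2, a3, a4, a5, a6, a7⟩
  obtain ⟨β0, hβ0⟩ := eventually_atTop.1 hall
  refine ⟨β0, fun β hβ => ?_⟩
  obtain ⟨b1, b2, b3, b4, b5, b6, b7⟩ := hβ0 β hβ
  have hβp : 0 < β := by linarith
  obtain ⟨n6, H6⟩ := H6 β b1
  refine ⟨max n6 (max 2 ⌈β⌉₊), ?_⟩
  intro n _ hn _ M a ha1 ha2 h0 hh0 hh01 hBH h hh x
  have hn6 : n6 ≤ n := (le_max_left _ _).trans hn
  have hn2 : 2 ≤ n := (le_max_left _ _).trans ((le_max_right _ _).trans hn)
  have hnβ : β ≤ n := by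
    have : ⌈β⌉₊ ≤ n := (le_max_right _ _).trans ((le_max_right _ _).trans hn)
    exact (Nat.le_ceil β).trans (by exact_mod_cast this)
  have hn0 : (0 : ℝ) < n := by linarith
  have hh0p : 0 < h0 := (Real.rpow_pos_of_pos hn0 _).trans_le hh0
  have hmul : ∀ s t : ℝ, β ^ s * β ^ t = β ^ (s + t) := fun s t => (Real.rpow_add hβp s t).symm
  have hp : ∀ s : ℝ, 0 < β ^ s := fun s => Real.rpow_pos_of_pos hβp s
  set K : ℝ := A * β ^ (1 / 100 : ℝ) with hK
  set η : ℝ := β ^ (-(1 / 100) : ℝ) with hη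
  set lam : ℝ := β ^ (-(9 / 10) : ℝ) with hlam
  have hηp : 0 < η := hp _
  have hKp : 0 < K := mul_pos hA (hp _)
  have hK1 : 1 ≤ K := by
    rw [div_le_iff₀ hA] at b3
    rw [hK]; linarith
  have h3a : (3:ℝ) ^ a ≤ β := by
    refine ha2.trans ?_
    have e : β = β ^ (13 / 20 : ℝ) * β ^ (7 / 20 : ℝ) := by
      rw [hmul]; norm_num
    calc 3 * β ^ (7 / 20 : ℝ) ≤ β ^ (13 / 20 : ℝ) * β ^ (7 / 20 : ℝ) :=
          mul_le_mul_of_nonneg_right b5 (hp _).le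
      _ = β := e.symm
  have h27 : (27:ℝ) ^ a = ((3:ℝ) ^ a) ^ 3 := by
    rw [← pow_mul, mul_comm, pow_mul]; norm_num
  have hKβ : K * β ≤ 27 ^ a := by
    rw [h27]
    have h1 : (β ^ (7 / 20 : ℝ)) ^ 3 ≤ ((3:ℝ) ^ a) ^ 3 := pow_le_pow_left₀ (hp _).le ha1 3
    refine le_trans ?_ h1
    rw [← Real.rpow_natCast, ← Real.rpow_mul hβp.le, hK]
    have e : β ^ (7 / 20 * ((3 : ℕ) : ℝ)) = β ^ (1 / 25 : ℝ) * β ^ (1 / 100 : ℝ) * β := by
      conv_rhs => rw [← Real.rpow_one β]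
      rw [Real.rpow_one, hmul]
      conv_rhs => rw [← Real.rpow_one β, ← Real.rpow_mul hβp.le, hmul]
      norm_num
    rw [e]
    exact mul_le_mul_of_nonneg_right (mul_le_mul_of_nonneg_right b4 (hp _).le) hβp.le
  have hcard : (cube n x (3 ^ a)).card = (3 ^ a) ^ 3 := by
    refine Ind.card_cube x (3 ^ a) ?_
    have : ((3 ^ a : ℕ) : ℝ) ≤ n := by push_cast; linarith
    exact_mod_cast this
  have hKcard : K ≤ (cube n x (3 ^ a)).card := by
    rw [hcard]; push_cast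
    rw [← h27]
    refine le_trans ?_ hKβ
    exact le_mul_of_one_le_right hKp.le b2
  have hne : (cube n x (3 ^ a)).Nonempty := by
    rw [← Finset.card_pos, hcard]; positivity
  have hlamβ : 1 / β ≤ lam := by
    rw [one_div, ← Real.rpow_neg_one, hlam]
    exact Real.rpow_le_rpow_of_exponent_le b2 (by norm_num)
  have hlam0 : 0 ≤ lam := (hp _).le
  have hKη : K * η = A := by
    rw [hK, hη, mul_assoc, hmul]; norm_num
  set ε : ℝ := M' / β ^ (1 / 200 : ℝ) with hε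
  have hεpos : 0 < ε := by
    rw [hε]; exact div_pos hMp (hp _)
  have hεp : 0 ≤ ε := hεpos.le
  have hε2 : ε ≤ 1 / 2 := by
    rw [hε, div_le_iff₀ (hp _)]; linarith
  have hεlog : ε * Real.log β ≤ c4 := by
    rw [hε, div_mul_eq_mul_div]; exact b7
  have hεsq : ε ^ 2 = 4 * Real.exp (K * η) * η := by
    rw [hKη, hε, hM, div_pow, mul_pow, hη]
    have e1 : (Real.exp (A / 2)) ^ 2 = Real.exp A := by
      rw [← Real.exp_nat_mul]; congr 1; push_cast; ring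
    have e2 : (β ^ (1 / 200 : ℝ)) ^ 2 = β ^ (1 / 100 : ℝ) := by
      rw [← Real.rpow_natCast, ← Real.rpow_mul hβp.le]; norm_num
    rw [e1, e2, Real.rpow_neg hβp.le, div_eq_mul_inv]; ring
  have hneS : (cubeS n s x (3 ^ a)).Nonempty := by
    obtain ⟨y, hy⟩ := hne
    exact ⟨(y, ⟨0, hs⟩), Finset.mem_product.2 ⟨hy, Finset.mem_univ _⟩⟩
  obtain ⟨N0, hN0⟩ := trMag_of (K := K) (b := cubeS n s x (3 ^ a))
    (Dict.magLim (edgesS n s M) hβp) hβp hneS hKp.le hηp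
  obtain ⟨N2, hN2⟩ := avg_le n s M hs β hβp ε hεpos
  have hwin := Ind.win_exists b2
  set m : ℕ := ⌈3 * β⌉₊ with hm
  rw [Filter.frequently_atTop]
  intro N1
  set W : ℕ := N1 + N0 + N2 + ⌈8 * β⌉₊ + 1 with hW
  have hWp : 0 < W := by omega
  have hWN : W ≤ m * W := Nat.le_mul_of_pos_left W hwin.pos
  refine ⟨m * W, by omega, ?_⟩
  have h8 : 8 * β ≤ ((m * W : ℕ) : ℝ) := by
    have h1 : 8 * β ≤ (⌈8 * β⌉₊ : ℝ) := Nat.le_ceil _
    have h2 : ((⌈8 * β⌉₊ : ℕ) : ℝ) ≤ ((m * W : ℕ) : ℝ) := by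
      exact_mod_cast (by omega : ⌈8 * β⌉₊ ≤ m * W)
    linarith
  have hβN : β ≤ ((m * W : ℕ) : ℝ) := by linarith
  have hb3 : 3 ≤ β := by linarith
  have hmagb : ∀ g : Tor n → ℝ, Fam n h0 lam g → ∀ z : NdS n s (m * W), z.1 ≠ 0 →
      1 - ε ^ 2 ≤ mag (phys (edgesS n s M) β (m * W))
        (th β (m * W) (hS g) (blk K (cubeS n s x (3 ^ a)))) z := by
    intro g hg z hz
    rw [hεsq]
    exact hN0 (m * W) (by omega) (hS g)
      (fun y => ⟨hh0p.le.trans (hg.ge y.1), hg.le_one y.1⟩) (fun y => hBH g hg y) z hz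
  have hlow : Ind.Low n (m * W) β h0 lam ε (tieC n s M (m * W) β K κ (cube n x (3 ^ a))) :=
    tie_low hs _ hβp hβN hKp.le hh0p hlam0 hεpos hε2 hκ hκ1
      (good_of_isLaw (Ind.isLaw_phys' _ hβp.le hβN)) hmagb
      (fun a' => hOne n (m * W) W m M β K _ hn2 hb3 h8 hWp rfl hwin hKp hKcard a')
      (fun g hg a' ha' => hN2 (m * W) (by omega) K hKp.le _ g
        (fun y => ⟨hh0p.le.trans (hg.ge y), hg.le_one y⟩) a' ha')
  have key := H6 n (m * W) W m K h0 lam ε x a h (tieC n s M (m * W) β K κ (cube n x (3 ^ a)))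
    hn6 hWp rfl hwin h3a hK1 hKβ hh0 hh01 hlamβ hεp hεlog
    (fun g hg => hloc n (m * W) W m M β K (cube n x (3 ^ a)) g hn2 b2 h8 hWp rfl hwin hKp hKcard
      (fun y => ⟨hh0p.le.trans (hg.ge y), hg.le_one y⟩)) hlow hh
  exact kap_of_tie hs hκ1 (physS_nonneg (good_of_isLaw (Ind.isLaw_phys' _ hβp.le hβN))
    hβp.le hβN hKp.le (fun y => ⟨hh0p.le.trans (hh.ge y), hh.le_one y⟩)) key

/-- **(M2)**: block (6) for all spins. -/
theorem kappaStmtS' (s : ℕ) (hs : 0 < s) : KappaStmtS s := kappaStmtS s hs (locStmtS s)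

end

end Vale.Agent.P361.LRO.GenS
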