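import Vale.Agent.P361.LRO.GenS.PiFacts
import Vale.Agent.P361.LRO.GenS.ExpProj
import Vale.Agent.P361.LRO.GenS.Iface
import Vale.Agent.P361.LRO.Fin.Main

/-!
P361, general spin: the magnetization of the spin `s / 2` torus is the limit `M → ∞` of the
magnetization of the copies; the final theorem from the bootstrap output.
-/

namespace Vale.Agent.P361.LRO.GenS

open Finset Matrix Equiv Filter Topology

noncomputable section

variable {n : ℕ} [NeZero n] {s : ℕ}

theorem sum_interEA {M : Type*} [AddCommMonoid M]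
    (f : (Tor n × Fin s) × (Tor n × Fin s) → M) :
    ((interE n s).map f).sum
      = ((edges n).map fun e => ∑ ab : Fin s × Fin s, f ((e.1, ab.1), (e.2, ab.2))).sum := by
  rw [interE]
  generalize edges n = L
  induction L with
  | nil => simp
  | cons e L ih =>
    rw [List.flatMap_cons, List.map_append, List.sum_append, ih, List.map_cons, List.sum_cons]
    congr 1
    rw [Fintype.sum_prod_type]
    have h1 : ∀ l : List (Fin s), ((l.flatMap fun i => (List.finRange s).map fun j =>
        (((e.1, i), (e.2, j)) : (Tor n × Fin s) × (Tor n × Fin s))).map f).sum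
        = (l.map fun i => ∑ j : Fin s, f ((e.1, i), (e.2, j))).sum := by
      intro l
      induction l with
      | nil => simp
      | cons i l ih =>
        rw [List.flatMap_cons, List.map_append, List.sum_append, ih, List.map_cons, List.sum_cons]
        congr 1
        rw [List.map_map, ← List.sum_ofFn, List.ofFn_eq_map]
        rfl
    rw [h1, ← List.sum_ofFn, List.ofFn_eq_map]

theorem ham_interEA (h : Tor n × Fin s → ℝ) :
    ham (interE n s) h = ham (interL (edges n) s) h := by
  rw [ham, ham, sum_interEA, sum_interL]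

theorem mem_intraEA {e : (Tor n × Fin s) × (Tor n × Fin s)} :
    e ∈ intraE n s ↔ e.1.1 = e.2.1 ∧ e.1.2 < e.2.2 := by
  exact mem_intraL (V := Tor n)

variable [NeZero s]

/-- The Gibbs state of the copies converges to the symmetrised state. -/
theorem tendsto_gib_edgesS (hn : 3 ≤ n) {β : ℝ} (hβ : 0 < β) (h : ℝ)
    (C : Matrix (Tor n × Fin s → Fin 2) (Tor n × Fin s → Fin 2) ℝ) :
    Tendsto (fun M : ℕ => gib (edgesS n s M) β (hS fun _ => h) C) atTop
      (𝓝 (trace (symProd (Tor n) s *
          NormedSpace.exp (-β • ham (interL (edges n) s) (lift s fun _ : Tor n => h)) * C) /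
        trace (symProd (Tor n) s *
          NormedSpace.exp (-β • ham (interL (edges n) s) (lift s fun _ : Tor n => h))))) := by
  have hpos := trace_symProd_exp_pos (s := s) hn β h
  have e1 : ham (interE n s) (hS fun _ => h)
      = ham (interL (edges n) s) (lift s fun _ : Tor n => h) := by
    rw [ham_interEA]
    rfl
  have := Lim.tendsto_gib (interE n s) (intraE n s) (hS fun _ => h) hβ (symProd (Tor n) s) C
    symProd_transpose
    (by
      rintro ⟨⟨x, a⟩, ⟨y, b⟩⟩ he
      have h1 := (mem_intraEA.1 he).1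
      dsimp only at h1
      subst h1
      exact swapM_mul_symProd x a b)
    (by
      intro v hv
      apply symProd_mulVec
      intro x a b
      rcases lt_trichotomy a b with h | h | h
      · exact hv ((x, a), (x, b)) (mem_intraEA.2 ⟨rfl, h⟩)
      · subst h
        rw [← permU_swap, Equiv.swap_self]
        have : (Equiv.refl (Tor n × Fin s) : Perm (Tor n × Fin s)) = 1 := rfl
        rw [this, map_one, Matrix.one_mulVec]
      · rw [← permU_swap, Equiv.swap_comm, permU_swap]
        exact hv ((x, b), (x, a)) (mem_intraEA.2 ⟨rfl, h⟩))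
    (by
      rintro ⟨⟨x, a⟩, ⟨y, b⟩⟩ he
      have h1 := (mem_intraEA.1 he).1
      dsimp only at h1
      subst h1
      rw [e1]
      exact comm_ham _ _ x a b)
    (by
      rw [e1]
      exact hpos.ne')
  rw [e1] at this
  exact this

/-- **(M4)** The magnetization of the spin `s / 2` model is the limit `M → ∞` of the copies. -/
theorem tendsto_mag_edgesS (hn : 3 ≤ n) {β : ℝ} (hβ : 0 < β) (h : ℝ) :
    Tendsto (fun M : ℕ => ∑ z : Tor n × Fin s,
      (1 / 2 - rho (edgesS n s M) β (hS fun _ => h) z)) atTop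
      (𝓝 (gibbsMagV s (torusAdj n) β h)) := by
  have hpos := trace_symProd_exp_pos (s := s) hn β h
  set P := symProd (Tor n) s with hP
  set E := NormedSpace.exp (-β • ham (interL (edges n) s) (lift s fun _ : Tor n => h)) with hE
  have h1 : ∀ z : Tor n × Fin s, Tendsto (fun M : ℕ =>
      1 / 2 - rho (edgesS n s M) β (hS fun _ => h) z) atTop
      (𝓝 (trace (P * E * ((1 / 2 : ℝ) • szM z)) / trace (P * E))) := by
    intro z
    have h2 := (tendsto_gib_edgesS (s := s) hn hβ h
      ((1 / 2 : ℝ) • (1 - szM z))).const_sub (1 / 2)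
    have h3 : (1 / 2 : ℝ) - trace (P * E * ((1 / 2 : ℝ) • (1 - szM z))) / trace (P * E)
        = trace (P * E * ((1 / 2 : ℝ) • szM z)) / trace (P * E) := by
      rw [Matrix.mul_smul, Matrix.mul_sub, Matrix.mul_one, Matrix.trace_smul, Matrix.trace_sub,
        Matrix.mul_smul, Matrix.trace_smul, smul_eq_mul, smul_eq_mul]
      field_simp
      ring
    rw [← h3]
    exact h2
  have h4 := tendsto_finsetSum (univ : Finset (Tor n × Fin s)) fun z _ => h1 z
  rw [gibbsMagV_spin hn]
  rw [← Finset.sum_div, ← Matrix.trace_sum, ← Finset.mul_sum] at h4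
  exact h4

/-- **(M6)** The final theorem for spin `s / 2` from the output of the bootstrap. -/
theorem spontMag_ge_of_boot (H : BootStmtS s) :
    ∃ β0 : ℝ, ∀ β : ℝ, β0 ≤ β →
      (s : ℝ) / 2 - s * β ^ (-(1 / 100) : ℝ) ≤ Model.spontMag s β := by
  obtain ⟨β0, hβ0⟩ := H
  refine ⟨max β0 1, fun β hβ => ?_⟩
  have hβ1 : (1 : ℝ) ≤ β := le_trans (le_max_right _ _) hβ
  have hβp : 0 < β := by linarith
  obtain ⟨n0, hn0⟩ := hβ0 β (le_trans (le_max_left _ _) hβ)
  refine spontMag_ge s hβp (a := fun N : ℕ => ((2 * N + 1 : ℕ) : ℝ) ^ (-(1 / 4) : ℝ)) ?_ ?_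
  · have h1 : Tendsto (fun N : ℕ => ((2 * N + 1 : ℕ) : ℝ)) atTop atTop := by
      refine tendsto_natCast_atTop_atTop.comp (tendsto_atTop_mono (fun n => ?_) tendsto_id)
      simp only [id]; omega
    exact (tendsto_rpow_neg_atTop (by norm_num : (0 : ℝ) < 1 / 4)).comp h1
  · filter_upwards [eventually_ge_atTop (n0 + 1)] with N hN h hh1 hh2
    have hlim := tendsto_mag_edgesS (n := 2 * N + 1) (s := s) (by omega) hβp h
    have hge : ∀ M : ℕ, (∑ _z : Tor (2 * N + 1) × Fin s, (1 / 2 - β ^ (-(1 / 100) : ℝ)))
        ≤ ∑ z : Tor (2 * N + 1) × Fin s,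
          (1 / 2 - rho (edgesS (2 * N + 1) s M) β (hS fun _ => h) z) := by
      intro M
      refine Finset.sum_le_sum fun z _ => ?_
      have := hn0 (2 * N + 1) (by omega) ⟨N, rfl⟩ M h hh1 hh2 z
      linarith
    have h5 := ge_of_tendsto' hlim hge
    rw [Finset.sum_const, Finset.card_univ, Fintype.card_prod, Fintype.card_fin, nsmul_eq_mul,
      Fintype.card_fun, ZMod.card, Fintype.card_fin] at h5
    rw [le_div_iff₀ (by positivity)]
    refine le_trans (le_of_eq ?_) h5
    push_cast
    ring

end

end Vale.Agent.P361.LRO.GenS
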