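import Vale.Agent.P361.LRO.Defs

/-!
P361 LRO, general spin `s / 2`: vertex set `V × Fin s`, edge list
`Lm L s m` = all inter-site pairs of copies + `m` times every intra-site pair.
Everything is uniform in `m`; the limit `m → ∞` is taken at the end.
-/

namespace Vale.Agent.P361.LRO.GenS

open Finset Matrix

noncomputable section

variable {V : Type} [Fintype V] [DecidableEq V]

/-- Inter-site edges: all pairs of copies of the two ends of an edge of `L`. -/
def interL (L : List (V × V)) (s : ℕ) : List ((V × Fin s) × (V × Fin s)) :=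
  L.flatMap fun e => ((univ : Finset (Fin s × Fin s)).toList).map fun ij =>
    ((e.1, ij.1), (e.2, ij.2))

/-- Intra-site pairs, each unordered pair once. -/
def intraL (V : Type) [Fintype V] [DecidableEq V] (s : ℕ) :
    List ((V × Fin s) × (V × Fin s)) :=
  (((univ : Finset (V × Fin s × Fin s)).filter fun z => z.2.1 < z.2.2).toList).map fun z =>
    ((z.1, z.2.1), (z.1, z.2.2))

/-- `L_m`. -/
def Lm (L : List (V × V)) (s m : ℕ) : List ((V × Fin s) × (V × Fin s)) :=
  interL L s ++ (List.replicate m (intraL V s)).flatten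

/-- Lift of a profile. -/
def lift (s : ℕ) (h : V → ℝ) : V × Fin s → ℝ := fun z => h z.1

/-- Lift of a block. -/
def liftB (s : ℕ) (b : Finset V) : Finset (V × Fin s) := b ×ˢ univ

theorem mem_interL {L : List (V × V)} {s : ℕ} {e : (V × Fin s) × (V × Fin s)} :
    e ∈ interL L s ↔ (e.1.1, e.2.1) ∈ L := by
  unfold interL
  rw [List.mem_flatMap]
  constructor
  · rintro ⟨f, hf, he⟩
    rw [List.mem_map] at he
    obtain ⟨ij, _, rfl⟩ := he
    exact hf
  · intro he
    refine ⟨_, he, ?_⟩
    rw [List.mem_map]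
    exact ⟨(e.1.2, e.2.2), by simp, rfl⟩

theorem mem_intraL {s : ℕ} {e : (V × Fin s) × (V × Fin s)} :
    e ∈ intraL V s ↔ e.1.1 = e.2.1 ∧ e.1.2 < e.2.2 := by
  unfold intraL
  rw [List.mem_map]
  constructor
  · rintro ⟨z, hz, rfl⟩
    rw [Finset.mem_toList, Finset.mem_filter] at hz
    exact ⟨rfl, hz.2⟩
  · rintro ⟨h1, h2⟩
    refine ⟨(e.1.1, e.1.2, e.2.2), ?_, ?_⟩
    · rw [Finset.mem_toList, Finset.mem_filter]
      exact ⟨Finset.mem_univ _, h2⟩
    · rcases e with ⟨⟨a, b⟩, ⟨c, d⟩⟩
      simp only at h1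
      subst h1
      rfl

theorem mem_Lm {L : List (V × V)} {s m : ℕ} {e : (V × Fin s) × (V × Fin s)} :
    e ∈ Lm L s m ↔ e ∈ interL L s ∨ (m ≠ 0 ∧ e ∈ intraL V s) := by
  unfold Lm
  rw [List.mem_append, List.mem_flatten]
  constructor
  · rintro (h | ⟨l, hl, he⟩)
    · exact Or.inl h
    · rw [List.mem_replicate] at hl
      obtain ⟨hm, rfl⟩ := hl
      exact Or.inr ⟨hm, he⟩
  · rintro (h | ⟨hm, he⟩)
    · exact Or.inl h
    · exact Or.inr ⟨_, List.mem_replicate.2 ⟨hm, rfl⟩, he⟩

/-- `∑ intra h_e`. -/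
def intraM (V : Type) [Fintype V] [DecidableEq V] (s : ℕ) :
    Matrix (V × Fin s → Fin 2) (V × Fin s → Fin 2) ℝ :=
  ((intraL V s).map fun e => hM e.1 e.2).sum

theorem ham_Lm (L : List (V × V)) (s m : ℕ) (h : V × Fin s → ℝ) :
    ham (Lm L s m) h = ham (interL L s) h + (m : ℝ) • intraM V s := by
  unfold ham Lm intraM
  rw [List.map_append, List.sum_append]
  have h1 : ((List.replicate m (intraL V s)).flatten.map fun e => hM e.1 e.2).sum =
      (m : ℝ) • ((intraL V s).map fun e => hM e.1 e.2).sum := by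
    induction m with
    | zero => simp
    | succ m ih =>
      rw [List.replicate_succ, List.flatten_cons, List.map_append, List.sum_append, ih]
      push_cast
      module
  rw [h1]
  abel

end

end Vale.Agent.P361.LRO.GenS
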