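import Vale.Agent.P361.LRO.Loc.Close

/-!
P361 LRO, general spin, (M1): LOC with copies, part A (lists of gates, derandomisation of the
intra-site gates, strands).
-/

namespace Vale.Agent.P361.LRO.GenS.LocS

open Finset Vale.Agent.P361.LRO Vale.Agent.P361.LRO.Loc

set_option linter.unusedSectionVars false

noncomputable section

variable {X : Type} [Fintype X] [DecidableEq X]

/-- The two nodes of a gate. -/
def nd (g : X × X × ℝ) : X × X := (g.1, g.2.1)

theorem ev_lin (l : List (X × X × ℝ)) (σ : Equiv.Perm X) (a b : ℝ) (F G : Equiv.Perm X → ℝ) :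
    ev l σ (fun π => a * F π + b * G π) = a * ev l σ F + b * ev l σ G := by
  unfold ev
  rw [Finset.mul_sum, Finset.mul_sum, ← Finset.sum_add_distrib]
  exact Finset.sum_congr rfl fun π _ => by ring

/-- It is enough to prove an inequality between expectations for deterministic gates in the
class `I`. -/
theorem derand (I : X × X → Prop) [DecidablePred I] (σ : Equiv.Perm X) (p : ℝ) :
    ∀ (l : List (X × X × ℝ)), (∀ g ∈ l, 0 ≤ g.2.2 ∧ g.2.2 ≤ 1) →
    (∀ g ∈ l, ¬ I (nd g) → g.2.2 = p) → ∀ (F G : Equiv.Perm X → ℝ),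
    (∀ l' : List (X × X × ℝ), l'.map nd = l.map nd →
      (∀ g ∈ l', I (nd g) → g.2.2 = 0 ∨ g.2.2 = 1) → (∀ g ∈ l', ¬ I (nd g) → g.2.2 = p) →
      ev l' σ G ≤ ev l' σ F) → ev l σ G ≤ ev l σ F := by
  intro l
  induction l with
  | nil =>
    intro _ _ F G h
    exact h [] rfl (by simp) (by simp)
  | cons g l ih =>
    intro hp hI F G h
    have hg := hp g (by simp)
    have hl : ∀ g ∈ l, 0 ≤ g.2.2 ∧ g.2.2 ≤ 1 := fun g hg => hp g (by simp [hg])
    have hIl : ∀ g ∈ l, ¬ I (nd g) → g.2.2 = p := fun g hg => hI g (by simp [hg])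
    rw [ev_cons, ev_cons]
    by_cases hIg : I (nd g)
    · have h0 : ev l σ G ≤ ev l σ F := by
        refine ih hl hIl F G fun l' e h1 h2 => ?_
        have := h ((g.1, g.2.1, 0) :: l') (by simp [nd, e]) (by
          intro g' hg' hI'
          rcases List.mem_cons.1 hg' with rfl | hg'
          · exact Or.inl rfl
          · exact h1 g' hg' hI') (by
          intro g' hg' hI'
          rcases List.mem_cons.1 hg' with rfl | hg'
          · exact absurd hIg hI'
          · exact h2 g' hg' hI')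
        rw [ev_cons, ev_cons] at this
        simpa using this
      have h1 : ev l σ (sw g.1 g.2.1 G) ≤ ev l σ (sw g.1 g.2.1 F) := by
        refine ih hl hIl _ _ fun l' e h1 h2 => ?_
        have := h ((g.1, g.2.1, 1) :: l') (by simp [nd, e]) (by
          intro g' hg' hI'
          rcases List.mem_cons.1 hg' with rfl | hg'
          · exact Or.inr rfl
          · exact h1 g' hg' hI') (by
          intro g' hg' hI'
          rcases List.mem_cons.1 hg' with rfl | hg'
          · exact absurd hIg hI'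
          · exact h2 g' hg' hI')
        rw [ev_cons, ev_cons] at this
        simpa using this
      have h2 := mul_le_mul_of_nonneg_left h0 (by linarith [hg.2] : 0 ≤ 1 - g.2.2)
      have h3 := mul_le_mul_of_nonneg_left h1 hg.1
      linarith
    · have hgp := hI g (by simp) hIg
      have := ih hl hIl (fun π => (1 - g.2.2) * F π + g.2.2 * sw g.1 g.2.1 F π)
        (fun π => (1 - g.2.2) * G π + g.2.2 * sw g.1 g.2.1 G π) fun l' e h1 h2 => ?_
      · rwa [ev_lin, ev_lin] at this
      · have := h (g :: l') (by simp [e]) (by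
          intro g' hg' hI'
          rcases List.mem_cons.1 hg' with rfl | hg'
          · exact absurd hI' hIg
          · exact h1 g' hg' hI') (by
          intro g' hg' hI'
          rcases List.mem_cons.1 hg' with rfl | hg'
          · exact hgp
          · exact h2 g' hg' hI')
        rw [ev_cons, ev_cons] at this
        rwa [ev_lin, ev_lin]

/-- Product of the open gates of the class `I`. -/
def TT (I : X × X → Prop) [DecidablePred I] : List (X × X × ℝ) → Equiv.Perm X
  | [] => 1
  | g :: l => (if I (nd g) ∧ g.2.2 = 1 then Equiv.swap g.1 g.2.1 else 1) * TT I l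

theorem TT_append (I : X × X → Prop) [DecidablePred I] (l₁ l₂ : List (X × X × ℝ)) :
    TT I (l₁ ++ l₂) = TT I l₁ * TT I l₂ := by
  induction l₁ with
  | nil => simp [TT]
  | cons g l ih => rw [List.cons_append, TT, TT, ih, mul_assoc]

theorem TT_closeG (I : X × X → Prop) [DecidablePred I] (S : X × X × ℝ → Prop) [DecidablePred S]
    (hS : ∀ g, S g → ¬ I (nd g)) (l : List (X × X × ℝ)) : TT I (closeG S l) = TT I l := by
  induction l with
  | nil => simp [closeG]
  | cons g l ih =>
    rw [closeG_cons, TT, TT, ih]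
    by_cases hSg : S g
    · have hI := hS g hSg
      have hI2 : ¬ I (nd (g.1, g.2.1, (0 : ℝ))) := hI
      simp only [hSg, if_true]
      rw [if_neg (fun h => hI2 h.1), if_neg (fun h => hI h.1)]
    · simp only [hSg, if_false]

theorem swap_D {D : X → Prop} {a b w : X} (h : D a ↔ D b) (hw : D w) : D (Equiv.swap a b w) := by
  by_cases h1 : w = a
  · subst h1
    rw [Equiv.swap_apply_left]
    exact h.1 hw
  · by_cases h2 : w = b
    · subst h2
      rw [Equiv.swap_apply_right]
      exact h.2 hw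
    · rwa [Equiv.swap_apply_of_ne_of_ne h1 h2]

theorem TT_D (I : X × X → Prop) [DecidablePred I] (D : X → Prop) (l : List (X × X × ℝ))
    (h : ∀ g ∈ l, I (nd g) → (D g.1 ↔ D g.2.1)) (w : X) (hw : D w) : D (TT I l w) := by
  induction l with
  | nil => simpa [TT] using hw
  | cons g l ih =>
    have ih' := ih fun g hg => h g (by simp [hg])
    rw [TT, Equiv.Perm.mul_apply]
    by_cases hI : I (nd g) ∧ g.2.2 = 1
    · rw [if_pos hI]
      exact swap_D (h g (by simp) hI.1) ih'
    · rw [if_neg hI]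
      exact ih'

theorem TT_fix (I : X × X → Prop) [DecidablePred I] (l : List (X × X × ℝ)) (w : X)
    (h : ∀ g ∈ l, I (nd g) → w ≠ g.1 ∧ w ≠ g.2.1) : TT I l w = w := by
  induction l with
  | nil => simp [TT]
  | cons g l ih =>
    have ih' := ih fun g hg => h g (by simp [hg])
    rw [TT, Equiv.Perm.mul_apply, ih']
    by_cases hI : I (nd g) ∧ g.2.2 = 1
    · rw [if_pos hI]
      obtain ⟨h1, h2⟩ := h g (by simp) hI.1
      exact Equiv.swap_apply_of_ne_of_ne h1 h2
    · rw [if_neg hI]
      rfl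

theorem law_cons (g : X × X × ℝ) (l : List (X × X × ℝ)) (σ π : Equiv.Perm X) :
    law (g :: l) σ π = (1 - g.2.2) * law l σ π + g.2.2 * law l σ (Equiv.swap g.1 g.2.1 * π) := by
  rw [law]

/-- Strands: the gates of the class `I` are deterministic, the other ones do not touch `D`. -/
theorem supp_T (I : X × X → Prop) [DecidablePred I] (D : X → Prop) (σ : Equiv.Perm X)
    (l₁ l₂ : List (X × X × ℝ)) (z w : X)
    (hI : ∀ g ∈ l₁, I (nd g) → (g.2.2 = 0 ∨ g.2.2 = 1) ∧ (D g.1 ↔ D g.2.1))
    (hn : ∀ g ∈ l₁, ¬ I (nd g) → g.2.2 = 0 ∨ (¬ D g.1 ∧ ¬ D g.2.1)) (hw : D w)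
    (h2 : ∀ π₂, law l₂ σ π₂ ≠ 0 → π₂ z = w) :
    ∀ π, law (l₁ ++ l₂) σ π ≠ 0 → π z = TT I l₁ w := by
  induction l₁ with
  | nil =>
    intro π h
    rw [h2 π (by simpa using h)]
    simp [TT]
  | cons g l ih =>
    intro π h
    have hI' : ∀ g ∈ l, I (nd g) → (g.2.2 = 0 ∨ g.2.2 = 1) ∧ (D g.1 ↔ D g.2.1) :=
      fun g hg => hI g (by simp [hg])
    have ih' := ih hI' fun g hg => hn g (by simp [hg])
    have hD : D (TT I l w) := TT_D I D l (fun g hg hIg => (hI' g hg hIg).2) w hw
    have hback : law (l ++ l₂) σ (Equiv.swap g.1 g.2.1 * π) ≠ 0 →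
        π z = Equiv.swap g.1 g.2.1 (TT I l w) := by
      intro h3
      have := ih' _ h3
      rw [Equiv.Perm.mul_apply] at this
      rw [← this, Equiv.swap_apply_self]
    rw [List.cons_append, law_cons] at h
    rw [TT, Equiv.Perm.mul_apply]
    by_cases hIg : I (nd g)
    · rcases (hI g (by simp) hIg).1 with h0 | h1
      · rw [if_neg (fun hh => by rw [h0] at hh; norm_num at hh)]
        rw [h0, sub_zero, one_mul, zero_mul, add_zero] at h
        exact ih' _ h
      · rw [if_pos ⟨hIg, h1⟩]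
        rw [h1, sub_self, zero_mul, one_mul, zero_add] at h
        exact hback h
    · rw [if_neg (fun hh => hIg hh.1)]
      rcases hn g (by simp) hIg with h0 | ⟨h3, h4⟩
      · rw [h0, sub_zero, one_mul, zero_mul, add_zero] at h
        exact ih' _ h
      · by_cases ha : law (l ++ l₂) σ π = 0
        · rw [ha, mul_zero, zero_add] at h
          rw [hback (right_ne_zero_of_mul h), Equiv.swap_apply_of_ne_of_ne]
          · rfl
          · exact fun e => h3 (e ▸ hD)
          · exact fun e => h4 (e ▸ hD)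
        · exact ih' _ ha

/-- All strands through `D`. -/
theorem supp_T0 (I : X × X → Prop) [DecidablePred I] (D : X → Prop) (σ : Equiv.Perm X)
    (l : List (X × X × ℝ)) (z : X)
    (hI : ∀ g ∈ l, I (nd g) → (g.2.2 = 0 ∨ g.2.2 = 1) ∧ (D g.1 ↔ D g.2.1))
    (hn : ∀ g ∈ l, ¬ I (nd g) → g.2.2 = 0 ∨ (¬ D g.1 ∧ ¬ D g.2.1)) (hw : D (σ z)) :
    ∀ π, law l σ π ≠ 0 → π z = TT I l (σ z) := by
  intro π h
  refine supp_T I D σ l [] z (σ z) hI hn hw (fun π₂ h2 => ?_) π (by simpa using h)
  rw [law] at h2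
  by_cases e : π₂ = σ
  · rw [e]
  · exact absurd (by simp [e]) h2

/-- One open gate `(a, b)` in the middle. -/
theorem supp_one (I : X × X → Prop) [DecidablePred I] (D : X → Prop) (σ : Equiv.Perm X)
    (l₁ l₂ : List (X × X × ℝ)) (a b z : X)
    (hI : ∀ g ∈ l₁ ++ l₂, I (nd g) → (g.2.2 = 0 ∨ g.2.2 = 1) ∧ (D g.1 ↔ D g.2.1))
    (hn : ∀ g ∈ l₁ ++ l₂, ¬ I (nd g) → g.2.2 = 0 ∨ (¬ D g.1 ∧ ¬ D g.2.1)) (hw : D (σ z))
    (ha : D a) (hb : D b) :
    ∀ π, law (l₁ ++ (a, b, 1) :: l₂) σ π ≠ 0 →
      π z = TT I l₁ (Equiv.swap a b (TT I l₂ (σ z))) := by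
  have hD : D (TT I l₂ (σ z)) :=
    TT_D I D l₂ (fun g hg hIg => (hI g (by simp [hg]) hIg).2) _ hw
  refine supp_T I D σ l₁ ((a, b, 1) :: l₂) z _ (fun g hg => hI g (by simp [hg]))
    (fun g hg => hn g (by simp [hg])) (swap_D (iff_of_true ha hb) hD) fun π₂ h2 => ?_
  rw [law_cons] at h2
  simp only [sub_self, zero_mul, one_mul, zero_add] at h2
  have := supp_T0 I D σ l₂ z (fun g hg => hI g (by simp [hg])) (fun g hg => hn g (by simp [hg]))
    hw _ h2
  rw [Equiv.Perm.mul_apply] at this
  rw [← this, Equiv.swap_apply_self]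

theorem pat_split (S : X × X × ℝ → Prop) [DecidablePred S] (l : List (X × X × ℝ)) (j : ℕ)
    (g : X × X × ℝ) (h : l[j]? = some g) :
    pat S l j = closeG S (l.take j) ++ (g.1, g.2.1, 1) :: closeG S (l.drop (j + 1)) := by
  induction l generalizing j with
  | nil => simp at h
  | cons g' l ih =>
    rcases j with _ | j
    · rw [List.getElem?_cons_zero, Option.some_inj] at h
      subst h
      rw [pat_cons_zero]
      simp [closeG]
    · rw [List.getElem?_cons_succ] at h
      rw [pat_cons_succ, ih j h, List.take_succ_cons, closeG_cons, List.drop_succ_cons,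
        List.cons_append]

theorem count_eq (H : X × X × ℝ → Prop) [DecidablePred H] (l : List (X × X × ℝ)) :
    ((l.countP fun g => H g : ℕ) : ℝ) =
      ∑ j ∈ Finset.range l.length, if ∃ g, l[j]? = some g ∧ H g then (1 : ℝ) else 0 := by
  induction l with
  | nil => simp
  | cons g l ih =>
    rw [List.length_cons, Finset.sum_range_succ']
    simp only [List.getElem?_cons_succ, List.getElem?_cons_zero]
    rw [← ih, List.countP_cons]
    by_cases h : H g <;> simp [h]

theorem osum_ge (S H : X × X × ℝ → Prop) [DecidablePred S] [DecidablePred H]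
    (l : List (X × X × ℝ)) (σ : Equiv.Perm X) (F : Equiv.Perm X → ℝ) (C : ℝ)
    (hC : ∀ j g, l[j]? = some g → H g → C ≤ g.2.2 * ev (pat S l j) σ F) :
    C * ((l.countP fun g => H g : ℕ) : ℝ) ≤ osum S H l σ F := by
  rw [count_eq, Finset.mul_sum]
  unfold osum
  refine Finset.sum_le_sum fun j _ => ?_
  by_cases h : ∃ g, l[j]? = some g ∧ H g
  · rw [if_pos h, if_pos h, mul_one]
    obtain ⟨g, h1, h2⟩ := h
    have := hC j g h1 h2
    rw [h1]
    simpa using this
  · rw [if_neg h, if_neg h, mul_zero]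

end

end Vale.Agent.P361.LRO.GenS.LocS
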