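import Vale.Agent.P361.LRO.GenS.LocA
import Vale.Agent.P361.LRO.Loc.Main

/-!
P361 LRO, general spin, (M1): LOC with copies, part B (the physical circuit).
`st : V → Λ` is the site of a copy; `L = L1 ++ L2`, `L1` between different sites, `L2` inside the
sites.
-/

namespace Vale.Agent.P361.LRO.GenS.LocS

open Finset Vale.Agent.P361.LRO Vale.Agent.P361.LRO.Loc Vale.Agent.P361.LRO.Loc.Geo

set_option linter.unusedSectionVars false

noncomputable section

variable {V Λ : Type} [Fintype V] [DecidableEq V] [DecidableEq Λ]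

/-- Node pairs at the same site. -/
def In (N : ℕ) (st : V → Λ) (e : (Fin (N + 1) × V) × (Fin (N + 1) × V)) : Prop :=
  st e.1.2 = st e.2.2

instance (N : ℕ) (st : V → Λ) : DecidablePred (In N st) := fun e => by unfold In; infer_instance

/-- The window. -/
def Wd (N : ℕ) (st : V → Λ) (Q : Λ → Prop) (lo hi : ℕ) (z : Fin (N + 1) × V) : Prop :=
  lo ≤ (z.1 : ℕ) ∧ (z.1 : ℕ) < hi ∧ Q (st z.2)

instance (N : ℕ) (st : V → Λ) (Q : Λ → Prop) [DecidablePred Q] (lo hi : ℕ) :
    DecidablePred (Wd N st Q lo hi) := fun e => by unfold Wd; infer_instance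

/-- Gates between different sites that touch the window. -/
def SS (N : ℕ) (st : V → Λ) (Q : Λ → Prop) (lo hi : ℕ)
    (e : (Fin (N + 1) × V) × (Fin (N + 1) × V)) : Prop :=
  ¬ In N st e ∧ (Wd N st Q lo hi e.1 ∨ Wd N st Q lo hi e.2)

instance (N : ℕ) (st : V → Λ) (Q : Λ → Prop) [DecidablePred Q] (lo hi : ℕ) :
    DecidablePred (SS N st Q lo hi) := fun e => by unfold SS; infer_instance

/-- Properties of the node list of the circuit. -/
structure Good (N : ℕ) (st : V → Λ) (NL : List ((Fin (N + 1) × V) × (Fin (N + 1) × V))) :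
    Prop where
  lay : ∀ e ∈ NL, e.1.1 = e.2.1
  ord : NL.Pairwise fun e' e => In N st e' → ¬ In N st e → e'.1.1 ≠ e.1.1

theorem good_gates (N : ℕ) (st : V → Λ) (L1 L2 : List (V × V)) (p : ℝ)
    (h1 : ∀ e ∈ L1, st e.1 ≠ st e.2) (h2 : ∀ e ∈ L2, st e.1 = st e.2) :
    Good N st ((gates (L1 ++ L2) N p).map nd) := by
  constructor
  · intro e he
    rw [List.mem_map] at he
    obtain ⟨g, hg, rfl⟩ := he
    obtain ⟨k, e, _, rfl⟩ := mem_gates hg
    rfl
  · unfold gates
    rw [List.map_flatMap, List.pairwise_flatMap]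
    constructor
    · intro k _
      rw [List.map_map, List.map_append, List.pairwise_append]
      refine ⟨?_, ?_, ?_⟩
      · rw [List.pairwise_map]
        refine List.pairwise_of_forall_mem_list ?_
        intro a ha b _ hI
        exact absurd hI (h1 a ha)
      · rw [List.pairwise_map]
        refine List.pairwise_of_forall_mem_list ?_
        intro a _ b hb _ hI
        exact absurd (h2 b hb) hI
      · intro a ha b hb
        rw [List.mem_map] at ha hb
        obtain ⟨a', ha', rfl⟩ := ha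
        intro hI
        exact absurd hI (h1 a' ha')
    · have hnd : (List.finRange N).Pairwise (· ≠ ·) := List.nodup_finRange N
      refine hnd.imp ?_
      intro k k' hkk x hx y hy _ _ he
      rw [List.mem_map] at hx hy
      obtain ⟨x', hx', rfl⟩ := hx
      obtain ⟨y', hy', rfl⟩ := hy
      rw [List.mem_map] at hx' hy'
      obtain ⟨x'', _, rfl⟩ := hx'
      obtain ⟨y'', _, rfl⟩ := hy'
      exact hkk (Fin.castSucc_injective _ he)

theorem countP_SS (N : ℕ) (st : V → Λ) (Q : Λ → Prop) [DecidablePred Q] (lo hi : ℕ)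
    (L1 L2 : List (V × V)) (p : ℝ) (h2 : ∀ e ∈ L2, st e.1 = st e.2)
    (d : ℕ) (hd : (L1.countP fun e => Q (st e.1) ∨ Q (st e.2)) ≤ d) :
    (((gates (L1 ++ L2) N p).map nd).countP fun e => SS N st Q lo hi e) ≤ d * (hi - lo) := by
  refine le_trans ?_ (countP_gates L1 N p (fun v => Q (st v)) lo hi d hd)
  rw [List.countP_map]
  unfold gates
  rw [List.countP_flatMap, List.countP_flatMap, ← Fin.sum_univ_def, ← Fin.sum_univ_def]
  refine Finset.sum_le_sum fun k _ => ?_
  simp only [Function.comp, List.countP_map, List.map_append, List.countP_append]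
  have e2 : List.countP ((fun g : (Fin (N + 1) × V) × (Fin (N + 1) × V) × ℝ =>
      decide (SS N st Q lo hi (nd g))) ∘ fun e : V × V =>
      ((k.castSucc, e.1), (k.castSucc, e.2), p)) L2 = 0 := by
    rw [List.countP_eq_zero]
    intro e he h
    exact (of_decide_eq_true h).1 (h2 e he)
  have e2' : List.countP ((fun g : (Fin (N + 1) × V) × (Fin (N + 1) × V) × ℝ =>
      decide (SS N st Q lo hi (nd g))) ∘ fun e : V × V =>
      ((k.castSucc, e.1), (k.castSucc, e.2), p)) L1 ≤ List.countP ((fun g : (Fin (N + 1) × V) ×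
      (Fin (N + 1) × V) × ℝ => decide (tch N (fun v => Q (st v)) lo hi g)) ∘ fun e : V × V =>
      ((k.castSucc, e.1), (k.castSucc, e.2), p)) L1 := by
    refine List.countP_mono_left fun e _ h => ?_
    have h' := of_decide_eq_true h
    simp only [Function.comp]
    refine decide_eq_true ?_
    rcases h'.2 with h3 | h3
    · exact ⟨h3.1, h3.2.1, Or.inl h3.2.2⟩
    · exact ⟨h3.1, h3.2.1, Or.inr h3.2.2⟩
  simp only [Function.comp_def] at e2 e2' ⊢
  omega

/-- Derandomised circuits. -/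
structure DR (N : ℕ) (st : V → Λ) (p : ℝ)
    (l : List ((Fin (N + 1) × V) × (Fin (N + 1) × V) × ℝ)) : Prop where
  good : Good N st (l.map nd)
  p0 : 0 ≤ p
  p1 : p ≤ 1 / 2
  hin : ∀ g ∈ l, In N st (nd g) → g.2.2 = 0 ∨ g.2.2 = 1
  hout : ∀ g ∈ l, ¬ In N st (nd g) → g.2.2 = p

variable {N : ℕ} {st : V → Λ} {p : ℝ} {l : List ((Fin (N + 1) × V) × (Fin (N + 1) × V) × ℝ)}

theorem DR.ok (h : DR N st p l) : ∀ g ∈ l, 0 ≤ g.2.2 ∧ g.2.2 ≤ 1 := by
  intro g hg
  by_cases hI : In N st (nd g)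
  · rcases h.hin g hg hI with e | e <;> rw [e] <;> norm_num
  · rw [h.hout g hg hI]
    exact ⟨h.p0, by linarith [h.p1]⟩

theorem DR.lay (h : DR N st p l) : ∀ g ∈ l, g.1.1 = g.2.1.1 := fun g hg =>
  h.good.lay (nd g) (List.mem_map_of_mem hg)

theorem DR.iffD (h : DR N st p l) (Q : Λ → Prop) (lo hi : ℕ) : ∀ g ∈ l, In N st (nd g) →
    (Wd N st Q lo hi g.1 ↔ Wd N st Q lo hi g.2.1) := by
  intro g hg hI
  have h1 := h.lay g hg
  have h2 : st g.1.2 = st g.2.1.2 := hI
  unfold Wd
  rw [h1, h2]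

/-- The strand map of the intra-site gates. -/
theorem DR.T_lay (h : DR N st p l) (z : Fin (N + 1) × V) :
    (TT (In N st) l z).1 = z.1 ∧ st (TT (In N st) l z).2 = st z.2 := by
  refine TT_D (In N st) (fun w => w.1 = z.1 ∧ st w.2 = st z.2) l (fun g hg hI => ?_) z ⟨rfl, rfl⟩
  have h1 := h.lay g hg
  have h2 : st g.1.2 = st g.2.1.2 := hI
  rw [h1, h2]

theorem DR.T_inv_lay (h : DR N st p l) (z : Fin (N + 1) × V) :
    ((TT (In N st) l)⁻¹ z).1 = z.1 ∧ st ((TT (In N st) l)⁻¹ z).2 = st z.2 := by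
  have := h.T_lay ((TT (In N st) l)⁻¹ z)
  have e : TT (In N st) l ((TT (In N st) l)⁻¹ z) = z := (TT (In N st) l).apply_symm_apply z
  rw [e] at this
  exact ⟨this.1.symm, this.2.symm⟩

theorem mem_closeG' {X : Type} {S : X × X × ℝ → Prop} [DecidablePred S] {l : List (X × X × ℝ)}
    {g : X × X × ℝ} (hg : g ∈ closeG S l) :
    ∃ g0 ∈ l, nd g = nd g0 ∧ ((S g0 ∧ g.2.2 = 0) ∨ (¬ S g0 ∧ g = g0)) := by
  unfold closeG at hg
  rw [List.mem_map] at hg
  obtain ⟨g0, hg0, h⟩ := hg
  by_cases hS : S g0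
  · rw [if_pos hS] at h
    subst h
    exact ⟨g0, hg0, rfl, Or.inl ⟨hS, rfl⟩⟩
  · rw [if_neg hS] at h
    subst h
    exact ⟨g0, hg0, rfl, Or.inr ⟨hS, rfl⟩⟩

theorem DR.closed_in (h : DR N st p l) (Q : Λ → Prop) [DecidablePred Q] (lo hi : ℕ)
    (l' : List ((Fin (N + 1) × V) × (Fin (N + 1) × V) × ℝ)) (hl' : ∀ g ∈ l', g ∈ l) :
    ∀ g ∈ closeG (fun g => SS N st Q lo hi (nd g)) l', In N st (nd g) →
      (g.2.2 = 0 ∨ g.2.2 = 1) ∧ (Wd N st Q lo hi g.1 ↔ Wd N st Q lo hi g.2.1) := by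
  intro g hg hI
  obtain ⟨g0, hg0, e, h1 | h1⟩ := mem_closeG' hg
  · rw [e] at hI
    exact absurd hI h1.1.1
  · obtain ⟨_, rfl⟩ := h1
    exact ⟨h.hin g (hl' g hg0) hI, h.iffD Q lo hi g (hl' g hg0) hI⟩

theorem DR.closed_out (Q : Λ → Prop) [DecidablePred Q] (lo hi : ℕ)
    (l' : List ((Fin (N + 1) × V) × (Fin (N + 1) × V) × ℝ)) :
    ∀ g ∈ closeG (fun g => SS N st Q lo hi (nd g)) l', ¬ In N st (nd g) →
      g.2.2 = 0 ∨ (¬ Wd N st Q lo hi g.1 ∧ ¬ Wd N st Q lo hi g.2.1) := by
  intro g hg hI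
  obtain ⟨g0, hg0, e, h1 | h1⟩ := mem_closeG' hg
  · exact Or.inl h1.2
  · obtain ⟨hS, rfl⟩ := h1
    right
    constructor
    · intro h2
      exact hS ⟨hI, Or.inl h2⟩
    · intro h2
      exact hS ⟨hI, Or.inr h2⟩

theorem SS_notIn (Q : Λ → Prop) [DecidablePred Q] (lo hi : ℕ) :
    ∀ g : (Fin (N + 1) × V) × (Fin (N + 1) × V) × ℝ, SS N st Q lo hi (nd g) →
      ¬ In N st (nd g) := fun _ h => h.1

/-- Strands in the window, all gates to other sites closed. -/
theorem DR.step (h : DR N st p l) (Q : Λ → Prop) [DecidablePred Q] (lo hi : ℕ) (hhi : hi ≤ N)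
    (π : Equiv.Perm (Fin (N + 1) × V))
    (hπ : law (closeG (fun g => SS N st Q lo hi (nd g)) l) (base N) π ≠ 0)
    (n : ℕ) (hn1 : lo ≤ n) (hn2 : n < hi) (v : V) (hv : Q (st v)) :
    π (fn N (n + 1), v) = TT (In N st) l (fn N n, v) := by
  have hb := base_apply N n (by omega) v
  have hval := cast_val (N := N) (n := n) (by omega)
  have := supp_T0 (In N st) (Wd N st Q lo hi) (base N) _ (fn N (n + 1), v)
    (h.closed_in Q lo hi l fun g hg => hg) (DR.closed_out Q lo hi l) (by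
      rw [hb]
      exact ⟨by rw [hval]; exact hn1, by rw [hval]; exact hn2, hv⟩) π hπ
  rw [this, hb, TT_closeG _ _ (SS_notIn Q lo hi)]

/-- Strands with one open gate. -/
theorem DR.step_one (h : DR N st p l) (Q : Λ → Prop) [DecidablePred Q] (lo hi : ℕ) (hhi : hi ≤ N)
    (j : ℕ) (g : (Fin (N + 1) × V) × (Fin (N + 1) × V) × ℝ) (hg : l[j]? = some g)
    (hgI : ¬ In N st (nd g)) (hg1 : Wd N st Q lo hi g.1) (hg2 : Wd N st Q lo hi g.2.1)
    (π : Equiv.Perm (Fin (N + 1) × V))
    (hπ : law (pat (fun g => SS N st Q lo hi (nd g)) l j) (base N) π ≠ 0)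
    (n : ℕ) (hn1 : lo ≤ n) (hn2 : n < hi) (v : V) (hv : Q (st v)) :
    π (fn N (n + 1), v) =
      if g.1.1 = fn N n then Equiv.swap g.1 g.2.1 (TT (In N st) l (fn N n, v))
      else TT (In N st) l (fn N n, v) := by
  have hb := base_apply N n (by omega) v
  have hval := cast_val (N := N) (n := n) (by omega)
  rw [pat_split _ l j g hg] at hπ
  have hD : Wd N st Q lo hi (fn N n, v) :=
    ⟨by rw [hval]; exact hn1, by rw [hval]; exact hn2, hv⟩
  have hsub : ∀ g' ∈ l.take j ++ l.drop (j + 1), g' ∈ l := by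
    intro g' hg'
    rcases List.mem_append.1 hg' with h' | h'
    · exact List.mem_of_mem_take h'
    · exact List.mem_of_mem_drop h'
  have happ : closeG (fun g => SS N st Q lo hi (nd g)) (l.take j) ++
      closeG (fun g => SS N st Q lo hi (nd g)) (l.drop (j + 1)) =
      closeG (fun g => SS N st Q lo hi (nd g)) (l.take j ++ l.drop (j + 1)) := by
    simp [closeG]
  have key := supp_one (In N st) (Wd N st Q lo hi) (base N)
    (closeG (fun g => SS N st Q lo hi (nd g)) (l.take j))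
    (closeG (fun g => SS N st Q lo hi (nd g)) (l.drop (j + 1))) g.1 g.2.1 (fn N (n + 1), v)
    (by rw [happ]; exact h.closed_in Q lo hi _ hsub)
    (by rw [happ]; exact DR.closed_out Q lo hi _) (by rw [hb]; exact hD) hg1 hg2 π hπ
  rw [hb, TT_closeG _ _ (SS_notIn Q lo hi), TT_closeG _ _ (SS_notIn Q lo hi)] at key
  rw [key]
  -- the whole product
  have hsplit : l = l.take j ++ g :: l.drop (j + 1) := by
    obtain ⟨hj, e⟩ := List.getElem?_eq_some_iff.1 hg
    rw [← e, List.getElem_cons_drop, List.take_append_drop]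
  have hTT : TT (In N st) l = TT (In N st) (l.take j) * TT (In N st) (l.drop (j + 1)) := by
    conv_lhs => rw [hsplit]
    rw [TT_append, TT, if_neg (fun hh => hgI hh.1), one_mul]
  -- the intra gates before `g` are in other layers
  have hfix : ∀ w : Fin (N + 1) × V, w.1 = g.1.1 → TT (In N st) (l.take j) w = w := by
    intro w hw
    refine TT_fix _ _ _ fun g' hg' hI' => ?_
    have hP := h.good.ord
    rw [hsplit, List.map_append, List.map_cons, List.pairwise_append] at hP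
    have h1 := hP.2.2 (nd g') (List.mem_map_of_mem hg') (nd g) (by simp) hI' hgI
    have h2 := h.lay g' (List.mem_of_mem_take hg')
    constructor
    · intro e
      apply h1
      change g'.1.1 = g.1.1
      rw [← hw, e]
    · intro e
      apply h1
      change g'.1.1 = g.1.1
      rw [← hw, e, h2]
  have hl2 := h.lay
  have hT2 : (TT (In N st) (l.drop (j + 1)) (fn N n, v)).1 = fn N n := by
    refine TT_D (In N st) (fun w : Fin (N + 1) × V => w.1 = fn N n) (l.drop (j + 1))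
      (fun g' hg' _ => ?_) _ rfl
    rw [hl2 g' (List.mem_of_mem_drop hg')]
  have hlg := hl2 g (List.mem_of_getElem? hg)
  by_cases hc : g.1.1 = fn N n
  · rw [if_pos hc, hTT, Equiv.Perm.mul_apply]
    rw [hfix (TT (In N st) (l.drop (j + 1)) (fn N n, v)) (by rw [hT2, hc])]
    refine hfix _ ?_
    refine swap_D (D := fun w : Fin (N + 1) × V => w.1 = g.1.1) (iff_of_true rfl hlg.symm) ?_
    rw [hT2, hc]
  · rw [if_neg hc, hTT, Equiv.Perm.mul_apply, Equiv.swap_apply_of_ne_of_ne]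
    · intro e
      apply hc
      rw [← e, hT2]
    · intro e
      apply hc
      rw [hlg, ← e, hT2]

/-- The strand of `(hi, a)` downwards. -/
def aR (N : ℕ) (T : Equiv.Perm (Fin (N + 1) × V)) (hi : ℕ) (a : V) : ℕ → V
  | 0 => a
  | r + 1 => (T (fn N (hi - (r + 1)), aR N T hi a r)).2

/-- The strand of `(lo, b)` upwards. -/
def bR (N : ℕ) (T : Equiv.Perm (Fin (N + 1) × V)) (lo : ℕ) (b : V) : ℕ → V
  | 0 => b
  | s + 1 => (T⁻¹ (fn N (lo + s), bR N T lo b s)).2

theorem DR.aR_site (h : DR N st p l) (hi : ℕ) (a : V) (r : ℕ) :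
    st (aR N (TT (In N st) l) hi a r) = st a := by
  induction r with
  | zero => rfl
  | succ r ih => rw [aR, (h.T_lay _).2, ih]

theorem DR.bR_site (h : DR N st p l) (lo : ℕ) (b : V) (s : ℕ) :
    st (bR N (TT (In N st) l) lo b s) = st b := by
  induction s with
  | zero => rfl
  | succ s ih => rw [bR, (h.T_inv_lay _).2, ih]

theorem DR.aR_step (h : DR N st p l) (hi : ℕ) (a : V) (r : ℕ) :
    TT (In N st) l (fn N (hi - (r + 1)), aR N (TT (In N st) l) hi a r) =
      (fn N (hi - (r + 1)), aR N (TT (In N st) l) hi a (r + 1)) := by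
  refine Prod.ext ?_ rfl
  exact (h.T_lay _).1

theorem DR.bR_step (h : DR N st p l) (lo : ℕ) (b : V) (s : ℕ) :
    TT (In N st) l (fn N (lo + s), bR N (TT (In N st) l) lo b (s + 1)) =
      (fn N (lo + s), bR N (TT (In N st) l) lo b s) := by
  have e : (fn N (lo + s), bR N (TT (In N st) l) lo b (s + 1)) =
      (TT (In N st) l)⁻¹ (fn N (lo + s), bR N (TT (In N st) l) lo b s) := by
    refine Prod.ext ?_ rfl
    exact (h.T_inv_lay (fn N (lo + s), bR N (TT (In N st) l) lo b s)).1.symm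
  rw [e]
  exact (TT (In N st) l).apply_symm_apply _

end

end Vale.Agent.P361.LRO.GenS.LocS
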