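import Vale.Agent.P361.LRO.GenS.LocB
import Vale.Agent.P361.LRO.Loc.Arc
import Vale.Agent.P361.LRO.Loc.Ring
import Vale.Agent.P361.LRO.Loc.Fourier

/-!
P361 LRO, general spin, (M1): LOC with copies, final form.
`st : V → Λ` is the site of a copy; `L = L1 ++ L2`, `L1` between different sites, `L2` inside the
sites.  All bounds are independent of `L2`.
-/

namespace Vale.Agent.P361.LRO.GenS.LocS

open Finset Vale.Agent.P361.LRO Vale.Agent.P361.LRO.Loc Vale.Agent.P361.LRO.Loc.Geo

set_option linter.unusedSectionVars false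

noncomputable section

variable {V Λ : Type} [Fintype V] [DecidableEq V] [DecidableEq Λ]
variable {N : ℕ} {st : V → Λ} {p : ℝ} {l : List ((Fin (N + 1) × V) × (Fin (N + 1) × V) × ℝ)}

theorem prod_S (h : DR N st p l) (Q : Λ → Prop) [DecidablePred Q] (lo hi : ℕ) (f : ℝ → ℝ) :
    (l.map fun g => if SS N st Q lo hi (nd g) then f g.2.2 else 1).prod =
      f p ^ ((l.map nd).countP fun e => SS N st Q lo hi e) := by
  have hout := h.hout
  clear h
  induction l with
  | nil => simp
  | cons g l ih =>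
    rw [List.map_cons, List.prod_cons, ih (fun g hg => hout g (by simp [hg])), List.map_cons,
      List.countP_cons]
    by_cases hS : SS N st Q lo hi (nd g)
    · simp [hS, hout g (by simp) hS.1, pow_succ, mul_comm]
    · simp [hS]

theorem fn_ne {N a b : ℕ} (ha : a ≤ N) (hb : b ≤ N) (h : fn N a = fn N b) : a = b := by
  have := congrArg Fin.val h
  rwa [cast_val ha, cast_val hb] at this

/-- The arc bound for the straight strand. -/
theorem arc_same (h : DR N st p l) (Q : Λ → Prop) [DecidablePred Q] (lo hi : ℕ) (hhi : hi ≤ N)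
    (hlt : lo < hi) (θ : Fin (N + 1) × V → ℝ) (hθ : ∀ z, 0 ≤ θ z ∧ θ z ≤ 1) (a : V)
    (ha : Q (st a)) (τ : ℝ) (h0 : 0 ≤ τ) (h1 : τ < 1)
    (hbd : ∀ i : ℕ, lo < i → i < hi → ∀ v, st v = st a → θ (fn N i, v) ≤ τ)
    (π : Equiv.Perm (Fin (N + 1) × V))
    (hπ : law (closeG (fun g => SS N st Q lo hi (nd g)) l) (base N) π ≠ 0) :
    ((1 / 4) * ((1 - τ) / (1 + τ)) ^ (hi - lo)) * Zp π θ ≤
      Zf π θ (fn N hi, a) (fn N lo, aR N (TT (In N st) l) hi a (hi - lo)) := by
  have hstep := h.step Q lo hi hhi π hπ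
  have := arc_use arcStmt π θ hθ ((ringStmt _ π θ hθ).1).le
    (fun j => (fn N (hi - j), aR N (TT (In N st) l) hi a j)) (hi - lo - 1) (hi - lo) (by omega)
    (fun j hj => by
      have hs := hstep (hi - (j + 1)) (by omega) (by omega)
        (aR N (TT (In N st) l) hi a j) (by rw [h.aR_site]; exact ha)
      have e : hi - (j + 1) + 1 = hi - j := by omega
      rw [e, h.aR_step] at hs
      exact hs)
    (fun i hi' j hj' hh => by
      have e1 := congrArg Prod.fst hh
      have := fn_ne (by omega) (by omega) e1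
      omega)
    τ h0 h1
    (fun j hj1 hj2 => hbd _ (by omega) (by omega) _ (h.aR_site hi a j))
  have e0 : hi - 0 = hi := by omega
  have e1 : hi - lo - 1 + 1 = hi - lo := by omega
  have e2 : hi - (hi - lo) = lo := by omega
  simp only [e0, e1, e2] at this
  exact this

/-- The arc bound for the strand with one open gate. -/
theorem arc_hop (h : DR N st p l) (x y : Λ) (hxy : x ≠ y) (lo hi : ℕ) (hhi : hi ≤ N)
    (θ : Fin (N + 1) × V → ℝ) (hθ : ∀ z, 0 ≤ θ z ∧ θ z ≤ 1) (a b : V)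
    (ha : st a = x) (hb : st b = y) (τ : ℝ) (h0 : 0 ≤ τ) (h1 : τ < 1)
    (hbd : ∀ i : ℕ, lo < i → i < hi → ∀ v, st v = x ∨ st v = y → θ (fn N i, v) ≤ τ)
    (n : ℕ) (hn1 : lo ≤ n) (hn2 : n < hi)
    (j : ℕ) (g : (Fin (N + 1) × V) × (Fin (N + 1) × V) × ℝ) (hg : l[j]? = some g)
    (hgn : g.1.1 = fn N n)
    (hgg : (g.1.2 = aR N (TT (In N st) l) hi a (hi - n) ∧
        g.2.1.2 = bR N (TT (In N st) l) lo b (n - lo)) ∨
      (g.1.2 = bR N (TT (In N st) l) lo b (n - lo) ∧
        g.2.1.2 = aR N (TT (In N st) l) hi a (hi - n)))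
    (π : Equiv.Perm (Fin (N + 1) × V))
    (hπ : law (pat (fun g => SS N st (fun q => q = x ∨ q = y) lo hi (nd g)) l j)
      (base N) π ≠ 0) :
    ((1 / 4) * ((1 - τ) / (1 + τ)) ^ (hi - lo)) * Zp π θ ≤
      Zf π θ (fn N hi, a) (fn N lo, b) := by
  set T := TT (In N st) l with hT
  set A := aR N T hi a with hA
  set B := bR N T lo b with hB
  have hAs : ∀ r, st (A r) = x := fun r => by rw [hA, h.aR_site, ha]
  have hBs : ∀ r, st (B r) = y := fun r => by rw [hB, h.bR_site, hb]
  have hgl : g ∈ l := List.mem_of_getElem? hg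
  have hg2 : g.2.1.1 = fn N n := by rw [← h.lay g hgl, hgn]
  have hvn := cast_val (N := N) (n := n) (by omega)
  have hgI : ¬ In N st (nd g) := by
    intro hI
    have : st g.1.2 = st g.2.1.2 := hI
    rcases hgg with ⟨e1, e2⟩ | ⟨e1, e2⟩
    · rw [e1, e2, hAs, hBs] at this
      exact hxy this
    · rw [e1, e2, hAs, hBs] at this
      exact hxy this.symm
  have hW1 : Wd N st (fun q => q = x ∨ q = y) lo hi g.1 := by
    refine ⟨by rw [hgn, hvn]; exact hn1, by rw [hgn, hvn]; exact hn2, ?_⟩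
    rcases hgg with ⟨e1, e2⟩ | ⟨e1, e2⟩
    · left; rw [e1, hAs]
    · right; rw [e1, hBs]
  have hW2 : Wd N st (fun q => q = x ∨ q = y) lo hi g.2.1 := by
    refine ⟨by rw [hg2, hvn]; exact hn1, by rw [hg2, hvn]; exact hn2, ?_⟩
    rcases hgg with ⟨e1, e2⟩ | ⟨e1, e2⟩
    · right; rw [e2, hBs]
    · left; rw [e2, hAs]
  have hstep := h.step_one (fun q => q = x ∨ q = y) lo hi hhi j g hg hgI hW1 hW2 π hπ
  rw [← hT] at hstep
  have hswap : Equiv.swap g.1 g.2.1 (fn N n, A (hi - n)) = (fn N n, B (n - lo)) := by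
    rcases hgg with ⟨e1, e2⟩ | ⟨e1, e2⟩
    · have e3 : g.1 = (fn N n, A (hi - n)) := Prod.ext hgn e1
      have e4 : g.2.1 = (fn N n, B (n - lo)) := Prod.ext hg2 e2
      rw [e3, e4, Equiv.swap_apply_left]
    · have e3 : g.1 = (fn N n, B (n - lo)) := Prod.ext hgn e1
      have e4 : g.2.1 = (fn N n, A (hi - n)) := Prod.ext hg2 e2
      rw [e3, e4, Equiv.swap_apply_right]
  have := arc_use arcStmt π θ hθ ((ringStmt _ π θ hθ).1).le
    (fun i => if i < hi - n then (fn N (hi - i), A i) else (fn N (hi - i), B (hi - i - lo)))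
    (hi - lo - 1) (hi - lo) (by omega)
    (fun i hi' => by
      by_cases c1 : i + 1 < hi - n
      · have hs := hstep (hi - (i + 1)) (by omega) (by omega) (A i) (Or.inl (hAs i))
        have e : hi - (i + 1) + 1 = hi - i := by omega
        have hne : ¬ g.1.1 = fn N (hi - (i + 1)) := by
          intro he
          rw [hgn] at he
          have := fn_ne (by omega) (by omega) he
          omega
        rw [e, if_neg hne, hA, hT, h.aR_step] at hs
        simp only [if_pos c1, if_pos (show i < hi - n by omega)]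
        exact hs
      · by_cases c2 : i < hi - n
        · have e5 : hi - n = i + 1 := by omega
          have e6 : hi - (i + 1) = n := by omega
          have hs := hstep n hn1 hn2 (A i) (Or.inl (hAs i))
          have e : n + 1 = hi - i := by omega
          rw [e, if_pos hgn] at hs
          have hst := h.aR_step hi a i
          rw [← hT, ← hA, e6] at hst
          rw [hst, ← e5, hswap] at hs
          simp only [if_neg c1, if_pos c2, e6]
          exact hs
        · have hs := hstep (hi - (i + 1)) (by omega) (by omega) (B (hi - i - lo)) (Or.inr (hBs _))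
          have e : hi - (i + 1) + 1 = hi - i := by omega
          have hne : ¬ g.1.1 = fn N (hi - (i + 1)) := by
            intro he
            rw [hgn] at he
            have := fn_ne (by omega) (by omega) he
            omega
          have hst := h.bR_step lo b (hi - (i + 1) - lo)
          have e7 : lo + (hi - (i + 1) - lo) = hi - (i + 1) := by omega
          have e8 : hi - (i + 1) - lo + 1 = hi - i - lo := by omega
          rw [e7, e8, ← hT, ← hB] at hst
          rw [e, if_neg hne, hst] at hs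
          simp only [if_neg c1, if_neg c2]
          exact hs)
    (fun i hi' j hj' hh => by
      have e1 := congrArg Prod.fst hh
      have e2 : fn N (hi - i) = fn N (hi - j) := by
        split_ifs at e1 <;> exact e1
      have := fn_ne (by omega) (by omega) e2
      omega)
    τ h0 h1
    (fun i hi1 hi2 => by
      by_cases c2 : i < hi - n
      · simp only [if_pos c2]
        exact hbd _ (by omega) (by omega) _ (Or.inl (hAs i))
      · simp only [if_neg c2]
        exact hbd _ (by omega) (by omega) _ (Or.inr (hBs _)))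
  have c0 : 0 < hi - n := by omega
  have e1 : hi - lo - 1 + 1 = hi - lo := by omega
  have c3 : ¬ hi - lo < hi - n := by omega
  have e2 : hi - (hi - lo) = lo := by omega
  have e3 : lo - lo = 0 := by omega
  have e0 : hi - 0 = hi := by omega
  simp only [e1, if_pos c0, if_neg c3, e2, e3, e0] at this
  exact this

theorem ratio_nn {τ : ℝ} (h0 : 0 ≤ τ) (h1 : τ < 1) : 0 ≤ (1 - τ) / (1 + τ) :=
  div_nonneg (by linarith) (by linarith)

theorem ev_le_of (l : List ((Fin (N + 1) × V) × (Fin (N + 1) × V) × ℝ))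
    (hl : ∀ g ∈ l, 0 ≤ g.2.2 ∧ g.2.2 ≤ 1) (σ : Equiv.Perm (Fin (N + 1) × V)) (c : ℝ)
    (F G : Equiv.Perm (Fin (N + 1) × V) → ℝ) (h : ∀ π, law l σ π ≠ 0 → c * G π ≤ F π) :
    c * ev l σ G ≤ ev l σ F := by
  rw [← Geo.ev_smul]
  exact ev_mono_supp hl σ _ _ h

/-- Contact bound for derandomised circuits. -/
theorem same_DR (h : DR N st p l) (a : V) (lo hi : ℕ) (hhi : hi ≤ N)
    (hlt : lo < hi) (θ : Fin (N + 1) × V → ℝ) (hθ : ∀ z, 0 ≤ θ z ∧ θ z ≤ 1)
    (τ : ℝ) (h0 : 0 ≤ τ) (h1 : τ < 1)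
    (hbd : ∀ i : ℕ, lo < i → i < hi → ∀ v, st v = st a → θ (fn N i, v) ≤ τ) (D : ℕ)
    (hD : ((l.map nd).countP fun e => SS N st (fun q => q = st a) lo hi e) ≤ D) :
    ((1 / 4) * ((1 - τ) / (1 + τ)) ^ (hi - lo) * ((1 - p) / (1 + p)) ^ D) *
      ev l (base N) (fun π => Zp π θ) ≤
    ev l (base N) fun π => ∑ v ∈ univ.filter (fun v => st v = st a),
      Zf π θ (fn N hi, a) (fn N lo, v) := by
  set Q : Λ → Prop := fun q => q = st a with hQ
  set S : (Fin (N + 1) × V) × (Fin (N + 1) × V) × ℝ → Prop :=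
    fun g => SS N st Q lo hi (nd g) with hS
  set F : Equiv.Perm (Fin (N + 1) × V) → ℝ := fun π => ∑ v ∈ univ.filter (fun v => st v = st a),
      Zf π θ (fn N hi, a) (fn N lo, v) with hF
  have hne : ∀ v : V, (fn N hi, a) ≠ (fn N lo, v) := by
    intro v he
    have := fn_ne (by omega) (by omega) (congrArg Prod.fst he)
    omega
  have hZf0 : ∀ π v, 0 ≤ Zf π θ (fn N hi, a) (fn N lo, v) := fun π v =>
    (arcStmt _ π θ hθ _ _ (hne v)).1
  have hF0 : ∀ π, 0 ≤ F π := fun π => Finset.sum_nonneg fun v _ => hZf0 π v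
  have hlow := close_low S (base N) h.ok F hF0
  have hup := close_up S (base N) h.ok _ (two_Zp ringStmt hθ)
  rw [prod_S h Q lo hi (fun t => 1 - t)] at hlow
  rw [prod_S h Q lo hi (fun t => 1 + t)] at hup
  set m := (l.map nd).countP fun e => SS N st Q lo hi e with hm
  have hok' := Loc.closeG_ok (S := S) h.ok
  have hmid : ((1 / 4) * ((1 - τ) / (1 + τ)) ^ (hi - lo)) *
      ev (closeG S l) (base N) (fun π => Zp π θ) ≤ ev (closeG S l) (base N) F := by
    refine ev_le_of _ hok' _ _ _ _ fun π hπ => ?_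
    refine le_trans (arc_same h Q lo hi hhi hlt θ hθ a rfl τ h0 h1 hbd π hπ) ?_
    exact Finset.single_le_sum (f := fun v => Zf π θ (fn N hi, a) (fn N lo, v))
      (fun v _ => hZf0 π v) (by simp [h.aR_site])
  have hp0 := h.p0
  have hp1 := h.p1
  have hcl0 : 0 ≤ ev (closeG S l) (base N) (fun π => Zp π θ) :=
    ev_nonneg _ hok' fun π => (ringStmt _ π θ hθ).1.le
  have hr := ratio_nn h0 h1
  have hq : ((1 - p) / (1 + p)) ^ D ≤ (1 - p) ^ m / (1 + p) ^ m := by
    rw [← div_pow]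
    exact pow_le_pow_of_le_one (ratio_nn hp0 (by linarith))
      (by rw [div_le_one (by linarith)]; linarith) hD
  have hP2 : 0 < (1 + p) ^ m := pow_pos (by linarith) m
  have hP1 : 0 ≤ (1 - p) ^ m := pow_nonneg (by linarith) m
  have hc : 0 ≤ (1 / 4) * ((1 - τ) / (1 + τ)) ^ (hi - lo) := by positivity
  calc ((1 / 4) * ((1 - τ) / (1 + τ)) ^ (hi - lo) * ((1 - p) / (1 + p)) ^ D) *
      ev l (base N) (fun π => Zp π θ)
      ≤ ((1 / 4) * ((1 - τ) / (1 + τ)) ^ (hi - lo) * ((1 - p) ^ m / (1 + p) ^ m)) *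
        ((1 + p) ^ m * ev (closeG S l) (base N) (fun π => Zp π θ)) := by
        refine mul_le_mul (mul_le_mul_of_nonneg_left hq hc) hup
          (ev_nonneg _ h.ok fun π => (ringStmt _ π θ hθ).1.le)
          (mul_nonneg hc (div_nonneg hP1 hP2.le))
    _ = (1 - p) ^ m * (((1 / 4) * ((1 - τ) / (1 + τ)) ^ (hi - lo)) *
          ev (closeG S l) (base N) (fun π => Zp π θ)) := by
        field_simp
    _ ≤ (1 - p) ^ m * ev (closeG S l) (base N) F := mul_le_mul_of_nonneg_left hmid hP1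
    _ ≤ ev l (base N) F := hlow

/-- The gates through the two strands. -/
def Hop (N lo hi : ℕ) (A B : ℕ → V) (e : (Fin (N + 1) × V) × (Fin (N + 1) × V)) : Prop :=
  (lo ≤ (e.1.1 : ℕ) ∧ (e.1.1 : ℕ) < hi) ∧ e.1.1 = e.2.1 ∧
    ((e.1.2 = A (hi - (e.1.1 : ℕ)) ∧ e.2.2 = B ((e.1.1 : ℕ) - lo)) ∨
    (e.1.2 = B ((e.1.1 : ℕ) - lo) ∧ e.2.2 = A (hi - (e.1.1 : ℕ))))

instance (N lo hi : ℕ) (A B : ℕ → V) : DecidablePred (Hop (V := V) N lo hi A B) := fun e => by
  unfold Hop; infer_instance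

/-- Neighbour bound for derandomised circuits. -/
theorem hop_DR (h : DR N st p l) (a b : V) (hab : st a ≠ st b) (lo hi : ℕ) (hhi : hi ≤ N)
    (hlt : lo < hi) (θ : Fin (N + 1) × V → ℝ) (hθ : ∀ z, 0 ≤ θ z ∧ θ z ≤ 1)
    (τ : ℝ) (h0 : 0 ≤ τ) (h1 : τ < 1)
    (hbd : ∀ i : ℕ, lo < i → i < hi → ∀ v, st v = st a ∨ st v = st b → θ (fn N i, v) ≤ τ) (D : ℕ)
    (hD : ((l.map nd).countP fun e => SS N st (fun q => q = st a ∨ q = st b) lo hi e) ≤ D)
    (hedge : ∀ n, lo ≤ n → n < hi → ∀ a' b', st a' = st a → st b' = st b →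
      ((fn N n, a'), (fn N n, b')) ∈ l.map nd ∨ ((fn N n, b'), (fn N n, a')) ∈ l.map nd) :
    ((1 / 8) * ((1 - τ) / (1 + τ)) ^ (hi - lo) * (p * ((hi - lo : ℕ) : ℝ)) *
      ((1 - p) / (1 + p)) ^ D) * ev l (base N) (fun π => Zp π θ) ≤
    ev l (base N) fun π => Zf π θ (fn N hi, a) (fn N lo, b) := by
  set Q : Λ → Prop := fun q => q = st a ∨ q = st b with hQ
  set S : (Fin (N + 1) × V) × (Fin (N + 1) × V) × ℝ → Prop :=
    fun g => SS N st Q lo hi (nd g) with hS
  set F : Equiv.Perm (Fin (N + 1) × V) → ℝ := fun π => Zf π θ (fn N hi, a) (fn N lo, b) with hF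
  have hne : (fn N hi, a) ≠ (fn N lo, b) := by
    intro he
    have := fn_ne (by omega) (by omega) (congrArg Prod.fst he)
    omega
  have hF0 : ∀ π, 0 ≤ F π := fun π => (arcStmt _ π θ hθ _ _ hne).1
  set T := TT (In N st) l with hT
  -- the gates through the two strands
  set H' : (Fin (N + 1) × V) × (Fin (N + 1) × V) → Prop :=
    Hop N lo hi (aR N T hi a) (bR N T lo b) with hH'
  have hHS : ∀ g : (Fin (N + 1) × V) × (Fin (N + 1) × V) × ℝ, H' (nd g) → S g := by
    rintro g ⟨⟨e1, e2⟩, e3, e4⟩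
    have hA := fun r => h.aR_site hi a r
    have hB := fun r => h.bR_site lo b r
    rw [← hT] at hA hB
    rcases e4 with ⟨e5, e6⟩ | ⟨e5, e6⟩
    · refine ⟨fun hI => hab ?_, Or.inl ⟨e1, e2, Or.inl ?_⟩⟩
      · have : st (nd g).1.2 = st (nd g).2.2 := hI
        rwa [e5, e6, hA, hB] at this
      · rw [e5, hA]
    · refine ⟨fun hI => hab ?_, Or.inl ⟨e1, e2, Or.inr ?_⟩⟩
      · have : st (nd g).1.2 = st (nd g).2.2 := hI
        rw [e5, e6, hA, hB] at this
        exact this.symm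
      · rw [e5, hB]
  have hop := open_low S (fun g => H' (nd g)) (base N) h.ok hHS F hF0
  have hup := close_up S (base N) h.ok _ (two_Zp ringStmt hθ)
  rw [prod_S h Q lo hi (fun t => 1 - t)] at hop
  rw [prod_S h Q lo hi (fun t => 1 + t)] at hup
  set m := (l.map nd).countP fun e => SS N st Q lo hi e with hm
  have hok' := Loc.closeG_ok (S := S) h.ok
  have hp0 := h.p0
  have hp1 := h.p1
  have hcl0 : 0 ≤ ev (closeG S l) (base N) (fun π => Zp π θ) :=
    ev_nonneg _ hok' fun π => (ringStmt _ π θ hθ).1.le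
  have hr := ratio_nn h0 h1
  set c1 : ℝ := (1 / 4) * ((1 - τ) / (1 + τ)) ^ (hi - lo) with hc1
  have hc10 : 0 ≤ c1 := by positivity
  set C : ℝ := p * (c1 * ((1 / 2) * ev (closeG S l) (base N) (fun π => Zp π θ))) with hC
  have hC0 : 0 ≤ C := by positivity
  have hosum := osum_ge S (fun g => H' (nd g)) l (base N) F C (fun j g hg hH => by
    have hSg := hHS g hH
    have hgl : g ∈ l := List.mem_of_getElem? hg
    have hgp : g.2.2 = p := h.hout g hgl hSg.1
    rw [hgp, hC]
    refine mul_le_mul_of_nonneg_left ?_ hp0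
    have hu := open_up S (base N) h.ok j _ (two_Zp ringStmt hθ)
      (fun π => (ringStmt _ π θ hθ).1.le)
    have hokp := pat_ok (S := S) h.ok j
    obtain ⟨⟨e1, e2⟩, e3, e4⟩ := hH
    have hmid : c1 * ev (pat S l j) (base N) (fun π => Zp π θ) ≤ ev (pat S l j) (base N) F := by
      refine ev_le_of _ hokp _ _ _ _ fun π hπ => ?_
      exact arc_hop h (st a) (st b) hab lo hi hhi θ hθ a b rfl rfl τ h0 h1 hbd
        ((nd g).1.1 : ℕ) e1 e2 j g hg (fn_val _).symm e4 π hπ
    refine le_trans (mul_le_mul_of_nonneg_left ?_ hc10) hmid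
    linarith)
  have hcount : ((hi - lo : ℕ) : ℝ) ≤ ((l.countP fun g => H' (nd g) : ℕ) : ℝ) := by
    have hcc : (hi - lo) ≤ (l.map nd).countP fun e => H' e := by
      -- one gate in each layer
      have hex : ∀ n, lo ≤ n → n < hi → ∃ e ∈ l.map nd, H' e ∧ e.1.1 = fn N n := by
        intro n hn1 hn2
        have hv := cast_val (N := N) (n := n) (by omega)
        have hA := h.aR_site hi a (hi - n)
        have hB := h.bR_site lo b (n - lo)
        rcases hedge n hn1 hn2 _ _ hA hB with he | he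
        · refine ⟨_, he, ⟨⟨?_, ?_⟩, rfl, Or.inl ⟨?_, ?_⟩⟩, rfl⟩
          · simp only [hv]; exact hn1
          · simp only [hv]; exact hn2
          · simp only [hv]; rfl
          · simp only [hv]; rfl
        · refine ⟨_, he, ⟨⟨?_, ?_⟩, rfl, Or.inr ⟨?_, ?_⟩⟩, rfl⟩
          · simp only [hv]; exact hn1
          · simp only [hv]; exact hn2
          · simp only [hv]; rfl
          · simp only [hv]; rfl
      rw [List.countP_eq_length_filter]
      have hfin : (Finset.Ico lo hi).card ≤ ((l.map nd).filter fun e => H' e).toFinset.card := by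
        have : Nonempty V := ⟨a⟩
        choose! f hf using hex
        refine Finset.card_le_card_of_injOn f (fun n hn => ?_) (fun n hn n' hn' he => ?_)
        · rw [Finset.coe_Ico, Set.mem_Ico] at hn
          obtain ⟨h3, h4, _⟩ := hf n hn.1 hn.2
          rw [List.coe_toFinset, Set.mem_ofPred_eq, List.mem_filter]
          exact ⟨h3, decide_eq_true h4⟩
        · rw [Finset.coe_Ico, Set.mem_Ico] at hn hn'
          obtain ⟨_, _, h5⟩ := hf n hn.1 hn.2
          obtain ⟨_, _, h6⟩ := hf n' hn'.1 hn'.2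
          rw [he, h6] at h5
          exact (fn_ne (by omega) (by omega) h5).symm
      rw [Nat.card_Ico] at hfin
      exact le_trans hfin (List.toFinset_card_le _)
    rw [List.countP_map] at hcc
    exact_mod_cast hcc
  have hq : ((1 - p) / (1 + p)) ^ D ≤ (1 - p) ^ m / (1 + p) ^ m := by
    rw [← div_pow]
    exact pow_le_pow_of_le_one (ratio_nn hp0 (by linarith))
      (by rw [div_le_one (by linarith)]; linarith) hD
  have hP2 : 0 < (1 + p) ^ m := pow_pos (by linarith) m
  have hP1 : 0 ≤ (1 - p) ^ m := pow_nonneg (by linarith) m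
  have hc8 : 0 ≤ (1 / 8) * ((1 - τ) / (1 + τ)) ^ (hi - lo) * (p * ((hi - lo : ℕ) : ℝ)) := by
    positivity
  calc ((1 / 8) * ((1 - τ) / (1 + τ)) ^ (hi - lo) * (p * ((hi - lo : ℕ) : ℝ)) *
      ((1 - p) / (1 + p)) ^ D) * ev l (base N) (fun π => Zp π θ)
      ≤ ((1 / 8) * ((1 - τ) / (1 + τ)) ^ (hi - lo) * (p * ((hi - lo : ℕ) : ℝ)) *
        ((1 - p) ^ m / (1 + p) ^ m)) *
        ((1 + p) ^ m * ev (closeG S l) (base N) (fun π => Zp π θ)) := by
        refine mul_le_mul (mul_le_mul_of_nonneg_left hq hc8) hup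
          (ev_nonneg _ h.ok fun π => (ringStmt _ π θ hθ).1.le)
          (mul_nonneg hc8 (div_nonneg hP1 hP2.le))
    _ = (1 - p) ^ m * (C * ((hi - lo : ℕ) : ℝ)) := by
        rw [hC, hc1]
        field_simp
        ring
    _ ≤ (1 - p) ^ m * (C * ((l.countP fun g => H' (nd g) : ℕ) : ℝ)) :=
        mul_le_mul_of_nonneg_left (mul_le_mul_of_nonneg_left hcount hC0) hP1
    _ ≤ (1 - p) ^ m * osum S (fun g => H' (nd g)) l (base N) F :=
        mul_le_mul_of_nonneg_left hosum hP1
    _ ≤ ev l (base N) F := hop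

/-! ### The physical circuit -/

theorem countP_or {α : Type} (P Q : α → Prop) [DecidablePred P] [DecidablePred Q] (l : List α) :
    (l.countP fun e => P e ∨ Q e) ≤ (l.countP fun e => P e) + l.countP fun e => Q e := by
  induction l with
  | nil => simp
  | cons e l ih =>
    rw [List.countP_cons, List.countP_cons, List.countP_cons]
    simp only [decide_eq_true_eq]
    split_ifs with c1 c2 c3 <;> first | omega | (exfalso; tauto)

theorem nodes_mem (L1 L2 : List (V × V)) (N : ℕ) (p : ℝ) (n : ℕ) (hn : n < N) (e : V × V)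
    (he : e ∈ L1) : ((fn N n, e.1), (fn N n, e.2)) ∈ (gates (L1 ++ L2) N p).map nd := by
  rw [List.mem_map]
  refine ⟨((fn N n, e.1), (fn N n, e.2), p), ?_, rfl⟩
  unfold gates
  rw [List.mem_flatMap]
  refine ⟨⟨n, hn⟩, List.mem_finRange _, ?_⟩
  rw [List.mem_map]
  refine ⟨e, List.mem_append_left _ he, ?_⟩
  have : (Fin.castSucc (⟨n, hn⟩ : Fin N)) = fn N n := by
    apply Fin.ext
    rw [cast_val (by omega)]
    rfl
  rw [this]

/-- (LS2), contact form: the sum over the copies of the lower node.  `t` is a lower bound of `θ`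
at the lower nodes. -/
theorem contact (st : V → Λ) (L1 L2 : List (V × V)) (h1 : ∀ e ∈ L1, st e.1 ≠ st e.2)
    (h2 : ∀ e ∈ L2, st e.1 = st e.2) (d : ℕ)
    (hd : ∀ x : Λ, (L1.countP fun e => st e.1 = x ∨ st e.2 = x) ≤ d)
    (β : ℝ) (N : ℕ) (hβ : 0 < β) (hβN : β ≤ N)
    (θ : Fin (N + 1) × V → ℝ) (hθ : ∀ z, 0 ≤ θ z ∧ θ z ≤ 1) (a : V) (k k' : Fin (N + 1))
    (hkk : k < k') (τ t : ℝ) (hτ0 : 0 ≤ τ) (hτ1 : τ < 1) (ht : 0 ≤ t)
    (hbd : ∀ i, k < i → i < k' → ∀ v, st v = st a → θ (i, v) ≤ τ)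
    (htb : ∀ v, st v = st a → t ≤ θ (k, v)) :
    θ (k', a) * t * ((1 / 4) *
      (((1 - β / (2 * N)) / (1 + β / (2 * N))) ^ (d * ((k' : ℕ) - k)) *
        ((1 - τ) / (1 + τ)) ^ ((k' : ℕ) - k))) ≤
      ∑ v ∈ univ.filter (fun v => st v = st a), cc (phys (L1 ++ L2) β N) θ (k', a) (k, v) := by
  have hN : (0 : ℝ) < N := lt_of_lt_of_le hβ hβN
  set p : ℝ := β / (2 * N) with hp
  have hp0 : 0 ≤ p := by positivity
  have hp1 : p ≤ 1 / 2 := by
    rw [hp, div_le_div_iff₀ (by positivity) (by norm_num)]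
    linarith
  have hok := (gates_ok (L := L1 ++ L2) (N := N) hp0 hp1).one
  set lo : ℕ := (k : ℕ) with hlo
  set hi : ℕ := (k' : ℕ) with hhi
  have hlt : lo < hi := hkk
  have hhiN : hi ≤ N := by have := k'.2; omega
  have hk : fn N lo = k := fn_val k
  have hk' : fn N hi = k' := fn_val k'
  have hZpos := ev_pos ringStmt hok (base (V := V) N) θ hθ
  set c : ℝ := (1 / 4) * ((1 - τ) / (1 + τ)) ^ (hi - lo) *
    ((1 - p) / (1 + p)) ^ (d * (hi - lo)) with hc
  have main := derand (In N st) (base N) p (gates (L1 ++ L2) N p) hok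
    (fun g hg _ => gates_p g hg)
    (fun π => ∑ v ∈ univ.filter (fun v => st v = st a), Zf π θ (fn N hi, a) (fn N lo, v))
    (fun π => c * Zp π θ) (fun l' e e1 e2 => by
      have hDR : DR N st p l' :=
        ⟨by rw [e]; exact good_gates N st L1 L2 p h1 h2, hp0, hp1, e1, e2⟩
      rw [Geo.ev_smul]
      refine same_DR hDR a lo hi hhiN hlt θ hθ τ hτ0 hτ1 (fun i hi1 hi2 v hv => ?_) _ ?_
      · refine hbd _ ?_ ?_ v hv
        · rw [Fin.lt_def, cast_val (by omega)]; exact hi1
        · rw [Fin.lt_def, cast_val (by omega)]; exact hi2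
      · rw [e]
        exact countP_SS N st (fun q => q = st a) lo hi L1 L2 p h2 d (hd (st a)))
  rw [Geo.ev_smul] at main
  have hne : ∀ v : V, (k', a) ≠ (k, v) := by
    intro v he
    have := congrArg Prod.fst he
    exact absurd this (ne_of_gt hkk)
  have hterm : ∀ v ∈ univ.filter (fun v => st v = st a),
      θ (k', a) * t * ((ev (gates (L1 ++ L2) N p) (base N) fun π => Zf π θ (k', a) (k, v)) /
        (ev (gates (L1 ++ L2) N p) (base N) fun π => Zp π θ)) ≤
      cc (phys (L1 ++ L2) β N) θ (k', a) (k, v) := by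
    intro v hv
    have hv' : st v = st a := (Finset.mem_filter.1 hv).2
    unfold phys
    rw [cc_eq fourierStmt _ _ θ _ _ (hne v), mul_div_assoc]
    refine mul_le_mul_of_nonneg_right (mul_le_mul_of_nonneg_left (htb v hv') (hθ _).1) ?_
    exact div_nonneg (ev_nonneg _ hok fun π => (arcStmt _ π θ hθ _ _ (hne v)).1) hZpos.le
  refine le_trans ?_ (Finset.sum_le_sum hterm)
  rw [← Finset.mul_sum, ← Finset.sum_div]
  have hsum : (∑ v ∈ univ.filter (fun v => st v = st a),
      ev (gates (L1 ++ L2) N p) (base N) fun π => Zf π θ (k', a) (k, v)) =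
      ev (gates (L1 ++ L2) N p) (base N) fun π => ∑ v ∈ univ.filter (fun v => st v = st a),
        Zf π θ (fn N hi, a) (fn N lo, v) := by
    unfold ev
    rw [Finset.sum_comm]
    refine Finset.sum_congr rfl fun π _ => ?_
    rw [Finset.mul_sum, hk, hk']
  rw [hsum]
  refine mul_le_mul_of_nonneg_left ?_ (mul_nonneg (hθ _).1 ht)
  rw [le_div_iff₀ hZpos]
  refine le_trans (le_of_eq ?_) main
  rw [hc]
  ring

/-- (LS1): neighbouring sites, all pairs of copies. -/
theorem inter (st : V → Λ) (L1 L2 : List (V × V)) (h1 : ∀ e ∈ L1, st e.1 ≠ st e.2)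
    (h2 : ∀ e ∈ L2, st e.1 = st e.2) (d : ℕ)
    (hd : ∀ x : Λ, (L1.countP fun e => st e.1 = x ∨ st e.2 = x) ≤ d)
    (β : ℝ) (N : ℕ) (hβ : 0 < β) (hβN : β ≤ N)
    (θ : Fin (N + 1) × V → ℝ) (hθ : ∀ z, 0 ≤ θ z ∧ θ z ≤ 1) (a b : V) (hab : st a ≠ st b)
    (hedge : ∀ a' b', st a' = st a → st b' = st b → (a', b') ∈ L1 ∨ (b', a') ∈ L1)
    (k k' : Fin (N + 1)) (hkk : k < k') (τ : ℝ) (hτ0 : 0 ≤ τ) (hτ1 : τ < 1)
    (hbd : ∀ i, k < i → i < k' → ∀ v, st v = st a ∨ st v = st b → θ (i, v) ≤ τ) :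
    θ (k', a) * θ (k, b) * ((1 / 8) * (β / (2 * N) * (((k' : ℕ) - k : ℕ) : ℝ)) *
      (((1 - β / (2 * N)) / (1 + β / (2 * N))) ^ (2 * d * ((k' : ℕ) - k)) *
        ((1 - τ) / (1 + τ)) ^ ((k' : ℕ) - k))) ≤
      cc (phys (L1 ++ L2) β N) θ (k', a) (k, b) := by
  have hN : (0 : ℝ) < N := lt_of_lt_of_le hβ hβN
  set p : ℝ := β / (2 * N) with hp
  have hp0 : 0 ≤ p := by positivity
  have hp1 : p ≤ 1 / 2 := by
    rw [hp, div_le_div_iff₀ (by positivity) (by norm_num)]
    linarith
  have hok := (gates_ok (L := L1 ++ L2) (N := N) hp0 hp1).one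
  set lo : ℕ := (k : ℕ) with hlo
  set hi : ℕ := (k' : ℕ) with hhi
  have hlt : lo < hi := hkk
  have hhiN : hi ≤ N := by have := k'.2; omega
  have hk : fn N lo = k := fn_val k
  have hk' : fn N hi = k' := fn_val k'
  have hZpos := ev_pos ringStmt hok (base (V := V) N) θ hθ
  set c : ℝ := (1 / 8) * ((1 - τ) / (1 + τ)) ^ (hi - lo) * (p * ((hi - lo : ℕ) : ℝ)) *
    ((1 - p) / (1 + p)) ^ (2 * d * (hi - lo)) with hc
  have hd2 : (L1.countP fun e => (st e.1 = st a ∨ st e.1 = st b) ∨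
      (st e.2 = st a ∨ st e.2 = st b)) ≤ 2 * d := by
    have h3 := countP_or (fun e : V × V => st e.1 = st a ∨ st e.2 = st a)
      (fun e : V × V => st e.1 = st b ∨ st e.2 = st b) L1
    have h6 : (L1.countP fun e => (st e.1 = st a ∨ st e.1 = st b) ∨
        (st e.2 = st a ∨ st e.2 = st b)) = L1.countP fun e =>
        ((st e.1 = st a ∨ st e.2 = st a) ∨ (st e.1 = st b ∨ st e.2 = st b)) := by
      refine List.countP_congr fun e _ => ?_
      simp only [decide_eq_true_eq]
      tauto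
    rw [h6]
    have h4 := hd (st a)
    have h5 := hd (st b)
    omega
  have main := derand (In N st) (base N) p (gates (L1 ++ L2) N p) hok
    (fun g hg _ => gates_p g hg)
    (fun π => Zf π θ (fn N hi, a) (fn N lo, b))
    (fun π => c * Zp π θ) (fun l' e e1 e2 => by
      have hDR : DR N st p l' :=
        ⟨by rw [e]; exact good_gates N st L1 L2 p h1 h2, hp0, hp1, e1, e2⟩
      rw [Geo.ev_smul]
      refine hop_DR hDR a b hab lo hi hhiN hlt θ hθ τ hτ0 hτ1 (fun i hi1 hi2 v hv => ?_) _ ?_ ?_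
      · refine hbd _ ?_ ?_ v hv
        · rw [Fin.lt_def, cast_val (by omega)]; exact hi1
        · rw [Fin.lt_def, cast_val (by omega)]; exact hi2
      · rw [e]
        exact countP_SS N st (fun q => q = st a ∨ q = st b) lo hi L1 L2 p h2 (2 * d) hd2
      · intro n _ hn2 a' b' ha' hb'
        rw [e]
        rcases hedge a' b' ha' hb' with he | he
        · exact Or.inl (nodes_mem L1 L2 N p n (by omega) _ he)
        · exact Or.inr (nodes_mem L1 L2 N p n (by omega) _ he))
  rw [Geo.ev_smul] at main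
  have hne : (k', a) ≠ (k, b) := by
    intro he
    have := congrArg Prod.fst he
    exact absurd this (ne_of_gt hkk)
  unfold phys
  rw [cc_eq fourierStmt _ _ θ _ _ hne, mul_div_assoc]
  refine mul_le_mul_of_nonneg_left ?_ (mul_nonneg (hθ _).1 (hθ _).1)
  rw [le_div_iff₀ hZpos]
  rw [hk, hk'] at main
  refine le_trans (le_of_eq ?_) main
  rw [hc]
  ring

end

end Vale.Agent.P361.LRO.GenS.LocS
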