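import Vale.Agent.P361.LRO.GenS.SlotsDefs
import Vale.Agent.P361.LRO.GenS.Tie
import Vale.Agent.P361.LRO.SR.Good
import Vale.Agent.P361.LRO.Net.MLoc

/-!
P361 LRO, all spins: local information on the slots network.
-/

namespace Vale.Agent.P361.LRO.GenS

open Finset _root_.P361.LRO Vale.Agent.P361.LRO

noncomputable section

theorem isLaw_phys'' {V : Type} [Fintype V] [DecidableEq V] (L : List (V × V)) {β : ℝ}
    (hβ : 0 ≤ β) {N : ℕ} (hN : β ≤ N) : IsLaw (phys L β N) := by
  refine ⟨gates L N (β / (2 * N)), base N, ?_, rfl⟩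
  intro g hg
  unfold gates at hg
  rw [List.mem_flatMap] at hg
  obtain ⟨k, _, hk⟩ := hg
  rw [List.mem_map] at hk
  obtain ⟨e, _, rfl⟩ := hk
  refine ⟨by positivity, ?_⟩
  by_cases hN0 : (N : ℝ) = 0
  · rw [hN0]; simp
  · have hNp : (0:ℝ) < N := lt_of_le_of_ne (Nat.cast_nonneg N) (Ne.symm hN0)
    rw [div_le_div_iff₀ (by positivity) (by norm_num)]
    linarith

theorem blk_memS {V : Type} [Fintype V] [DecidableEq V] {K : ℝ} (hK : 0 ≤ K) (b : Finset V)
    (x : V) : 0 ≤ blk K b x ∧ blk K b x ≤ 1 := by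
  unfold blk
  split_ifs
  · have h0 : 0 ≤ K / (2 * b.card) := by positivity
    refine ⟨?_, (Real.tanh_lt_one _).le⟩
    rw [Real.tanh_eq_sinh_div_cosh]
    exact div_nonneg (Real.sinh_nonneg_iff.2 h0) (Real.cosh_pos _).le
  · norm_num

/-- Lags of slots. -/
theorem slot_lag {s N W : ℕ} {k l : Fin (N + 1)} {i j : Fin s} (hk : k ≠ 0) (hl : l ≠ 0)
    (h1 : (slotL s N k i : ℕ) + W * s ≤ slotL s N l j)
    (h2 : (slotL s N l j : ℕ) ≤ slotL s N k i + 3 * (W * s)) :
    (k : ℕ) + W ≤ l ∧ (l : ℕ) ≤ k + 3 * W := by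
  rw [slotL_val hk, slotL_val hl] at h1 h2
  have hk1 : 1 ≤ (k : ℕ) := Nat.one_le_iff_ne_zero.2 fun h => hk (Fin.ext h)
  have hl1 : 1 ≤ (l : ℕ) := Nat.one_le_iff_ne_zero.2 fun h => hl (Fin.ext h)
  have hs : 0 < s := Nat.lt_of_le_of_lt (Nat.zero_le _) i.2
  have hi := i.2
  have hj := j.2
  obtain ⟨k', hk'⟩ : ∃ k', (k : ℕ) = k' + 1 := ⟨k - 1, by omega⟩
  obtain ⟨l', hl'⟩ : ∃ l', (l : ℕ) = l' + 1 := ⟨l - 1, by omega⟩
  rw [hk', hl'] at h1 h2 ⊢
  rw [Nat.add_sub_cancel, Nat.add_sub_cancel] at h1 h2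
  constructor
  · by_contra hc
    have h3 : l' + 1 ≤ k' + W := by omega
    have h4 : (l' + 1) * s ≤ (k' + W) * s := Nat.mul_le_mul_right s h3
    rw [Nat.add_mul, Nat.add_mul, one_mul] at h4
    omega
  · by_contra hc
    have h3 : k' + 3 * W + 1 ≤ l' := by omega
    have h4 : (k' + 3 * W + 1) * s ≤ l' * s := Nat.mul_le_mul_right s h3
    rw [Nat.add_mul, Nat.add_mul, one_mul, Nat.mul_assoc] at h4
    omega

theorem slot_lag0 {s N W : ℕ} {k : Fin (N + 1)} {i : Fin s} (hk : k ≠ 0)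
    (h1 : (slotL s N k i : ℕ) ≤ W * s) : (k : ℕ) ≤ W := by
  rw [slotL_val hk] at h1
  have hk1 : 1 ≤ (k : ℕ) := Nat.one_le_iff_ne_zero.2 fun h => hk (Fin.ext h)
  obtain ⟨k', hk'⟩ : ∃ k', (k : ℕ) = k' + 1 := ⟨k - 1, by omega⟩
  rw [hk'] at h1 ⊢
  rw [Nat.add_sub_cancel] at h1
  by_contra hc
  have h3 : W ≤ k' := by omega
  have h4 : W * s ≤ k' * s := Nat.mul_le_mul_right s h3
  omega

theorem blk_hS {n s : ℕ} [NeZero n] (K : ℝ) (b : Finset (Tor n)) :
    blk K (b ×ˢ (univ : Finset (Fin s))) =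
      hS (fun x => if x ∈ b then Real.tanh (K / (2 * (b ×ˢ (univ : Finset (Fin s))).card))
        else 0) := by
  funext z
  show (if z ∈ b ×ˢ (univ : Finset (Fin s)) then _ else _) = if z.1 ∈ b then _ else _
  by_cases hz : z.1 ∈ b
  · rw [if_pos hz, if_pos (by simp [hz])]
  · rw [if_neg hz, if_neg (by simp [hz])]

/-- **Local information on the slots network.** -/
theorem localN_slots (s : ℕ) (hs : 0 < s) (hL : LocStmtS s) :
    ∃ c1 : ℝ, 0 < c1 ∧ ∀ (n N W m M : ℕ) [NeZero n] (β K : ℝ) (b : Finset (Tor n))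
      (h : Tor n → ℝ), 2 ≤ n → 1 ≤ β → 8 * β ≤ N → 0 < W → N = m * W → Ind.Win β m →
      0 ≤ K → b.Nonempty → K ≤ b.card → (∀ x, 0 ≤ h x ∧ h x ≤ 1) →
      Ind.LocalN n (N * s) (W * s) β K c1 b h (cslot n s M β N K b h) := by
  obtain ⟨c0, hc0, hloc⟩ := hL
  have hsr : (1 : ℝ) ≤ s := by exact_mod_cast hs
  have hs0 : (0 : ℝ) < s := by linarith
  refine ⟨c0 / (16 * s), by positivity, ?_⟩
  intro n N W m M _ β K b h hn hβ hN hW hNm hwin hK hb hKb hh
  have hβ0 : (0:ℝ) < β := by linarith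
  have hNp : (0:ℝ) < N := by linarith
  have hβN : β ≤ N := by linarith
  have hbp : (0 : ℝ) < b.card := by exact_mod_cast hb.card_pos
  have hlaw := isLaw_phys'' (edgesS n s M) hβ0.le hβN
  have hG : Net.Good (phys (edgesS n s M) β N) := good_of_isLaw hlaw
  set T : Tor n → ℝ := fun x => if x ∈ b then
    Real.tanh (K / (2 * (b ×ˢ (univ : Finset (Fin s))).card)) else 0 with hTdef
  have hblk : blk K (b ×ˢ (univ : Finset (Fin s))) = hS T := blk_hS K b
  have hT : ∀ x, 0 ≤ T x ∧ T x ≤ 1 := by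
    intro x
    have := blk_memS hK (b ×ˢ (univ : Finset (Fin s))) (x, ⟨0, hs⟩)
    rw [hblk] at this
    exact this
  set θ : Fin (N + 1) × (Tor n × Fin s) → ℝ := th β N (hS h) (hS T) with hθdef
  have hθ : ∀ z, 0 ≤ θ z ∧ θ z ≤ 1 := fun z =>
    ⟨Net.th_nonneg (h := hS h) (T := hS T) hβ0.le (fun x => (hh x.1).1) (fun x => (hT x.1).1) z,
      Net.th_le_one (h := hS h) (T := hS T) hβ0.le hβN (fun x => (hh x.1).2)
        (fun x => (hT x.1).2) z⟩
  obtain ⟨l1, l2⟩ := hloc n M β N h T hn hβ hN hh hT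
  rw [← hθdef] at l1 l2
  have hmW : (N : ℝ) = m * W := by rw [hNm]; push_cast; ring
  have hWp : (0:ℝ) < W := by exact_mod_cast hW
  have hmp : (0:ℝ) < m := by exact_mod_cast hwin.pos
  have hWβ : (W:ℝ) * β / N = β / m := by rw [hmW]; field_simp
  have hcs : ∀ u v, cslot n s M β N K b h u v =
      (1 / (s : ℝ)) * mgC (slotF n s N) (Net.c0 (phys (edgesS n s M) β N) θ) u v := by
    intro u v
    unfold cslot
    rw [hblk]
  have h0nn : ∀ u v, 0 ≤ Net.c0 (phys (edgesS n s M) β N) θ u v := by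
    intro u v
    unfold Net.c0
    split_ifs with huv
    · exact le_rfl
    · exact hG.ccnn _ hθ u v huv
  have h0sy : ∀ u v, Net.c0 (phys (edgesS n s M) β N) θ u v =
      Net.c0 (phys (edgesS n s M) β N) θ v u := by
    intro u v
    unfold Net.c0
    by_cases huv : u = v
    · subst huv; rfl
    · rw [if_neg huv, if_neg (Ne.symm huv), Net.cc_comm]
  have hval : ∀ u v, u ≠ v → Net.c0 (phys (edgesS n s M) β N) θ u v =
      cc (phys (edgesS n s M) β N) θ u v := fun u v huv => if_neg huv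
  have hsymm : ∀ u v, cslot n s M β N K b h u v = cslot n s M β N K b h v u := by
    intro u v
    rw [hcs, hcs, mgC_symm h0sy]
  have hnsc : ((N * s : ℕ) : ℝ) = N * s := by push_cast; ring
  -- physical rates
  have hth : ∀ (k : Fin (N + 1)) (x : Tor n) (i : Fin s), k ≠ 0 →
      θ (k, (x, i)) = β * h x / (2 * N) := fun k x i hk => by
    rw [hθdef]; exact Net.th_ne _ (z := (k, (x, i))) hk
  refine ⟨hsymm, ?_, ?_, ?_, ?_⟩
  · intro u v
    rw [hcs]
    exact mul_nonneg (by positivity) (mgC_nonneg h0nn u v)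
  · intro l x hl
    obtain ⟨k, i, hk, rfl⟩ := exists_slot hs hl
    have h1 : ∑ v, mgC (slotF n s N) (Net.c0 (phys (edgesS n s M) β N) θ)
        (slotF n s N (k, (x, i))) v ≤
        ∑ y, Net.c0 (phys (edgesS n s M) β N) θ (k, (x, i)) y :=
      sum_mgC_le h0nn fun y hy => slotF_inj (x := (k, (x, i))) hk hy
    have h2 : ∑ y, Net.c0 (phys (edgesS n s M) β N) θ (k, (x, i)) y =
        vv (phys (edgesS n s M) β N) θ (k, (x, i)) :=
      Net.netV_c0 (phys (edgesS n s M) β N) θ (k, (x, i))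
    have h3 := hG.vle _ hθ (k, (x, i))
    rw [hth k x i hk] at h3
    have h4 : ∑ v, cslot n s M β N K b h (slotL s N k i, x) v =
        (1 / (s : ℝ)) * ∑ v, mgC (slotF n s N) (Net.c0 (phys (edgesS n s M) β N) θ)
          (slotF n s N (k, (x, i))) v := by
      rw [Finset.mul_sum]
      exact Finset.sum_congr rfl fun v _ => hcs _ _
    rw [h4, hnsc]
    have h5 : β * h x / (2 * (N * s)) = (1 / (s : ℝ)) * (β * h x / (2 * N)) := by
      field_simp
    rw [h5]
    exact mul_le_mul_of_nonneg_left ((h1.trans_eq h2).trans h3) (by positivity)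
  · intro k' l' x e hk' hl' hsep h3 h4 hx hx'
    obtain ⟨k, i, hk, rfl⟩ := exists_slot hs hk'
    obtain ⟨l, j, hl, rfl⟩ := exists_slot hs hl'
    have hxne := Ind.ne_add n hn x e
    have key : ∀ (k l : Fin (N + 1)) (i j : Fin s) (x y : Tor n), k ≠ 0 → l ≠ 0 →
        (k : ℕ) + W ≤ l → (l : ℕ) ≤ k + 3 * W → ((x, y) ∈ edges n ∨ (y, x) ∈ edges n) → x ≠ y →
        h x = 1 → h y = 1 →
        c0 / (16 * s) * (β / ((N * s : ℕ) : ℝ)) ^ 2 ≤
          cslot n s M β N K b h (slotL s N k i, x) (slotL s N l j, y) := by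
      intro k l i j x y hk hl h5 h6 hed hxy hx hy
      have h5' : ((k : ℕ) : ℝ) + W ≤ ((l : ℕ) : ℝ) := by exact_mod_cast h5
      have h6' : (((l : ℕ) : ℝ)) ≤ ((k : ℕ) : ℝ) + 3 * W := by exact_mod_cast h6
      have b1 : 1 / 4 ≤ ((l : ℝ) - (k : ℝ)) * β / N := by
        have h7 : (W * β / N : ℝ) ≤ (((l : ℕ) : ℝ) - ((k : ℕ) : ℝ)) * β / N := by
          gcongr
          linarith
        rw [hWβ] at h7
        exact hwin.lo.trans h7
      have b2 : ((l : ℝ) - (k : ℝ)) * β / N ≤ 1 := by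
        have h7 : (((l : ℕ) : ℝ) - ((k : ℕ) : ℝ)) * β / N ≤ 3 * (W * β / N) := by
          rw [show 3 * (W * β / (N : ℝ)) = (3 * W) * β / N by ring]
          gcongr
          linarith
        rw [hWβ] at h7
        have := hwin.hi
        exact h7.trans (by linarith)
      have hkl : k < l := by rw [Fin.lt_def]; omega
      have h7 := l1 k l x y i j hkl b1 b2 hed hxy
      rw [hth k x i hk, hth l y j hl, hx, hy] at h7
      have hne : slotF n s N (k, (x, i)) ≠ slotF n s N (l, (y, j)) := fun hc =>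
        hxy (congrArg Prod.snd hc)
      have hne' : ((k, (x, i)) : Fin (N + 1) × (Tor n × Fin s)) ≠ (l, (y, j)) := fun hc =>
        hne (congrArg _ hc)
      have h8 := le_mgC (f := slotF n s N) h0nn hne
      rw [hval _ _ hne'] at h8
      show _ ≤ cslot n s M β N K b h (slotF n s N (k, (x, i))) (slotF n s N (l, (y, j)))
      rw [hcs]
      have h9 : c0 / (16 * s) * (β / ((N * s : ℕ) : ℝ)) ^ 2 ≤
          (1 / (s : ℝ)) * (c0 * (β * 1 / (2 * N) * (β * 1 / (2 * N)))) := by
        rw [hnsc]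
        have e1 : c0 / (16 * s) * (β / ((N : ℝ) * s)) ^ 2 =
            (c0 * (β / N) ^ 2 / (16 * s)) * (1 / s ^ 2) := by
          field_simp
        have e2 : (1 / (s : ℝ)) * (c0 * (β * 1 / (2 * N) * (β * 1 / (2 * N)))) =
            (c0 * (β / N) ^ 2 / (16 * s)) * 4 := by
          field_simp
          ring
        rw [e1, e2]
        refine mul_le_mul_of_nonneg_left ?_ (by positivity)
        rw [div_le_iff₀ (by positivity)]
        nlinarith
      exact h9.trans (mul_le_mul_of_nonneg_left (h7.trans h8) (by positivity))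
    rcases hsep with h5 | h5
    · obtain ⟨h6, h7⟩ := slot_lag hk hl h5 h3
      exact key k l i j x _ hk hl h6 h7 (Or.inl (Net.mem_edges x e)) hxne hx hx'
    · obtain ⟨h6, h7⟩ := slot_lag hl hk h5 h4
      rw [hsymm]
      exact key l k j i _ x hl hk h6 h7 (Or.inr (Net.mem_edges x e)) (Ne.symm hxne) hx' hx
  · intro k' x hk' hkW hxb hx
    obtain ⟨k, j, hk, rfl⟩ := exists_slot hs hk'
    have h1 := slot_lag0 hk hkW
    have h1' : ((k : ℕ) : ℝ) ≤ W := by exact_mod_cast h1
    have b2 : ((k : ℝ) - (((0 : Fin (N + 1)) : ℕ) : ℝ)) * β / N ≤ 1 := by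
      have h2 : ((k : ℝ) - (((0 : Fin (N + 1)) : ℕ) : ℝ)) * β / N ≤ W * β / N := by
        gcongr
        rw [Fin.val_zero]
        push_cast
        linarith
      rw [hWβ] at h2
      have := hwin.hi
      exact h2.trans (by linarith)
    have h7 := l2 0 k x j (Fin.pos_iff_ne_zero.2 hk) b2
    have hne : ((0 : Fin (N * s + 1)), x) ≠ slotF n s N (k, (x, j)) := fun hc =>
      slotL_ne hk j (congrArg Prod.fst hc).symm
    have h8 := sum_le_mgC (f := slotF n s N) h0nn hne
    have h9 : ∑ i : Fin s, cc (phys (edgesS n s M) β N) θ (0, (x, i)) (k, (x, j)) ≤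
        ∑ x', if slotF n s N x' = ((0 : Fin (N * s + 1)), x) then
          Net.c0 (phys (edgesS n s M) β N) θ x' (k, (x, j)) else 0 := by
      rw [Fintype.sum_prod_type]
      refine le_trans ?_ (Finset.single_le_sum (f := fun a : Fin (N + 1) => ∑ y : Tor n × Fin s,
        if slotF n s N (a, y) = ((0 : Fin (N * s + 1)), x) then
          Net.c0 (phys (edgesS n s M) β N) θ (a, y) (k, (x, j)) else 0) ?_ (Finset.mem_univ 0))
      · rw [Fintype.sum_prod_type]
        refine le_trans ?_ (Finset.single_le_sum (f := fun a : Tor n => ∑ i : Fin s,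
          if slotF n s N (0, (a, i)) = ((0 : Fin (N * s + 1)), x) then
            Net.c0 (phys (edgesS n s M) β N) θ (0, (a, i)) (k, (x, j)) else 0) ?_
              (Finset.mem_univ x))
        · refine Finset.sum_le_sum fun i _ => ?_
          have e1 : slotF n s N (0, (x, i)) = ((0 : Fin (N * s + 1)), x) := by
            unfold slotF; rw [slotL_zero]
          rw [if_pos e1, hval]
          exact fun hc => hk (congrArg Prod.fst hc).symm
        · intro a _
          refine Finset.sum_nonneg fun i _ => ?_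
          split_ifs
          · exact h0nn _ _
          · exact le_rfl
      · intro a _
        refine Finset.sum_nonneg fun i _ => ?_
        split_ifs
        · exact h0nn _ _
        · exact le_rfl
    have h10 : θ (0, (x, j)) = Real.tanh (K / (2 * (b ×ˢ (univ : Finset (Fin s))).card)) := by
      rw [hθdef]
      unfold th hS
      rw [if_pos rfl]
      simp only [hTdef]
      rw [if_pos hxb]
    have hcard : (((b ×ˢ (univ : Finset (Fin s))).card : ℕ) : ℝ) = b.card * s := by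
      rw [Finset.card_product, Finset.card_univ, Fintype.card_fin]
      push_cast
      ring
    have h11 : K / (b.card * s) / 4 ≤ θ (0, (x, j)) := by
      rw [h10, hcard]
      have h3 := Net.half_le_tanh (y := K / (2 * (b.card * s))) (by positivity)
        ((div_le_one (by positivity)).2 (by nlinarith))
      refine le_trans (le_of_eq ?_) h3
      field_simp
      ring
    rw [hth k x j hk, hx] at h7
    show _ ≤ cslot n s M β N K b h (0, x) (slotF n s N (k, (x, j)))
    rw [hcs]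
    have h12 : c0 / (16 * s) * (K / b.card) * (β / ((N * s : ℕ) : ℝ)) ≤
        (1 / (s : ℝ)) * (c0 * (θ (0, (x, j)) * (β * 1 / (2 * N)))) := by
      have h13 : c0 * (K / (b.card * s) / 4 * (β * 1 / (2 * N))) ≤
          c0 * (θ (0, (x, j)) * (β * 1 / (2 * N))) := by
        refine mul_le_mul_of_nonneg_left ?_ hc0.le
        exact mul_le_mul_of_nonneg_right h11 (by positivity)
      refine le_trans ?_ (mul_le_mul_of_nonneg_left h13 (by positivity))
      rw [hnsc]
      have e1 : (1 / (s : ℝ)) * (c0 * (K / (b.card * s) / 4 * (β * 1 / (2 * N)))) =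
          2 * (c0 / (16 * s) * (K / b.card) * (β / (N * s))) := by
        field_simp
        ring
      rw [e1]
      have : 0 ≤ c0 / (16 * s) * (K / b.card) * (β / ((N : ℝ) * s)) := by positivity
      linarith
    exact h12.trans (mul_le_mul_of_nonneg_left (h7.trans (h9.trans h8)) (by positivity))

end

end Vale.Agent.P361.LRO.GenS
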