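import Vale.Agent.P361.LRO.GenS.Slots3
import Vale.Agent.P361.LRO.GenS.SlotsLoc
import Vale.Agent.P361.LRO.Ind3.LocalInst

/-!
P361 LRO, stage 3, all spins: the physical network with copies in the field `g / (s β)` satisfies
`LocalC3` (long windows), from the long-window bound `CCgeS` and the defect bound `DeltaStmt`.
-/

namespace Vale.Agent.P361.LRO.GenS

open Finset Matrix Vale.Agent.P361.LRO _root_.P361.LRO Vale.Agent.P361.LRO.Bloch

noncomputable section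

/-- Conductances between all copies at distance at least a quarter of the circle; only the inter
gates have to be controlled. -/
def CCgeS (s : ℕ) : Prop :=
  ∃ c0 CJ : ℝ, 0 < c0 ∧ 0 < CJ ∧ ∀ (n M : ℕ) [NeZero n] (β : ℝ), 2 ≤ n → 8 ≤ β →
    ∃ N0 : ℕ, 1 ≤ N0 ∧ ∀ N W : ℕ, N0 ≤ N → N = 4 * W →
    ∀ θ : Fin (N + 1) × (Tor n × Fin s) → ℝ, (∀ z, 0 ≤ θ z ∧ θ z ≤ 1) →
      (∀ z, z.1 ≠ 0 → θ z ≤ 1 / (2 * N)) → (∀ k x i j, θ (k, (x, i)) = θ (k, (x, j))) →
      ∀ k m e : ℕ, k + m + 1 ≤ N → W ≤ m + 1 → (3:ℝ) ^ e ≤ 3 * √β → √β ≤ 3 * 3 ^ e →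
      ∀ δ : ℝ, 0 ≤ δ → δ * (CJ * β) ≤ 1 / 2 →
      ∀ (p x y : Tor n) (i j : Fin s), x ∈ cube n p (2 * 3 ^ e) → y ∈ cube n p (2 * 3 ^ e) →
      (∀ w1 w2 a b p, a.1 ≠ b.1 → mword (edgesS n s M) β N θ k m = w1 ++ Lt.gate a b p :: w2 →
        trace (lctx (edgesS n s M) β N θ (k + m + 1) (x, i) * wd w1 * exM a b * wd w2 *
            rctx (edgesS n s M) β N θ k (y, j)) ≤
          δ * trace (lctx (edgesS n s M) β N θ (k + m + 1) (x, i) *
            wd (mword (edgesS n s M) β N θ k m) * rctx (edgesS n s M) β N θ k (y, j)) ∧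
        trace (lctx (edgesS n s M) β N θ (k + m + 1) (x, i) * wd w1 * neM a b * wd w2 *
            rctx (edgesS n s M) β N θ k (y, j)) ≤
          δ * trace (lctx (edgesS n s M) β N θ (k + m + 1) (x, i) *
            wd (mword (edgesS n s M) β N θ k m) * rctx (edgesS n s M) β N θ k (y, j))) →
      c0 / 27 ^ e *
        (θ (Fin.ofNat (N + 1) (k + m + 1), (x, i)) * θ (Fin.ofNat (N + 1) k, (y, j))) ≤
      cc (phys (edgesS n s M) β N) θ (Fin.ofNat (N + 1) (k + m + 1), (x, i))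
        (Fin.ofNat (N + 1) k, (y, j))

/-- **The physical network with copies satisfies `LocalC3`.** `c1` depends only on `s`. -/
theorem localC3_inst (s : ℕ) (hs : 0 < s) (hCC : CCgeS s) (hΔ : Ind3.DeltaStmt) :
    ∃ c1 : ℝ, 0 < c1 ∧ ∀ A : ℝ, 0 < A → ∃ β0 : ℝ, 8 ≤ β0 ∧
    ∀ β : ℝ, β0 ≤ β → ∀ (e n M : ℕ) [NeZero n] (K η : ℝ) (b : Finset (Tor n)), 2 ≤ n →
    (3:ℝ) ^ e ≤ 3 * √β → √β ≤ 3 * 3 ^ e → 0 < K → K ≤ s * b.card → b.Nonempty →
    0 < η → η ≤ A * β ^ (-(3 / 2) : ℝ) → K * η ≤ A →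
    ∃ N0 : ℕ, ∀ N W : ℕ, N0 ≤ N → N = 4 * W → ∀ g : Tor n → ℝ, (∀ x, 0 ≤ g x ∧ g x ≤ 1) →
    (∀ z, rho (edgesS n s M) β (hS fun y => g y / (s * β)) z ≤ η) →
    LocalC3 n s N W e K c1 b g
      (Net.c0 (phys (edgesS n s M) β N)
        (th β N (hS fun y => g y / (s * β)) (blk K (b ×ˢ univ)))) := by
  obtain ⟨C, hC, hΔ⟩ := hΔ
  obtain ⟨c0, CJ, hc0p, hCJ, hCC⟩ := hCC
  have hsr : (1 : ℝ) ≤ s := by exact_mod_cast hs
  have hs0 : (0 : ℝ) < s := by linarith
  refine ⟨c0 / 8, by positivity, fun A hA => ?_⟩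
  set Mc : ℝ := 2 * (C * A * Real.exp (C * A) * CJ) with hM
  have hMp : 0 < Mc := by
    have := Real.exp_pos (C * A)
    positivity
  refine ⟨max 8 (Mc ^ 2), le_max_left _ _, ?_⟩
  intro β hβ e n M _ K η b hn he1 he2 hK hKb hbn hη hη2 hKη
  have hβ8 : 8 ≤ β := (le_max_left _ _).trans hβ
  have hβ0 : 0 < β := by linarith
  have hβM : Mc ≤ √β := Real.le_sqrt_of_sq_le ((le_max_right _ _).trans hβ)
  set δ : ℝ := C * η * Real.exp (C * (K * η)) with hδ
  have hδ0 : 0 ≤ δ := by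
    have := Real.exp_pos (C * (K * η))
    positivity
  have hsβ : 0 < √β := Real.sqrt_pos.2 hβ0
  have hrp : β ^ (-(3 / 2) : ℝ) = 1 / (β * √β) := by
    rw [Real.rpow_neg hβ0.le, one_div, Real.sqrt_eq_rpow]
    congr 1
    rw [show (3 / 2 : ℝ) = 1 + 1 / 2 by norm_num, Real.rpow_add hβ0, Real.rpow_one]
  have hδ2 : δ * (CJ * β) ≤ 1 / 2 := by
    have h1 : δ ≤ C * (A * (1 / (β * √β))) * Real.exp (C * A) := by
      rw [hδ]
      refine mul_le_mul (mul_le_mul_of_nonneg_left ?_ hC.le)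
        (Real.exp_le_exp.2 (mul_le_mul_of_nonneg_left hKη hC.le)) (Real.exp_pos _).le
        (by positivity)
      rw [← hrp]; exact hη2
    have h2 : 0 ≤ CJ * β := by positivity
    calc δ * (CJ * β)
        ≤ C * (A * (1 / (β * √β))) * Real.exp (C * A) * (CJ * β) :=
          mul_le_mul_of_nonneg_right h1 h2
      _ = Mc / 2 / √β := by rw [hM]; field_simp
      _ ≤ 1 / 2 := by
        rw [div_div, div_le_div_iff₀ (by positivity) (by norm_num)]
        linarith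
  set bS : Finset (Tor n × Fin s) := b ×ˢ univ with hbS
  have hcard : ((bS.card : ℕ) : ℝ) = b.card * s := by
    rw [hbS, Finset.card_product, Finset.card_univ, Fintype.card_fin]
    push_cast
    ring
  have hbp : (0:ℝ) < b.card := by exact_mod_cast hbn.card_pos
  have hbSn : bS.Nonempty := by
    obtain ⟨x, hx⟩ := hbn
    exact ⟨(x, ⟨0, hs⟩), by rw [hbS]; simp [hx]⟩
  have hKbS : K ≤ bS.card := by rw [hcard]; linarith
  obtain ⟨N1, hN1⟩ := hΔ (Tor n × Fin s) (edgesS n s M) β K η bS hβ0 hK hKbS hbSn hη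
  obtain ⟨N2, hN21, hN2⟩ := hCC n M β hn hβ8
  refine ⟨max N1 (max N2 ⌈β⌉₊), ?_⟩
  intro N W hN hNW g hg hrho
  have hNN1 : N1 ≤ N := (le_max_left _ _).trans hN
  have hNN2 : N2 ≤ N := (le_max_left _ _).trans ((le_max_right _ _).trans hN)
  have hNβ : β ≤ N := by
    have : ⌈β⌉₊ ≤ N := (le_max_right _ _).trans ((le_max_right _ _).trans hN)
    exact (Nat.le_ceil β).trans (by exact_mod_cast this)
  have hNp : (0:ℝ) < N := by linarith
  have hNat : 1 ≤ N := hN21.trans hNN2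
  have hW : 1 ≤ W := by omega
  set h : Tor n → ℝ := fun y => g y / (s * β) with hh
  have hh01 : ∀ x, 0 ≤ h x ∧ h x ≤ 1 := fun x => by
    rw [hh]
    refine ⟨div_nonneg (hg x).1 (by positivity), ?_⟩
    simp only
    rw [div_le_one (by positivity)]
    nlinarith [(hg x).2]
  have hT : ∀ x, 0 ≤ blk K bS x ∧ blk K bS x ≤ 1 := blk_memS hK.le bS
  set θ : Fin (N + 1) × (Tor n × Fin s) → ℝ := th β N (hS h) (blk K bS) with hθdef
  have hθ : ∀ z, 0 ≤ θ z ∧ θ z ≤ 1 := fun z =>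
    ⟨Net.th_nonneg (h := hS h) (T := blk K bS) hβ0.le (fun x => (hh01 x.1).1)
        (fun x => (hT x).1) z,
      Net.th_le_one (h := hS h) (T := blk K bS) hβ0.le hNβ (fun x => (hh01 x.1).2)
        (fun x => (hT x).2) z⟩
  have hθg : ∀ (k : Fin (N + 1)) (x : Tor n) (i : Fin s), k ≠ 0 →
      θ (k, (x, i)) = g x / (2 * ((N * s : ℕ) : ℝ)) := fun k x i hk => by
    rw [hθdef]
    unfold th hS
    rw [if_neg hk, hh]
    push_cast
    field_simp
  have hθ2 : ∀ z : Fin (N + 1) × (Tor n × Fin s), z.1 ≠ 0 → θ z ≤ 1 / (2 * N) := by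
    rintro ⟨k, x, i⟩ hk
    rw [hθg k x i hk]
    push_cast
    rw [div_le_div_iff₀ (by positivity) (by positivity)]
    have h1 : g x ≤ 1 := (hg x).2
    have h2 : g x * (2 * (N:ℝ)) ≤ 1 * (2 * N) := mul_le_mul_of_nonneg_right h1 (by positivity)
    nlinarith
  have hθ0 : ∀ (x : Tor n) (i : Fin s), θ (0, (x, i)) = blk K bS (x, i) := fun x i => by
    rw [hθdef]; unfold th; rw [if_pos rfl]
  have hθs : ∀ k x i j, θ (k, (x, i)) = θ (k, (x, j)) := by
    intro k x i j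
    by_cases hk : k = 0
    · subst hk
      rw [hθ0, hθ0, hbS, blk_hS]
      rfl
    · rw [hθg k x i hk, hθg k x j hk]
  have hlaw := isLaw_phys'' (edgesS n s M) hβ0.le hNβ
  have hG : Net.Good (phys (edgesS n s M) β N) := good_of_isLaw hlaw
  have hval : ∀ u v, u ≠ v → Net.c0 (phys (edgesS n s M) β N) θ u v =
      cc (phys (edgesS n s M) β N) θ u v := fun u v huv => if_neg huv
  have hmain : ∀ (k m : ℕ), k + m + 1 ≤ N → W ≤ m + 1 → ∀ (p x y : Tor n) (i j : Fin s),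
      x ∈ cube n p (2 * 3 ^ e) → y ∈ cube n p (2 * 3 ^ e) →
      c0 / 27 ^ e * (θ (Fin.ofNat (N + 1) (k + m + 1), (x, i)) *
        θ (Fin.ofNat (N + 1) k, (y, j))) ≤
      cc (phys (edgesS n s M) β N) θ (Fin.ofNat (N + 1) (k + m + 1), (x, i))
        (Fin.ofNat (N + 1) k, (y, j)) := fun k m hkm hWm p x y i j hx hy =>
    hN2 N W hNN2 hNW _ hθ hθ2 hθs k m e hkm hWm he1 he2 δ hδ0 hδ2 p x y i j hx hy
      (fun w1 w2 a c p _ hw => hN1 N hNN1 (hS h) (fun z => hh01 z.1) hrho k m hkm (x, i) (y, j)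
        w1 w2 a c p hw)
  refine ⟨?_, ?_, ?_, ?_, ?_⟩
  · intro u v
    unfold Net.c0
    by_cases huv : u = v
    · subst huv; rfl
    · rw [if_neg huv, if_neg (Ne.symm huv), Net.cc_comm]
  · intro u v
    unfold Net.c0
    split_ifs with huv
    · exact le_rfl
    · exact hG.ccnn _ hθ u v huv
  · intro k x i hk
    have h2 : ∑ y, Net.c0 (phys (edgesS n s M) β N) θ (k, (x, i)) y =
        vv (phys (edgesS n s M) β N) θ (k, (x, i)) :=
      Net.netV_c0 (phys (edgesS n s M) β N) θ (k, (x, i))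
    have h3 := hG.vle _ hθ (k, (x, i))
    rw [hθg k x i hk] at h3
    exact h2.trans_le h3
  · intro k l p x y i j hk hkl hx hy hgx hgy
    have hk0 : 0 < (k : ℕ) := Fin.pos_of_ne_zero hk
    have hl0 : l ≠ 0 := by
      intro h
      rw [h] at hkl
      simp at hkl
      omega
    have hne : ((k, (x, i)) : Fin (N + 1) × (Tor n × Fin s)) ≠ (l, (y, j)) := fun h => by
      have : (k:ℕ) = l := congrArg (fun z : Fin (N + 1) × (Tor n × Fin s) => (z.1 : ℕ)) h
      omega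
    rw [hval _ _ hne, Net.cc_comm]
    have hlN : (l : ℕ) ≤ N := Nat.lt_succ_iff.1 l.2
    obtain ⟨m, hm⟩ : ∃ m : ℕ, (l : ℕ) = k + m + 1 := ⟨(l : ℕ) - k - 1, by omega⟩
    have h1 := hmain k m (by omega) (by omega) p y x j i hy hx
    have hl : Fin.ofNat (N + 1) ((k : ℕ) + m + 1) = l := by
      rw [← hm]; exact Fin.cast_val_eq_self l
    have hkk : Fin.ofNat (N + 1) (k : ℕ) = k := Fin.cast_val_eq_self k
    rw [hl, hkk, hθg l y j hl0, hθg k x i hk, hgx, hgy] at h1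
    refine le_trans ?_ h1
    have hNs : (0 : ℝ) < ((N * s : ℕ) : ℝ) := by push_cast; positivity
    have e1 : c0 / 27 ^ e * (1 / (2 * ((N * s : ℕ) : ℝ)) * (1 / (2 * ((N * s : ℕ) : ℝ)))) =
        2 * (c0 / 8 / (((N * s : ℕ) : ℝ) ^ 2 * 27 ^ e)) := by
      field_simp
      norm_num
    rw [e1]
    have : 0 ≤ c0 / 8 / (((N * s : ℕ) : ℝ) ^ 2 * 27 ^ e) := by positivity
    linarith
  · intro k p x y j hWk hxb hx hy hgy
    have hk0 : 0 < (k : ℕ) := by omega
    have hkne : k ≠ 0 := by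
      intro h
      rw [h] at hk0
      simp at hk0
    have hkN : (k : ℕ) ≤ N := Nat.lt_succ_iff.1 k.2
    obtain ⟨m, hm⟩ : ∃ m : ℕ, (k : ℕ) = 0 + m + 1 := ⟨(k : ℕ) - 1, by omega⟩
    have hl : Fin.ofNat (N + 1) (0 + m + 1) = k := by
      rw [← hm]; exact Fin.cast_val_eq_self k
    have hkk : Fin.ofNat (N + 1) 0 = (0 : Fin (N + 1)) := by
      simp
    have hNs : (0 : ℝ) < ((N * s : ℕ) : ℝ) := by push_cast; positivity
    have ht : ∀ i : Fin s, K / (b.card * s) / 4 ≤ θ (0, (x, i)) := by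
      intro i
      rw [hθ0]
      unfold blk
      rw [if_pos (by rw [hbS]; simp [hxb]), hcard]
      have h3 := Net.half_le_tanh (y := K / (2 * (b.card * s))) (by positivity)
        ((div_le_one (by positivity)).2 (by nlinarith))
      refine le_trans (le_of_eq ?_) h3
      field_simp
      ring
    have hterm : ∀ i : Fin s, c0 / 27 ^ e * (1 / (2 * ((N * s : ℕ) : ℝ)) *
        (K / (b.card * s) / 4)) ≤
        Net.c0 (phys (edgesS n s M) β N) θ (0, (x, i)) (k, (y, j)) := by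
      intro i
      have hne : ((0, (x, i)) : Fin (N + 1) × (Tor n × Fin s)) ≠ (k, (y, j)) := fun h =>
        hkne (congrArg Prod.fst h).symm
      rw [hval _ _ hne, Net.cc_comm]
      have h1 := hmain 0 m (by omega) (by omega) p y x j i hy hx
      rw [hl, hkk, hθg k y j hkne, hgy] at h1
      refine le_trans ?_ h1
      exact mul_le_mul_of_nonneg_left (mul_le_mul_of_nonneg_left (ht i) (by positivity))
        (by positivity)
    have hsum : ∑ _i : Fin s, c0 / 27 ^ e * (1 / (2 * ((N * s : ℕ) : ℝ)) *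
        (K / (b.card * s) / 4)) ≤
        ∑ i, Net.c0 (phys (edgesS n s M) β N) θ (0, (x, i)) (k, (y, j)) :=
      Finset.sum_le_sum fun i _ => hterm i
    rw [Finset.sum_const, Finset.card_univ, Fintype.card_fin, nsmul_eq_mul] at hsum
    refine le_trans (le_of_eq ?_) hsum
    field_simp
    norm_num

end

end Vale.Agent.P361.LRO.GenS
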