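import Vale.Agent.P361.LRO.GenS.LocS
import Vale.Agent.P361.LRO.GenS.CoarseDefs
import Vale.Agent.P361.LRO.GenS.Iface
import Vale.Agent.P361.LRO.Ind.LocalInst
import Vale.Agent.P361.LRO.Loc.Net

/-!
P361 LRO, general spin: the physical network with copies satisfies `LocalS` (M1 → M2).
-/

namespace Vale.Agent.P361.LRO.GenS

open Finset Vale.Agent.P361.LRO _root_.P361.LRO

noncomputable section

/-- The list of the intra-site edges with multiplicity. -/
def intraM' (n s M : ℕ) [NeZero n] : List ((Tor n × Fin s) × (Tor n × Fin s)) :=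
  (List.replicate M (intraE n s)).flatten

theorem edgesS_eq (n s M : ℕ) [NeZero n] : edgesS n s M = interE n s ++ intraM' n s M := rfl

theorem mem_interE' {n s : ℕ} [NeZero n] {e : (Tor n × Fin s) × (Tor n × Fin s)} :
    e ∈ interE n s ↔ (e.1.1, e.2.1) ∈ edges n := by
  unfold interE
  rw [List.mem_flatMap]
  constructor
  · rintro ⟨f, hf, he⟩
    rw [List.mem_flatMap] at he
    obtain ⟨i, _, he⟩ := he
    rw [List.mem_map] at he
    obtain ⟨j, _, rfl⟩ := he
    exact hf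
  · intro he
    refine ⟨_, he, ?_⟩
    rw [List.mem_flatMap]
    refine ⟨e.1.2, List.mem_finRange _, ?_⟩
    rw [List.mem_map]
    exact ⟨e.2.2, List.mem_finRange _, rfl⟩

theorem interE_ne {n s : ℕ} [NeZero n] (hn : 2 ≤ n) :
    ∀ e ∈ interE n s, Prod.fst e.1 ≠ Prod.fst e.2 := by
  intro e he
  rw [mem_interE'] at he
  unfold edges at he
  rw [List.mem_map] at he
  obtain ⟨z, _, hz⟩ := he
  have h1 := congrArg Prod.fst hz
  have h2 := congrArg Prod.snd hz
  simp only at h1 h2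
  rw [← h1, ← h2]
  exact Ind.ne_add n hn z.1 z.2

theorem intraM_eq {n s M : ℕ} [NeZero n] :
    ∀ e ∈ intraM' n s M, Prod.fst e.1 = Prod.fst e.2 := by
  intro e he
  unfold intraM' at he
  rw [List.mem_flatten] at he
  obtain ⟨l, hl, he⟩ := he
  rw [List.mem_replicate] at hl
  rw [hl.2] at he
  unfold intraE at he
  rw [List.mem_map] at he
  obtain ⟨z, _, rfl⟩ := he
  rfl

theorem interE_deg {n s : ℕ} [NeZero n] (x : Tor n) :
    ((interE n s).countP fun e => Prod.fst e.1 = x ∨ Prod.fst e.2 = x) ≤ 6 * s ^ 2 := by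
  have h0 : ((edges n).countP fun e => e.1 = x ∨ e.2 = x) ≤ 6 := by
    rw [List.countP_eq_length_filter]
    exact Ind.deg_edges n x
  have h1 : ∀ l : List (Tor n × Tor n),
      ((l.flatMap fun e => (List.finRange s).flatMap fun i => (List.finRange s).map fun j =>
        ((e.1, i), (e.2, j))).countP fun e : (Tor n × Fin s) × (Tor n × Fin s) =>
          Prod.fst e.1 = x ∨ Prod.fst e.2 = x) =
      s ^ 2 * l.countP fun e => e.1 = x ∨ e.2 = x := by
    intro l
    induction l with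
    | nil => simp
    | cons e l ih =>
      rw [List.flatMap_cons, List.countP_append, ih, List.countP_cons]
      have h2 : ((List.finRange s).flatMap fun i => (List.finRange s).map fun j =>
          ((e.1, i), (e.2, j))).countP (fun e : (Tor n × Fin s) × (Tor n × Fin s) =>
          decide (Prod.fst e.1 = x ∨ Prod.fst e.2 = x)) =
          s ^ 2 * if decide (e.1 = x ∨ e.2 = x) = true then 1 else 0 := by
        have hlen : ((List.finRange s).flatMap fun i => (List.finRange s).map fun j =>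
          ((e.1, i), (e.2, j))).length = s ^ 2 := by
          simp [List.length_flatMap, sq]
        by_cases hc : e.1 = x ∨ e.2 = x
        · rw [if_pos (decide_eq_true hc), mul_one, ← hlen, List.countP_eq_length]
          intro f hf
          rw [List.mem_flatMap] at hf
          obtain ⟨i, _, hf⟩ := hf
          rw [List.mem_map] at hf
          obtain ⟨j, _, rfl⟩ := hf
          exact decide_eq_true hc
        · rw [if_neg (by simpa using hc), mul_zero, List.countP_eq_zero]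
          intro f hf
          rw [List.mem_flatMap] at hf
          obtain ⟨i, _, hf⟩ := hf
          rw [List.mem_map] at hf
          obtain ⟨j, _, rfl⟩ := hf
          simpa using hc
      rw [h2]
      ring
  unfold interE
  rw [h1]
  calc s ^ 2 * _ ≤ s ^ 2 * 6 := Nat.mul_le_mul_left _ h0
    _ = 6 * s ^ 2 := by ring

/-- The physical network with copies, zero on the diagonal. -/
def physCS (n s M N : ℕ) [NeZero n] (β K : ℝ) (b : Finset (Tor n)) (h : Tor n → ℝ) :
    NdS n s N → NdS n s N → ℝ :=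
  Net.c0 (phys (edgesS n s M) β N) (th β N (hS h) (blk K (b ×ˢ (univ : Finset (Fin s)))))

theorem alg1 {E s b K β N : ℝ} (hs : 0 < s) (hb : 0 < b) (hN : 0 < N) :
    E / (1024 * s) * (K / b) * (β / N) = β * 1 / (2 * N) * (K / b / (4 * s)) * (1 / 128 * E) := by
  field_simp
  ring

theorem alg2 {s b K : ℝ} (hs : 0 < s) (hb : 0 < b) :
    K / b / (4 * s) = K / (2 * (b * s)) / 2 := by
  field_simp
  ring

/-- Contact bound. -/
theorem contact_inst {s : ℕ} (hs : 1 ≤ s) {n N W m M : ℕ} [NeZero n] {β K : ℝ}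
    {b : Finset (Tor n)} {h : Tor n → ℝ} (hn : 2 ≤ n) (hβ : 1 ≤ β) (hN : 8 * β ≤ N)
    (hNm : N = m * W) (hwin : WinS β m) (hK : 0 < K) (hKb : K ≤ b.card)
    (hh : ∀ x, 0 ≤ h x ∧ h x ≤ 1)
    (k : Fin (N + 1)) (x : Tor n) (j : Fin s) (hk : k ≠ 0) (hkW : (k : ℕ) ≤ W) (hxb : x ∈ b)
    (hx : h x = 1) :
    Real.exp (-(3 / 2 * ((2 * (6 * s ^ 2) : ℕ) + 1))) / (1024 * s) * (K / b.card) * (β / N) ≤
      ∑ v ∈ univ.filter (fun v : Tor n × Fin s => v.1 = x), cc (phys (edgesS n s M) β N)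
        (th β N (hS h) (blk K (b ×ˢ (univ : Finset (Fin s))))) (k, (x, j)) (0, v) := by
  have hs0 : (1 : ℝ) ≤ s := by exact_mod_cast hs
  set E : ℝ := Real.exp (-(3 / 2 * ((2 * (6 * s ^ 2) : ℕ) + 1))) with hE
  have hE0 : 0 < E := Real.exp_pos _
  have hβ0 : (0:ℝ) < β := by linarith
  have hNp : (0:ℝ) < N := by linarith
  have hβN : β ≤ N := by linarith
  set B : Finset (Tor n × Fin s) := b ×ˢ (univ : Finset (Fin s)) with hB
  have hT : ∀ x, 0 ≤ blk K B x ∧ blk K B x ≤ 1 := Ind.blk_mem hK.le B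
  have hhS : ∀ z : Tor n × Fin s, 0 ≤ hS h z ∧ hS h z ≤ 1 := fun z => hh z.1
  have hθ := fun z => Loc.th_mem (h := hS h) (T := blk K B) hβ0.le hβN hhS hT z
  set p : ℝ := β / (2 * N) with hp
  have hp0 : 0 < p := by positivity
  have hp16 : p ≤ 1 / 16 := by
    rw [hp, div_le_iff₀ (by positivity)]; linarith
  have hmW : (N : ℝ) = m * W := by rw [hNm]; push_cast; ring
  have hmp : (0:ℝ) < m := by exact_mod_cast hwin.pos
  have hWp : (0:ℝ) < W := by
    rcases Nat.eq_zero_or_pos W with h0 | h0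
    · exfalso
      rw [hmW, h0] at hNp
      simp at hNp
    · exact_mod_cast h0
  have hpW : p * W = β / m / 2 := by rw [hp, hmW]; field_simp
  have hbd : ∀ i : Fin (N + 1), 0 < i → ∀ v, th β N (hS h) (blk K B) (i, v) ≤ p := fun i hi v =>
    Loc.th_le hβ0.le hhS i (ne_of_gt hi) v
  have hthk : th β N (hS h) (blk K B) (k, (x, j)) = β * 1 / (2 * N) := by
    unfold th; rw [if_neg hk, ← hx]; rfl
  have hk0 : 0 < k := Fin.pos_of_ne_zero hk
  have hbp : (0:ℝ) < b.card := by
    have : 0 < b.card := Finset.card_pos.2 ⟨x, hxb⟩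
    exact_mod_cast this
  have hcard : (B.card : ℝ) = b.card * s := by
    rw [hB, Finset.card_product, Finset.card_univ, Fintype.card_fin]
    push_cast
    ring
  set t : ℝ := K / b.card / (4 * s) with ht
  have ht0 : 0 ≤ t := by positivity
  have htb : ∀ v : Tor n × Fin s, v.1 = (x, j).1 →
      t ≤ th β N (hS h) (blk K B) (0, v) := by
    intro v hv
    have hvB : v ∈ B := by
      rw [hB, Finset.mem_product]
      exact ⟨by rw [hv]; exact hxb, Finset.mem_univ _⟩
    unfold th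
    rw [if_pos rfl]
    unfold blk
    rw [if_pos hvB, hcard]
    have h6 : K / (2 * (b.card * s)) ≤ 1 := by
      rw [div_le_one (by positivity)]
      nlinarith
    have := Ind.tanh_ge (K / (2 * (b.card * s))) (by positivity) h6
    refine le_trans (le_of_eq ?_) this
    rw [ht, alg2 (by linarith) hbp]
  have := LocS.contact Prod.fst (interE n s) (intraM' n s M) (interE_ne hn) intraM_eq
    (6 * s ^ 2) (fun x => interE_deg x) β N hβ0 hβN (th β N (hS h) (blk K B)) hθ (x, j) 0 k hk0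
    p t hp0.le (by linarith) ht0 (fun i hi _ v _ => hbd i hi v) htb
  rw [← edgesS_eq, ← hp, hthk] at this
  simp only [Fin.val_zero, Nat.sub_zero] at this
  refine le_trans ?_ this
  have c3 : ((k : ℕ) : ℝ) ≤ W := by exact_mod_cast hkW
  have hhi := hwin.hi
  have h3 := Loc.loss p hp0.le hp16 (k : ℕ) (6 * s ^ 2) (by
    calc p * ((k : ℕ) : ℝ) ≤ p * W := mul_le_mul_of_nonneg_left c3 hp0.le
      _ ≤ 1 / 2 := by rw [hpW]; linarith)
  have h4 : E ≤ Real.exp (-(3 / 2 * (((6 * s ^ 2 : ℕ) : ℝ) + 1))) := by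
    rw [hE]
    apply Real.exp_le_exp.2
    push_cast
    nlinarith [sq_nonneg (s : ℝ)]
  rw [alg1 (by linarith) hbp hNp, ← ht]
  refine mul_le_mul_of_nonneg_left ?_ (by positivity)
  linarith

/-- Neighbour bound. -/
theorem nbr_inst {s : ℕ} (hs : 1 ≤ s) {n N W m M : ℕ} [NeZero n] {β K : ℝ}
    {b : Finset (Tor n)} {h : Tor n → ℝ} (hn : 2 ≤ n) (hβ : 1 ≤ β) (hN : 8 * β ≤ N)
    (hNm : N = m * W) (hwin : WinS β m) (hK : 0 < K)
    (hh : ∀ x, 0 ≤ h x ∧ h x ≤ 1)
    (k l : Fin (N + 1)) (v w : Tor n × Fin s) (hk : k ≠ 0) (hvw : v.1 ≠ w.1)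
    (hed : (v.1, w.1) ∈ edges n ∨ (w.1, v.1) ∈ edges n)
    (h1 : (k : ℕ) + W ≤ l) (h2 : (l : ℕ) ≤ k + 12 * W) (hv : h v.1 = 1) (hw : h w.1 = 1) :
    Real.exp (-(3 / 2 * ((2 * (6 * s ^ 2) : ℕ) + 1))) / (1024 * s) * (β / N) ^ 2 ≤
      cc (phys (edgesS n s M) β N)
        (th β N (hS h) (blk K (b ×ˢ (univ : Finset (Fin s))))) (l, v) (k, w) := by
  have hs0 : (1 : ℝ) ≤ s := by exact_mod_cast hs
  set E : ℝ := Real.exp (-(3 / 2 * ((2 * (6 * s ^ 2) : ℕ) + 1))) with hE
  have hE0 : 0 < E := Real.exp_pos _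
  have hβ0 : (0:ℝ) < β := by linarith
  have hNp : (0:ℝ) < N := by linarith
  have hβN : β ≤ N := by linarith
  set B : Finset (Tor n × Fin s) := b ×ˢ (univ : Finset (Fin s)) with hB
  have hT : ∀ x, 0 ≤ blk K B x ∧ blk K B x ≤ 1 := Ind.blk_mem hK.le B
  have hhS : ∀ z : Tor n × Fin s, 0 ≤ hS h z ∧ hS h z ≤ 1 := fun z => hh z.1
  have hθ := fun z => Loc.th_mem (h := hS h) (T := blk K B) hβ0.le hβN hhS hT z
  set p : ℝ := β / (2 * N) with hp
  have hp0 : 0 < p := by positivity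
  have hp16 : p ≤ 1 / 16 := by
    rw [hp, div_le_iff₀ (by positivity)]; linarith
  have hmW : (N : ℝ) = m * W := by rw [hNm]; push_cast; ring
  have hmp : (0:ℝ) < m := by exact_mod_cast hwin.pos
  have hWp : (0:ℝ) < W := by
    rcases Nat.eq_zero_or_pos W with h0 | h0
    · exfalso
      rw [hmW, h0] at hNp
      simp at hNp
    · exact_mod_cast h0
  have hpW : p * W = β / m / 2 := by rw [hp, hmW]; field_simp
  have hbd : ∀ i : Fin (N + 1), 0 < i → ∀ v, th β N (hS h) (blk K B) (i, v) ≤ p := fun i hi v =>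
    Loc.th_le hβ0.le hhS i (ne_of_gt hi) v
  have hthk : ∀ (k : Fin (N + 1)) (v : Tor n × Fin s), k ≠ 0 → h v.1 = 1 →
      th β N (hS h) (blk K B) (k, v) = β * 1 / (2 * N) := by
    intro k v hk hv; unfold th; rw [if_neg hk, ← hv]; rfl
  have hW0 : 0 < W := by exact_mod_cast hWp
  have hkl : k < l := by rw [Fin.lt_def]; omega
  have hl : l ≠ 0 := ne_of_gt (lt_of_le_of_lt (Fin.zero_le _) hkl)
  have := LocS.inter Prod.fst (interE n s) (intraM' n s M) (interE_ne hn) intraM_eq (6 * s ^ 2)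
    (fun x => interE_deg x) β N hβ0 hβN (th β N (hS h) (blk K B)) hθ v w hvw
    (fun a' b' ha' hb' => by
      rw [mem_interE', mem_interE', ha', hb']
      exact hed) k l hkl p hp0.le (by linarith)
    (fun i hi _ v _ => hbd i (lt_of_le_of_lt (Fin.zero_le _) hi) v)
  rw [← edgesS_eq, ← hp, hthk l v hl hv, hthk k w hk hw] at this
  refine le_trans ?_ this
  have c2 : (W : ℝ) ≤ (((l : ℕ) - (k : ℕ) : ℕ) : ℝ) := by
    have : W ≤ (l : ℕ) - (k : ℕ) := by omega
    exact_mod_cast this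
  have c3 : (((l : ℕ) - (k : ℕ) : ℕ) : ℝ) ≤ 12 * W := by
    have : (l : ℕ) - (k : ℕ) ≤ 12 * W := by omega
    exact_mod_cast this
  have hlo := hwin.lo
  have hhi := hwin.hi
  have h3 := Loc.loss p hp0.le hp16 ((l : ℕ) - (k : ℕ)) (2 * (6 * s ^ 2)) (by
    calc p * (((l : ℕ) - (k : ℕ) : ℕ) : ℝ) ≤ p * (12 * W) :=
          mul_le_mul_of_nonneg_left c3 hp0.le
      _ = 12 * (p * W) := by ring
      _ ≤ 1 / 2 := by rw [hpW]; linarith)
  have h4 : 1 / 32 ≤ p * (((l : ℕ) - (k : ℕ) : ℕ) : ℝ) := by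
    calc (1 : ℝ) / 32 ≤ p * W := by rw [hpW]; linarith
      _ ≤ _ := mul_le_mul_of_nonneg_left c2 hp0.le
  have h5 : E / 256 ≤ 1 / 8 * (p * (((l : ℕ) - (k : ℕ) : ℕ) : ℝ)) *
      (((1 - p) / (1 + p)) ^ (2 * (6 * s ^ 2) * ((l : ℕ) - (k : ℕ))) *
        ((1 - p) / (1 + p)) ^ ((l : ℕ) - (k : ℕ))) := by
    calc E / 256 = (1 / 8 * (1 / 32)) * E := by ring
      _ ≤ _ := mul_le_mul (by linarith) h3 hE0.le (by positivity)
  calc E / (1024 * s) * (β / N) ^ 2 ≤ E / 1024 * (β / N) ^ 2 := by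
        refine mul_le_mul_of_nonneg_right ?_ (by positivity)
        rw [div_le_div_iff₀ (by positivity) (by positivity)]
        nlinarith
    _ = β * 1 / (2 * N) * (β * 1 / (2 * N)) * (E / 256) := by ring
    _ ≤ _ := mul_le_mul_of_nonneg_left h5 (by positivity)

theorem local_instS (s : ℕ) (hs : 1 ≤ s) :
    ∃ c1 : ℝ, 0 < c1 ∧ ∀ (n N W m M : ℕ) [NeZero n] (β K : ℝ) (b : Finset (Tor n))
      (h : Tor n → ℝ), 2 ≤ n → 1 ≤ β → 8 * β ≤ N → 0 < W → N = m * W → WinS β m →
      0 < K → K ≤ b.card → (∀ x, 0 ≤ h x ∧ h x ≤ 1) →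
      LocalS n s N W β K c1 b h (physCS n s M N β K b h) := by
  have hs0 : (1 : ℝ) ≤ s := by exact_mod_cast hs
  refine ⟨Real.exp (-(3 / 2 * ((2 * (6 * s ^ 2) : ℕ) + 1))) / (1024 * s), by positivity, ?_⟩
  intro n N W m M _ β K b h hn hβ hN hW hNm hwin hK hKb hh
  have hβ0 : (0:ℝ) < β := by linarith
  have hNp : (0:ℝ) < N := by linarith
  have hβN : β ≤ N := by linarith
  have hT : ∀ x, 0 ≤ blk K (b ×ˢ (univ : Finset (Fin s))) x ∧
    blk K (b ×ˢ (univ : Finset (Fin s))) x ≤ 1 := Ind.blk_mem hK.le _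
  have hhS : ∀ z : Tor n × Fin s, 0 ≤ hS h z ∧ hS h z ≤ 1 := fun z => hh z.1
  have hlaw := Ind.isLaw_phys' (edgesS n s M) hβ0.le hβN
  have hθ := fun z => Loc.th_mem (h := hS h) (T := blk K (b ×ˢ (univ : Finset (Fin s))))
    hβ0.le hβN hhS hT z
  obtain ⟨hZ, hccn, hccs, hsum, hKK, hvv⟩ :=
    Loc.netStmt Loc.fourierStmt Loc.ringStmt Loc.arcStmt _ _ hlaw _ hθ
  refine ⟨?_, ?_, ?_, ?_, ?_⟩
  · intro u v
    unfold physCS Net.c0
    by_cases huv : u = v
    · rw [if_pos huv, if_pos huv.symm]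
    · rw [if_neg huv, if_neg (Ne.symm huv), hccs]
  · intro u v
    unfold physCS Net.c0
    by_cases huv : u = v
    · rw [if_pos huv]
    · rw [if_neg huv]; exact hccn u v huv
  · intro k x i hk
    have h1 : ∑ v, physCS n s M N β K b h (k, (x, i)) v =
        ∑ v ∈ univ.erase (k, (x, i)), cc (phys (edgesS n s M) β N)
          (th β N (hS h) (blk K (b ×ˢ (univ : Finset (Fin s))))) (k, (x, i)) v := by
      unfold physCS Net.c0
      rw [← Finset.add_sum_erase Finset.univ _ (Finset.mem_univ (k, (x, i)))]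
      rw [if_pos rfl, zero_add]
      refine Finset.sum_congr rfl fun v hv => ?_
      rw [if_neg (Ne.symm (Finset.ne_of_mem_erase hv))]
    rw [h1, hsum]
    refine (hvv _).trans ?_
    unfold th
    rw [if_neg hk]
    exact le_rfl
  · intro k l x e i j hk hl hkl h3 h4 hx hx'
    have hxne := Ind.ne_add n hn x e
    have hne : (k, (x, i)) ≠ (l, (x + Pi.single e 1, j)) := fun h =>
      hxne (congrArg (fun z => z.2.1) h)
    unfold physCS Net.c0
    rw [if_neg hne]
    rcases hkl with hkl | hkl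
    · rw [hccs]
      exact nbr_inst hs hn hβ hN hNm hwin hK hh k l (x + Pi.single e 1, j) (x, i) hk
        (Ne.symm hxne) (Or.inr (Ind.mem_edges n x e)) hkl h3 hx' hx
    · exact nbr_inst hs hn hβ hN hNm hwin hK hh l k (x, i) (x + Pi.single e 1, j) hl hxne
        (Or.inl (Ind.mem_edges n x e)) hkl h4 hx hx'
  · intro k x j hk hkW hxb hx
    refine (contact_inst (M := M) hs hn hβ hN hNm hwin hK hKb hh k x j hk hkW hxb hx).trans
      (le_of_eq ?_)
    have hfilt : (univ.filter fun v : Tor n × Fin s => v.1 = x) =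
        (univ : Finset (Fin s)).image fun i => (x, i) := by
      ext v
      simp only [Finset.mem_filter, Finset.mem_univ, true_and, Finset.mem_image]
      constructor
      · intro hv
        exact ⟨v.2, by rw [← hv]⟩
      · rintro ⟨i, rfl⟩
        rfl
    rw [hfilt, Finset.sum_image (fun a _ b _ hab => congrArg Prod.snd hab)]
    refine Finset.sum_congr rfl fun i _ => ?_
    have hne : ((0 : Fin (N + 1)), (x, i)) ≠ (k, (x, j)) := fun h => hk (congrArg Prod.fst h).symm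
    unfold physCS Net.c0
    rw [if_neg hne, hccs]

end

end Vale.Agent.P361.LRO.GenS
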