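import Vale.Agent.P361.LRO.GenS.Site
import Vale.Agent.P361.LRO.Defs

/-!
General spin, many sites: the model of spin `n / 2` on `V` is the model of spin `1 / 2` on
`V × Fin n`, restricted to the tensors symmetric at each site.
-/

namespace Vale.Agent.P361.LRO.GenS

open Matrix Finset

set_option linter.unusedSectionVars false

section Rect

variable {V d e f : Type*} [Fintype V] [DecidableEq V]

/-- Rectangular product operator. -/
def prodR (B : V → Matrix d e ℂ) : Matrix (V → d) (V → e) ℂ :=
  Matrix.of fun σ τ => ∏ y, B y (σ y) (τ y)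

theorem prodR_mul [Fintype e] (B : V → Matrix d e ℂ) (C : V → Matrix e f ℂ) :
    prodR B * prodR C = prodR (fun y => B y * C y) := by
  classical
  ext σ τ
  simp only [prodR, Matrix.mul_apply, Matrix.of_apply]
  rw [Finset.prod_univ_sum, Fintype.piFinset_univ]
  refine Finset.sum_congr rfl fun ρ _ => ?_
  rw [← Finset.prod_mul_distrib]

theorem prodR_one [DecidableEq d] : prodR (fun _ : V => (1 : Matrix d d ℂ)) = 1 := by
  ext σ τ
  simp only [prodR, Matrix.of_apply, Matrix.one_apply]
  by_cases h : σ = τ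
  · subst h; simp
  · rw [if_neg h]
    obtain ⟨y, hy⟩ := Function.ne_iff.mp h
    exact Finset.prod_eq_zero (Finset.mem_univ y) (by simp [hy])

theorem prodR_conjTranspose (B : V → Matrix d e ℂ) :
    (prodR B)ᴴ = prodR (fun y => (B y)ᴴ) := by
  ext σ τ
  simp [prodR, Matrix.conjTranspose_apply]

/-- Multilinearity. -/
theorem prodR_sum (x : V) {κ : Type*} (s : Finset κ) (C : κ → Matrix d e ℂ)
    (W : Matrix d e ℂ) :
    (∑ k ∈ s, prodR fun y => if y = x then C k else W) =
      prodR fun y => if y = x then ∑ k ∈ s, C k else W := by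
  ext σ τ
  rw [Matrix.sum_apply]
  simp only [prodR, Matrix.of_apply]
  rw [← Finset.mul_prod_erase _ _ (Finset.mem_univ x), if_pos rfl, Matrix.sum_apply,
    Finset.sum_mul]
  refine Finset.sum_congr rfl fun k _ => ?_
  rw [← Finset.mul_prod_erase _ _ (Finset.mem_univ x), if_pos rfl]
  congr 1
  refine Finset.prod_congr rfl fun y hy => ?_
  rw [if_neg (Finset.ne_of_mem_erase hy), if_neg (Finset.ne_of_mem_erase hy)]

end Rect

section Many

variable {V : Type} [Fintype V] [DecidableEq V]

/-- The isometry on all sites. -/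
noncomputable def WV (n : ℕ) (V : Type) [Fintype V] :
    Matrix (V × Fin n → Fin (1 + 1)) (V → Fin (n + 1)) ℂ :=
  Matrix.of fun σ τ => ∏ x, W1 n (fun i => σ (x, i)) (τ x)

/-- Configurations of the copies, site by site. -/
def cu (V : Type) (n : ℕ) : (V × Fin n → Fin (1 + 1)) ≃ (V → Fin n → Fin (1 + 1)) :=
  Equiv.curry V (Fin n) (Fin (1 + 1))

theorem WV_eq (n : ℕ) : WV n V = (prodR fun _ : V => W1 n).submatrix (cu V n) id := rfl

theorem WV_conj_mul (n : ℕ) : (WV n V)ᴴ * WV n V = 1 := by
  rw [WV_eq, Matrix.conjTranspose_submatrix, Matrix.submatrix_mul_equiv, prodR_conjTranspose,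
    prodR_mul]
  simp only [W1_conj_mul, prodR_one]
  exact Matrix.submatrix_id_id _

theorem siteOp_copy (n : ℕ) (x : V) (i : Fin n) (A : Matrix (Fin (1 + 1)) (Fin (1 + 1)) ℂ) :
    siteOpV ((x, i) : V × Fin n) A =
      (prodR fun y : V => if y = x then siteOpV i A else 1).submatrix (cu V n) (cu V n) := by
  ext σ τ
  simp only [siteOpV, prodOp, prodR, Matrix.of_apply, Matrix.submatrix_apply]
  rw [Fintype.prod_prod_type]
  refine Finset.prod_congr rfl fun y _ => ?_
  by_cases hy : y = x
  · subst hy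
    rw [if_pos rfl]
    simp only [prodOp, Matrix.of_apply, Prod.mk.injEq, true_and, cu, Equiv.curry_apply,
      Function.curry]
  · rw [if_neg hy, Matrix.one_apply]
    have h1 : ∀ j : Fin n, (if (y, j) = (x, i) then A else 1) (σ (y, j)) (τ (y, j)) =
        (1 : Matrix (Fin (1 + 1)) (Fin (1 + 1)) ℂ) (σ (y, j)) (τ (y, j)) := by
      intro j
      rw [if_neg (fun h => hy (Prod.mk.inj h).1)]
    rw [Finset.prod_congr rfl fun j _ => h1 j]
    by_cases h : cu V n σ y = cu V n τ y
    · rw [if_pos h]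
      refine Finset.prod_eq_one fun j _ => ?_
      have : σ (y, j) = τ (y, j) := congrFun h j
      rw [this, Matrix.one_apply_eq]
    · rw [if_neg h]
      obtain ⟨j, hj⟩ := Function.ne_iff.mp h
      refine Finset.prod_eq_zero (Finset.mem_univ j) ?_
      exact Matrix.one_apply_ne hj

/-- `∑_i s^a_{(x,i)}`. -/
noncomputable def tot (n : ℕ) (a : Fin 3) (x : V) :
    Matrix (V × Fin n → Fin (1 + 1)) (V × Fin n → Fin (1 + 1)) ℂ :=
  ∑ i : Fin n, siteOpV ((x, i) : V × Fin n) (Model.spin 1 a)

theorem tot_mul (n : ℕ) (a : Fin 3) (x : V) :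
    tot n a x * WV n V = WV n V * siteOpV x (Model.spin n a) := by
  rw [tot, Matrix.sum_mul, WV_eq]
  have h1 : ∀ i : Fin n, siteOpV ((x, i) : V × Fin n) (Model.spin 1 a) *
      (prodR fun _ : V => W1 n).submatrix (cu V n) id =
      (prodR fun y : V => if y = x then siteOpV i (Model.spin 1 a) * W1 n else W1 n).submatrix
        (cu V n) id := by
    intro i
    rw [siteOp_copy, Matrix.submatrix_mul_equiv, prodR_mul]
    congr 2
    funext y
    by_cases hy : y = x
    · rw [if_pos hy, if_pos hy]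
    · rw [if_neg hy, if_neg hy, Matrix.one_mul]
  rw [Finset.sum_congr rfl fun i _ => h1 i]
  have h2 : (∑ i : Fin n,
      (prodR fun y : V => if y = x then siteOpV i (Model.spin 1 a) * W1 n else W1 n).submatrix
        (cu V n) id) =
      (∑ i : Fin n,
        (prodR fun y : V => if y = x then siteOpV i (Model.spin 1 a) * W1 n else W1 n)).submatrix
          (cu V n) id := by
    ext σ τ
    simp [Matrix.sum_apply]
  rw [h2, prodR_sum, ← Matrix.sum_mul, site_spin]
  have h3 : siteOpV x (Model.spin n a) = prodR fun y : V => if y = x then Model.spin n a else 1 :=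
    rfl
  rw [h3]
  have h4 : (prodR fun _ : V => W1 n).submatrix (cu V n) id *
      (prodR fun y : V => if y = x then Model.spin n a else 1) =
      ((prodR fun _ : V => W1 n) *
        (prodR fun y : V => if y = x then Model.spin n a else 1)).submatrix (cu V n) id := by
    ext σ τ
    simp [Matrix.mul_apply]
  rw [h4, prodR_mul]
  congr 2
  funext y
  by_cases hy : y = x
  · rw [if_pos hy, if_pos hy]
  · rw [if_neg hy, if_neg hy, Matrix.mul_one]

/-- The Hamiltonian of the copies. -/
noncomputable def hamC (n : ℕ) (J : V → V → Prop) [DecidableRel J] (h : ℂ) :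
    Matrix (V × Fin n → Fin (1 + 1)) (V × Fin n → Fin (1 + 1)) ℂ :=
  -((1 / 2 : ℂ) • ∑ x : V, ∑ y : V,
      if J x y then ∑ a : Fin 3, tot n a x * tot n a y else 0) - h • ∑ x : V, tot n 2 x

theorem hamC_mul (n : ℕ) (J : V → V → Prop) [DecidableRel J] (h : ℂ) :
    hamC n J h * WV n V =
      WV n V * (Model.hamiltonian n J - h • Model.magnetization n V) := by
  have hs : ∀ (x : V) (A : Matrix (Fin (n + 1)) (Fin (n + 1)) ℂ),
      Model.siteOp x A = siteOpV x A := fun x A => rfl
  rw [hamC, Model.hamiltonian, Model.magnetization]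
  simp only [hs]
  rw [Matrix.sub_mul, Matrix.mul_sub, Matrix.neg_mul, Matrix.mul_neg, Matrix.smul_mul,
    Matrix.mul_smul, Matrix.smul_mul, Matrix.mul_smul, Matrix.sum_mul, Matrix.mul_sum,
    Matrix.sum_mul, Matrix.mul_sum]
  congr 1
  · congr 2
    refine Finset.sum_congr rfl fun x _ => ?_
    rw [Matrix.sum_mul, Matrix.mul_sum]
    refine Finset.sum_congr rfl fun y _ => ?_
    split_ifs
    · rw [Matrix.sum_mul, Matrix.mul_sum]
      refine Finset.sum_congr rfl fun a _ => ?_
      rw [Matrix.mul_assoc, tot_mul, ← Matrix.mul_assoc, tot_mul, Matrix.mul_assoc]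
    · simp
  · congr 1
    refine Finset.sum_congr rfl fun x _ => ?_
    rw [tot_mul]

end Many

section Exp

variable {α β : Type*} [Fintype α] [DecidableEq α] [Fintype β] [DecidableEq β]

theorem exp_intertwine {A : Matrix α α ℂ} {B : Matrix β β ℂ} {W : Matrix α β ℂ}
    (h : A * W = W * B) : NormedSpace.exp A * W = W * NormedSpace.exp B := by
  let _ : NormedRing (Matrix α α ℂ) := Matrix.linftyOpNormedRing
  let _ : NormedAlgebra ℂ (Matrix α α ℂ) := Matrix.linftyOpNormedAlgebra
  let _ : NormedRing (Matrix β β ℂ) := Matrix.linftyOpNormedRing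
  let _ : NormedAlgebra ℂ (Matrix β β ℂ) := Matrix.linftyOpNormedAlgebra
  have hpow : ∀ k : ℕ, A ^ k * W = W * B ^ k := by
    intro k
    induction k with
    | zero => simp
    | succ k ih =>
      rw [pow_succ, Matrix.mul_assoc, h, ← Matrix.mul_assoc, ih, Matrix.mul_assoc, ← pow_succ]
  have hA := NormedSpace.exp_series_hasSum_exp' (𝕂 := ℂ) A
  have hB := NormedSpace.exp_series_hasSum_exp' (𝕂 := ℂ) B
  have h1 : HasSum (fun k : ℕ => ((k.factorial : ℂ)⁻¹ • A ^ k) * W) (NormedSpace.exp A * W) := by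
    let φ : Matrix α α ℂ →+ Matrix α β ℂ :=
      { toFun := fun M => M * W, map_zero' := Matrix.zero_mul W,
        map_add' := fun M N => Matrix.add_mul M N W }
    exact hA.map φ (continuous_id.matrix_mul continuous_const)
  have h2 : HasSum (fun k : ℕ => W * ((k.factorial : ℂ)⁻¹ • B ^ k)) (W * NormedSpace.exp B) := by
    let φ : Matrix β β ℂ →+ Matrix α β ℂ :=
      { toFun := fun M => W * M, map_zero' := Matrix.mul_zero W,
        map_add' := fun M N => Matrix.mul_add W M N }
    exact hB.map φ (continuous_const.matrix_mul continuous_id)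
  refine h1.unique ?_
  have h3 : (fun k : ℕ => ((k.factorial : ℂ)⁻¹ • A ^ k) * W) =
      fun k : ℕ => W * ((k.factorial : ℂ)⁻¹ • B ^ k) := by
    funext k
    rw [Matrix.smul_mul, Matrix.mul_smul, hpow]
  rw [h3]
  exact h2

theorem trace_exp_bridge {A : Matrix α α ℂ} {B : Matrix β β ℂ} {W : Matrix α β ℂ}
    (h : A * W = W * B) (hW : Wᴴ * W = 1) :
    Matrix.trace (NormedSpace.exp B) = Matrix.trace (NormedSpace.exp A * (W * Wᴴ)) := by
  have h1 := exp_intertwine h
  calc Matrix.trace (NormedSpace.exp B)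
      = Matrix.trace ((Wᴴ * W) * NormedSpace.exp B) := by rw [hW, Matrix.one_mul]
    _ = Matrix.trace (Wᴴ * (NormedSpace.exp A * W)) := by rw [Matrix.mul_assoc, h1]
    _ = Matrix.trace (NormedSpace.exp A * W * Wᴴ) := by rw [Matrix.trace_mul_comm]
    _ = Matrix.trace (NormedSpace.exp A * (W * Wᴴ)) := by rw [Matrix.mul_assoc]

end Exp

section Pi

variable {V : Type} [Fintype V] [DecidableEq V]

/-- The symmetriser at one site. -/
noncomputable def sym1 (n : ℕ) : Matrix (Fin n → Fin (1 + 1)) (Fin n → Fin (1 + 1)) ℂ :=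
  Matrix.of fun s t => if dn s = dn t then ((n.choose (dn s) : ℂ))⁻¹ else 0

theorem W1_mul_conj (n : ℕ) : W1 n * (W1 n)ᴴ = sym1 n := by
  ext s t
  rw [Matrix.mul_apply]
  simp only [W1, sym1, Matrix.conjTranspose_apply, Matrix.of_apply]
  by_cases h : dn s = dn t
  · rw [if_pos h]
    have hs := dn_le s
    rw [Finset.sum_eq_single (⟨dn s, by omega⟩ : Fin (n + 1))]
    · rw [if_pos rfl, if_pos h.symm]
      have hc : ∀ r : ℝ, star (r : ℂ) = (r : ℂ) := Complex.conj_ofReal
      have h1 : (0 : ℝ) < (n.choose (dn s) : ℝ) := by exact_mod_cast Nat.choose_pos hs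
      rw [hc, ← Complex.ofReal_mul, ← mul_inv, Real.mul_self_sqrt h1.le]
      push_cast
      rfl
    · intro b _ hb
      have : ¬ dn s = (b : ℕ) := fun hh => hb (Fin.ext (by simp [hh]))
      rw [if_neg this, zero_mul]
    · intro hh; exact absurd (Finset.mem_univ _) hh
  · rw [if_neg h]
    refine Finset.sum_eq_zero fun b _ => ?_
    by_cases hb : dn s = (b : ℕ)
    · have : ¬ dn t = (b : ℕ) := fun hh => h (hb.trans hh.symm)
      rw [if_neg this, star_zero, mul_zero]
    · rw [if_neg hb, zero_mul]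

/-- The symmetriser at all sites. -/
noncomputable def symV (n : ℕ) (V : Type) [Fintype V] :
    Matrix (V × Fin n → Fin (1 + 1)) (V × Fin n → Fin (1 + 1)) ℂ :=
  Matrix.of fun σ τ => ∏ x : V, sym1 n (fun i => σ (x, i)) (fun i => τ (x, i))

theorem WV_mul_conj (n : ℕ) : WV n V * (WV n V)ᴴ = symV n V := by
  rw [WV_eq, Matrix.conjTranspose_submatrix, prodR_conjTranspose]
  have h4 : (prodR fun _ : V => W1 n).submatrix (cu V n) id *
      (prodR fun _ : V => (W1 n)ᴴ).submatrix id (cu V n) =
      ((prodR fun _ : V => W1 n) * (prodR fun _ : V => (W1 n)ᴴ)).submatrix (cu V n) (cu V n) := by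
    ext σ τ
    simp [Matrix.mul_apply]
  rw [h4, prodR_mul]
  simp only [W1_mul_conj]
  rfl

/-- **The bridge**: partition function of spin `n / 2` as a symmetrised trace over `n` copies of
spin `1 / 2`. -/
theorem trace_exp_spin (n : ℕ) (J : V → V → Prop) [DecidableRel J] (β h : ℝ) :
    Matrix.trace (NormedSpace.exp
      (-(β : ℂ) • (Model.hamiltonian n J - (h : ℂ) • Model.magnetization n V))) =
    Matrix.trace (NormedSpace.exp (-(β : ℂ) • hamC n J (h : ℂ)) * symV n V) := by
  rw [← WV_mul_conj]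
  refine trace_exp_bridge ?_ (WV_conj_mul n)
  rw [Matrix.smul_mul, Matrix.mul_smul, hamC_mul]

end Pi

end Vale.Agent.P361.LRO.GenS
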