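import Vale.Agent.P361.LRO.Net.Lower

/-!
P361 LRO, all spins: merging nodes of a network.
-/

namespace Vale.Agent.P361.LRO.GenS

open Finset _root_.P361.LRO Vale.Agent.P361.LRO

set_option linter.unusedSectionVars false

variable {X X' : Type} [Fintype X] [DecidableEq X] [Fintype X'] [DecidableEq X']

/-- Merge the nodes with the same image. -/
noncomputable def mgC (f : X → X') (c : X → X → ℝ) (u v : X') : ℝ :=
  if u = v then 0 else ∑ x, ∑ y, if f x = u ∧ f y = v then c x y else 0

theorem netK_mgC (f : X → X') (c : X → X → ℝ) (a : X' → ℝ) :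
    netK (mgC f c) a = netK c (fun x => a (f x)) := by
  unfold netK mgC
  congr 1
  have h1 : ∀ u v : X', (if u = v then (0 : ℝ) else
      ∑ x, ∑ y, if f x = u ∧ f y = v then c x y else 0) * (a u - a v) ^ 2 =
      ∑ x, ∑ y, if f x = u ∧ f y = v then c x y * (a (f x) - a (f y)) ^ 2 else 0 := by
    intro u v
    by_cases huv : u = v
    · subst huv
      rw [if_pos rfl, zero_mul]
      symm
      refine Finset.sum_eq_zero fun x _ => Finset.sum_eq_zero fun y _ => ?_
      split_ifs with h
      · rw [h.1, h.2, sub_self]; ring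
      · rfl
    · rw [if_neg huv, Finset.sum_mul]
      refine Finset.sum_congr rfl fun x _ => ?_
      rw [Finset.sum_mul]
      refine Finset.sum_congr rfl fun y _ => ?_
      split_ifs with h
      · rw [h.1, h.2]
      · rw [zero_mul]
  simp only [h1]
  have h2 : ∀ u : X', ∑ v : X', ∑ x, ∑ y,
      (if f x = u ∧ f y = v then c x y * (a (f x) - a (f y)) ^ 2 else 0) =
      ∑ x, if f x = u then ∑ y, c x y * (a (f x) - a (f y)) ^ 2 else 0 := by
    intro u
    rw [Finset.sum_comm]
    refine Finset.sum_congr rfl fun x _ => ?_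
    rw [Finset.sum_comm]
    by_cases hx : f x = u
    · simp [hx]
    · simp [hx]
  simp only [h2]
  rw [Finset.sum_comm]
  refine Finset.sum_congr rfl fun x _ => ?_
  simp

theorem mgC_symm {f : X → X'} {c : X → X → ℝ} (hc : ∀ x y, c x y = c y x) (u v : X') :
    mgC f c u v = mgC f c v u := by
  unfold mgC
  by_cases h : u = v
  · subst h; rfl
  · rw [if_neg h, if_neg (Ne.symm h), Finset.sum_comm]
    refine Finset.sum_congr rfl fun x _ => Finset.sum_congr rfl fun y _ => ?_
    rw [hc x y]
    simp only [and_comm]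

theorem mgC_nonneg {f : X → X'} {c : X → X → ℝ} (hc : ∀ x y, 0 ≤ c x y) (u v : X') :
    0 ≤ mgC f c u v := by
  unfold mgC
  split_ifs
  · exact le_rfl
  · refine Finset.sum_nonneg fun x _ => Finset.sum_nonneg fun y _ => ?_
    split_ifs
    · exact hc x y
    · exact le_rfl

/-- Single pairs. -/
theorem le_mgC {f : X → X'} {c : X → X → ℝ} (hc : ∀ x y, 0 ≤ c x y) {x y : X}
    (h : f x ≠ f y) : c x y ≤ mgC f c (f x) (f y) := by
  unfold mgC
  rw [if_neg h]
  have h1 : ∀ x' ∈ (univ : Finset X), 0 ≤ ∑ y', if f x' = f x ∧ f y' = f y then c x' y' else 0 := by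
    intro x' _
    refine Finset.sum_nonneg fun y' _ => ?_
    split_ifs
    · exact hc _ _
    · exact le_rfl
  refine le_trans ?_ (Finset.single_le_sum h1 (Finset.mem_univ x))
  have h2 : ∀ y' ∈ (univ : Finset X), 0 ≤ if f x = f x ∧ f y' = f y then c x y' else 0 := by
    intro y' _
    split_ifs
    · exact hc _ _
    · exact le_rfl
  refine le_trans ?_ (Finset.single_le_sum h2 (Finset.mem_univ y))
  simp

/-- Sums over a fibre. -/
theorem sum_le_mgC {f : X → X'} {c : X → X → ℝ} (hc : ∀ x y, 0 ≤ c x y) {u : X'} {y : X}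
    (h : u ≠ f y) : ∑ x, (if f x = u then c x y else 0) ≤ mgC f c u (f y) := by
  unfold mgC
  rw [if_neg h]
  refine Finset.sum_le_sum fun x _ => ?_
  by_cases hx : f x = u
  · simp only [hx, if_true, true_and]
    have h2 : ∀ y' ∈ (univ : Finset X), 0 ≤ if f y' = f y then c x y' else 0 := by
      intro y' _
      split_ifs
      · exact hc _ _
      · exact le_rfl
    refine le_trans ?_ (Finset.single_le_sum h2 (Finset.mem_univ y))
    simp
  · simp [hx]

/-- Total conductance at a node with a one-point fibre. -/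
theorem sum_mgC_le {f : X → X'} {c : X → X → ℝ} (hc : ∀ x y, 0 ≤ c x y) {x : X}
    (h : ∀ y, f y = f x → y = x) : ∑ v, mgC f c (f x) v ≤ ∑ y, c x y := by
  have h1 : ∀ v, mgC f c (f x) v ≤ ∑ y, if f y = v then c x y else 0 := by
    intro v
    unfold mgC
    split_ifs with hv
    · refine Finset.sum_nonneg fun y _ => ?_
      split_ifs
      · exact hc _ _
      · exact le_rfl
    · rw [Finset.sum_eq_single x]
      · simp
      · intro y _ hy
        refine Finset.sum_eq_zero fun z _ => ?_
        rw [if_neg]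
        rintro ⟨h1, _⟩
        exact hy (h y h1)
      · intro hx
        exact absurd (Finset.mem_univ x) hx
  refine (Finset.sum_le_sum fun v _ => h1 v).trans ?_
  rw [Finset.sum_comm]
  refine Finset.sum_le_sum fun y _ => ?_
  simp

/-- Potentials may be changed at nodes without conductances. -/
theorem netK_congr_zero {c : X → X → ℝ} (hs : ∀ x y, c x y = c y x) {a a' : X → ℝ}
    (h : ∀ x, a x = a' x ∨ ∀ y, c x y = 0) : netK c a = netK c a' := by
  unfold netK
  congr 1
  refine Finset.sum_congr rfl fun x _ => Finset.sum_congr rfl fun y _ => ?_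
  rcases h x with hx | hx
  · rcases h y with hy | hy
    · rw [hx, hy]
    · rw [hs x y, hy x]; ring
  · rw [hx y]; ring

theorem netK_const_mul (t : ℝ) (c : X → X → ℝ) (a : X → ℝ) :
    netK (fun x y => t * c x y) a = t * netK c a := by
  unfold netK
  simp only [mul_assoc, ← Finset.mul_sum]
  ring

end Vale.Agent.P361.LRO.GenS
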