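import Vale.Agent.P361.LRO.GenS.Many
import Vale.Agent.P361.LRO.GenS.Fusion
import Vale.Agent.P361.LRO.GenS.Lm
import Vale.Agent.P361.LRO.Fin.Bridge

/-!
P361, general spin: facts about the symmetriser, real form of the spin bridge.
-/

namespace Vale.Agent.P361.LRO.GenS

open Finset Matrix Equiv

noncomputable section

variable {V : Type} [Fintype V] [DecidableEq V] {m : ℕ} [NeZero m]

/-- The complex symmetriser of `Many.lean` is the product of the gates. -/
theorem symV_eq : symV m V = cM (symProd V m) := by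
  ext σ τ
  rw [cM_apply, symProd_apply, symV, Matrix.of_apply]
  have hd : ∀ (ρ : V × Fin m → Fin 2) (x : V), dn (fun i => ρ (x, i)) = cnt ρ x := by
    intro ρ x
    rw [dn_eq_card]
    rfl
  simp only [sym1, Matrix.of_apply]
  by_cases h : cnt σ = cnt τ
  · rw [if_pos h, Complex.ofReal_prod]
    refine prod_congr rfl fun x _ => ?_
    rw [if_pos (by rw [hd, hd, h]), hd]
    push_cast
    rfl
  · rw [if_neg h]
    obtain ⟨x, hx⟩ := Function.ne_iff.1 h
    rw [Complex.ofReal_zero]
    refine prod_eq_zero (mem_univ x) ?_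
    rw [if_neg]
    rw [hd, hd]
    exact hx

/-- Vectors invariant under the exchanges of copies are fixed by the symmetriser. -/
theorem symProd_mulVec (v : (V × Fin m → Fin 2) → ℝ)
    (hv : ∀ (x : V) (a b : Fin m), swapM (x, a) (x, b) *ᵥ v = v) : symProd V m *ᵥ v = v := by
  have key : ∀ l : List ((V × Fin m) × (V × Fin m) × ℝ), (∀ e ∈ l, e.1.1 = e.2.1.1) →
      (l.map gM).prod *ᵥ v = v := by
    intro l hl
    induction l with
    | nil => simp
    | cons e l ih =>
      rw [List.map_cons, List.prod_cons, ← Matrix.mulVec_mulVec,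
        ih fun e he => hl e (by simp [he])]
      have he := hl e (by simp)
      obtain ⟨⟨x, a⟩, ⟨y, b⟩, p⟩ := e
      dsimp only at he
      subst he
      rw [gM, Matrix.add_mulVec, Matrix.smul_mulVec, Matrix.smul_mulVec, Matrix.one_mulVec,
        hv x a b, ← add_smul]
      simp
  exact key _ symGates_site

/-- Same for matrices. -/
theorem symProd_mul_eq (B : Matrix (V × Fin m → Fin 2) (V × Fin m → Fin 2) ℝ)
    (hB : ∀ (x : V) (a b : Fin m), swapM (x, a) (x, b) * B = B) : symProd V m * B = B := by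
  have key : ∀ l : List ((V × Fin m) × (V × Fin m) × ℝ), (∀ e ∈ l, e.1.1 = e.2.1.1) →
      (l.map gM).prod * B = B := by
    intro l hl
    induction l with
    | nil => simp
    | cons e l ih =>
      rw [List.map_cons, List.prod_cons, mul_assoc, ih fun e he => hl e (by simp [he])]
      have he := hl e (by simp)
      obtain ⟨⟨x, a⟩, ⟨y, b⟩, p⟩ := e
      dsimp only at he
      subst he
      rw [gM, add_mul, smul_mul_assoc, one_mul, smul_mul_assoc, hB x a b, ← add_smul]
      simp
  exact key _ symGates_site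

/-! ### Copy edges -/

omit [Fintype V] [DecidableEq V] [NeZero m] in
theorem sum_interL {M : Type*} [AddCommMonoid M] (L : List (V × V))
    (f : (V × Fin m) × (V × Fin m) → M) :
    ((interL L m).map f).sum
      = (L.map fun e => ∑ ab : Fin m × Fin m, f ((e.1, ab.1), (e.2, ab.2))).sum := by
  induction L with
  | nil => simp [interL]
  | cons e L ih =>
    rw [interL] at ih ⊢
    rw [List.flatMap_cons, List.map_append, List.sum_append, ih, List.map_cons, List.sum_cons]
    congr 1
    rw [List.map_map, Finset.sum_map_toList]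
    rfl

/-- Conjugation of an exchange. -/
theorem swapM_conj {ι : Type} [Fintype ι] [DecidableEq ι] (x y z w : ι) :
    swapM x y * swapM z w = swapM (swap x y z) (swap x y w) * swapM x y := by
  rw [← permU_swap, ← permU_swap, ← permU_swap, ← map_mul, ← map_mul,
    Equiv.mul_swap_eq_swap_mul]

/-- Conjugation of `σ³`. -/
theorem swapM_szM {ι : Type} [Fintype ι] [DecidableEq ι] (x y z : ι) :
    swapM x y * szM z = szM (swap x y z) * swapM x y := by
  ext σ τ
  rw [swapM_mul_apply, mul_swapM_apply, szM, szM, Matrix.diagonal_apply, Matrix.diagonal_apply]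
  by_cases h : σ ∘ swap x y = τ
  · subst h
    have h2 : σ = (σ ∘ swap x y) ∘ swap x y := by
      funext u
      simp
    rw [if_pos rfl, if_pos h2]
    simp
  · rw [if_neg h, if_neg]
    intro h2
    apply h
    rw [h2]
    funext u
    simp

omit [Fintype V] [NeZero m] in
theorem swap_site (x : V) (a b : Fin m) (u : V) (c : Fin m) :
    swap (x, a) (x, b) (u, c) = (u, (if u = x then swap a b else 1) c) := by
  by_cases hu : u = x
  · subst hu
    rw [if_pos rfl]
    rcases eq_or_ne c a with rfl | hca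
    · rw [Equiv.swap_apply_left, Equiv.swap_apply_left]
    · rcases eq_or_ne c b with rfl | hcb
      · rw [Equiv.swap_apply_right, Equiv.swap_apply_right]
      · rw [Equiv.swap_apply_of_ne_of_ne hca hcb, Equiv.swap_apply_of_ne_of_ne]
        · simpa using hca
        · simpa using hcb
  · rw [if_neg hu, Equiv.swap_apply_of_ne_of_ne]
    · rfl
    · rintro h
      exact hu (congrArg Prod.fst h)
    · rintro h
      exact hu (congrArg Prod.fst h)

omit [NeZero m] in
/-- The Hamiltonian of the copies commutes with the exchanges of copies of a site. -/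
theorem comm_ham (L : List (V × V)) (h : V → ℝ) (x : V) (a b : Fin m) :
    Commute (swapM (x, a) (x, b)) (ham (interL L m) (lift m h)) := by
  rw [ham]
  refine Commute.sub_right ?_ ?_
  · rw [sum_interL]
    refine List.sum_induction (fun M => Commute (swapM (x, a) (x, b)) M)
      (fun A B hA hB => Commute.add_right hA hB) (Commute.zero_right _) ?_
    intro M hM
    rw [List.mem_map] at hM
    obtain ⟨e, -, rfl⟩ := hM
    have e1 : swapM (x, a) (x, b) * ∑ ab : Fin m × Fin m, LRO.hM (e.1, ab.1) (e.2, ab.2)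
        = (∑ ab : Fin m × Fin m, LRO.hM (e.1, (if e.1 = x then swap a b else 1) ab.1)
            (e.2, (if e.2 = x then swap a b else 1) ab.2)) * swapM (x, a) (x, b) := by
      rw [Finset.mul_sum, Finset.sum_mul]
      refine sum_congr rfl fun ab _ => ?_
      rw [LRO.hM, LRO.hM, mul_smul_comm, smul_mul_assoc, mul_sub, sub_mul, mul_one, one_mul,
        swapM_conj, swap_site, swap_site]
    have e2 : (∑ ab : Fin m × Fin m, LRO.hM (e.1, (if e.1 = x then swap a b else 1) ab.1)
            (e.2, (if e.2 = x then swap a b else 1) ab.2))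
        = ∑ ab : Fin m × Fin m, LRO.hM (e.1, ab.1) (e.2, ab.2) :=
      Equiv.sum_comp (Equiv.prodCongr (if e.1 = x then swap a b else 1 : Perm (Fin m))
        (if e.2 = x then swap a b else 1 : Perm (Fin m)))
        (fun ab : Fin m × Fin m => LRO.hM (e.1, ab.1) (e.2, ab.2))
    rw [e2] at e1
    exact e1
  · have e1 : swapM (x, a) (x, b) * ∑ z : V × Fin m, (lift m h z / 2) • szM z
        = (∑ z : V × Fin m, (lift m h (swap (x, a) (x, b) z) / 2) •
            szM (swap (x, a) (x, b) z)) * swapM (x, a) (x, b) := by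
      rw [Finset.mul_sum, Finset.sum_mul]
      refine sum_congr rfl fun z _ => ?_
      have hz : lift m h (swap (x, a) (x, b) z) = lift m h z := by
        obtain ⟨u, c⟩ := z
        rw [swap_site]
        rfl
      rw [mul_smul_comm, smul_mul_assoc, swapM_szM, hz]
    have e2 : (∑ z : V × Fin m, (lift m h (swap (x, a) (x, b) z) / 2) •
            szM (swap (x, a) (x, b) z)) = ∑ z : V × Fin m, (lift m h z / 2) • szM z :=
      Equiv.sum_comp (swap (x, a) (x, b)) (fun z : V × Fin m => (lift m h z / 2) • szM z)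
    rw [e2] at e1
    exact e1

/-- The symmetriser commutes with the Hamiltonian. -/
theorem symProd_comm_ham (L : List (V × V)) (h : V → ℝ) :
    Commute (symProd V m) (ham (interL L m) (lift m h)) :=
  symProd_comm _ fun x a b => comm_ham L h x a b

/-- The intra-site part vanishes on the range of the symmetriser. -/
theorem intraM_mul_symProd : intraM V m * symProd V m = 0 := by
  rw [intraM]
  have key : ∀ l : List ((V × Fin m) × (V × Fin m)), (∀ e ∈ l, e.1.1 = e.2.1) →
      (l.map fun e => LRO.hM e.1 e.2).sum * symProd V m = 0 := by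
    intro l hl
    induction l with
    | nil => simp
    | cons e l ih =>
      rw [List.map_cons, List.sum_cons, add_mul, ih fun e he => hl e (by simp [he]), add_zero]
      have he := hl e (by simp)
      obtain ⟨⟨x, a⟩, ⟨y, b⟩⟩ := e
      dsimp only at he
      subst he
      rw [LRO.hM, smul_mul_assoc, sub_mul, one_mul, swapM_mul_symProd, sub_self, smul_zero]
  exact key _ fun e he => (mem_intraL.1 he).1

/-- Quadratic form of `h_xy`. -/
theorem hM_quad {ι : Type} [Fintype ι] [DecidableEq ι] (x y : ι) (v : (ι → Fin 2) → ℝ) :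
    v ⬝ᵥ (LRO.hM x y *ᵥ v) = (1 / 4) * ∑ σ, (v σ - (swapM x y *ᵥ v) σ) ^ 2 := by
  have hsq : ∑ σ, (swapM x y *ᵥ v) σ ^ 2 = ∑ σ, v σ ^ 2 := by
    have h1 : ∀ σ, (swapM x y *ᵥ v) σ = v (σ ∘ swap x y) := by
      intro σ
      rw [← permU_swap, Matrix.mulVec, dotProduct, Finset.sum_eq_single (σ ∘ swap x y)]
      · rw [permU_apply, if_pos rfl, one_mul]
      · intro ρ _ hρ
        rw [permU_apply, if_neg (Ne.symm hρ), zero_mul]
      · intro h
        exact absurd (mem_univ _) h
    simp only [h1]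
    exact Equiv.sum_comp ((swap x y).arrowCongr (Equiv.refl (Fin 2))) (fun σ => v σ ^ 2)
  rw [LRO.hM, Matrix.smul_mulVec, Matrix.sub_mulVec, Matrix.one_mulVec, dotProduct_smul,
    dotProduct_sub, smul_eq_mul]
  have h2 : ∑ σ, (v σ - (swapM x y *ᵥ v) σ) ^ 2
      = ∑ σ, v σ ^ 2 - 2 * ∑ σ, v σ * (swapM x y *ᵥ v) σ + ∑ σ, (swapM x y *ᵥ v) σ ^ 2 := by
    rw [Finset.mul_sum, ← Finset.sum_sub_distrib, ← Finset.sum_add_distrib]
    exact sum_congr rfl fun σ _ => by ring
  rw [h2, hsq]
  simp only [dotProduct]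
  have h3 : ∑ σ, v σ * v σ = ∑ σ, v σ ^ 2 := sum_congr rfl fun σ _ => by ring
  rw [h3]
  ring

omit [NeZero m] in
theorem intraM_quad_nonneg_eq (v : (V × Fin m → Fin 2) → ℝ) (l : List ((V × Fin m) × (V × Fin m))) :
    0 ≤ v ⬝ᵥ ((l.map fun e => LRO.hM e.1 e.2).sum *ᵥ v) ∧
      (v ⬝ᵥ ((l.map fun e => LRO.hM e.1 e.2).sum *ᵥ v) = 0 →
        ∀ e ∈ l, swapM e.1 e.2 *ᵥ v = v) := by
  induction l with
  | nil => simp
  | cons e l ih =>
    rw [List.map_cons, List.sum_cons, Matrix.add_mulVec, dotProduct_add]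
    have h0 : 0 ≤ v ⬝ᵥ (LRO.hM e.1 e.2 *ᵥ v) := by
      rw [hM_quad]
      positivity
    refine ⟨add_nonneg h0 ih.1, fun h => ?_⟩
    have h1 : v ⬝ᵥ (LRO.hM e.1 e.2 *ᵥ v) = 0 := by
      have := ih.1
      linarith
    have h2 : v ⬝ᵥ ((l.map fun e => LRO.hM e.1 e.2).sum *ᵥ v) = 0 := by
      linarith
    intro f hf
    rcases List.mem_cons.1 hf with rfl | hf
    · rw [hM_quad] at h1
      have h3 : ∑ σ, (v σ - (swapM f.1 f.2 *ᵥ v) σ) ^ 2 = 0 := by
        linarith
      rw [Finset.sum_eq_zero_iff_of_nonneg fun σ _ => sq_nonneg _] at h3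
      funext σ
      have h4 := h3 σ (mem_univ _)
      rw [sq_eq_zero_iff] at h4
      linarith
    · exact ih.2 h2 f hf

/-- The kernel of the intra-site part is the range of the symmetriser. -/
theorem symProd_mulVec_of_intra (v : (V × Fin m → Fin 2) → ℝ) (hv : intraM V m *ᵥ v = 0) :
    symProd V m *ᵥ v = v := by
  apply symProd_mulVec
  have h0 : v ⬝ᵥ (((intraL V m).map fun e => LRO.hM e.1 e.2).sum *ᵥ v) = 0 := by
    have : ((intraL V m).map fun e => LRO.hM e.1 e.2).sum *ᵥ v = 0 := hv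
    rw [this, dotProduct_zero]
  have h1 := (intraM_quad_nonneg_eq v (intraL V m)).2 h0
  intro x a b
  rcases lt_trichotomy a b with h | h | h
  · exact h1 ((x, a), (x, b)) (mem_intraL.2 ⟨rfl, h⟩)
  · subst h
    rw [← permU_swap, Equiv.swap_self]
    have : (Equiv.refl (V × Fin m) : Perm (V × Fin m)) = 1 := rfl
    rw [this, map_one, Matrix.one_mulVec]
  · rw [← permU_swap, Equiv.swap_comm, permU_swap]
    exact h1 ((x, b), (x, a)) (mem_intraL.2 ⟨rfl, h⟩)

/-! ### The real form of the spin bridge -/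

omit [NeZero m] in
theorem tot_mul_tot (x y : V) (hxy : x ≠ y) :
    ∑ a : Fin 3, tot m a x * tot m a y
      = ((m : ℂ) ^ 2 * (1 / 4)) • (1 : Matrix (V × Fin m → Fin 2) (V × Fin m → Fin 2) ℂ)
        - cM (∑ ab : Fin m × Fin m, LRO.hM (x, ab.1) (y, ab.2)) := by
  have h1 : ∀ ab : Fin m × Fin m, cM (LRO.hM ((x, ab.1) : V × Fin m) (y, ab.2))
      = (1 / 4 : ℂ) • (1 : Matrix (V × Fin m → Fin 2) (V × Fin m → Fin 2) ℂ) -
        ∑ a : Fin 3, siteOpV ((x, ab.1) : V × Fin m) (Model.spin 1 a) *
          siteOpV ((y, ab.2) : V × Fin m) (Model.spin 1 a) := by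
    intro ab
    exact cM_hM (by
      intro h
      exact hxy (congrArg Prod.fst h))
  rw [cM_sum, Finset.sum_congr rfl fun ab _ => h1 ab, Finset.sum_sub_distrib, Finset.sum_const,
    Finset.card_univ, Fintype.card_prod, Fintype.card_fin, ← Nat.cast_smul_eq_nsmul ℂ, smul_smul]
  have h2 : ∑ a : Fin 3, tot m a x * tot m a y = ∑ ab : Fin m × Fin m,
      ∑ a : Fin 3, siteOpV ((x, ab.1) : V × Fin m) (Model.spin 1 a) *
          siteOpV ((y, ab.2) : V × Fin m) (Model.spin 1 a) := by
    rw [Finset.sum_comm]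
    refine Finset.sum_congr rfl fun a _ => ?_
    rw [tot, tot, Finset.sum_mul_sum, Fintype.sum_prod_type]
  rw [h2]
  push_cast
  module

omit [NeZero m] in
theorem tot_z (x : V) : tot m 2 x = cM (∑ i : Fin m, (1 / 2 : ℝ) • szM ((x, i) : V × Fin m)) := by
  rw [tot, cM_sum]
  refine Finset.sum_congr rfl fun i _ => ?_
  have h2 : (((1 / 2 : ℝ) : ℝ) : ℂ) * 2 = 1 := by
    push_cast
    norm_num
  rw [cM_smul, cM_sz, smul_smul, h2, one_smul]
  rfl

end

section torusS

variable {n : ℕ} [NeZero n] {s : ℕ}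

/-- The Hamiltonian of the copies in the swap form. -/
theorem hamC_eq (hn : 3 ≤ n) (h : ℝ) :
    hamC s (torusAdj n) (h : ℂ) =
      cM (ham (interL (edges n) s) (lift s fun _ : Tor n => h)) -
        (((s : ℂ) ^ 2 * (1 / 4)) * (Fintype.card (Tor n × Fin 3) : ℂ)) •
          (1 : Matrix (Tor n × Fin s → Fin 2) (Tor n × Fin s → Fin 2) ℂ) := by
  have hn1 : 1 < n := by omega
  have hne : ∀ z : Tor n × Fin 3, z.1 ≠ z.1 + Pi.single z.2 1 := by
    intro z hz
    have : Fact (1 < n) := ⟨hn1⟩
    have h2 : (Pi.single z.2 1 : Tor n) = 0 := (left_eq_add.1 hz)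
    have h3 := congrFun h2 z.2
    rw [Pi.single_eq_same, Pi.zero_apply] at h3
    exact one_ne_zero h3
  rw [hamC, sum_torusAdj hn (fun x y => ∑ a : Fin 3, tot s a x * tot s a y)]
  have e1 : ∀ z : Tor n × Fin 3, ∑ a : Fin 3, tot s a z.1 * tot s a (z.1 + Pi.single z.2 1)
      = ((s : ℂ) ^ 2 * (1 / 4)) • (1 : Matrix (Tor n × Fin s → Fin 2) (Tor n × Fin s → Fin 2) ℂ)
        - cM (∑ ab : Fin s × Fin s, LRO.hM (z.1, ab.1) (z.1 + Pi.single z.2 1, ab.2)) :=
    fun z => tot_mul_tot _ _ (hne z)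
  have hsym : ∀ x y : Tor n, (∑ ab : Fin s × Fin s, LRO.hM ((x, ab.1) : Tor n × Fin s) (y, ab.2))
      = ∑ ab : Fin s × Fin s, LRO.hM ((y, ab.1) : Tor n × Fin s) (x, ab.2) := by
    intro x y
    rw [← Equiv.sum_comp (Equiv.prodComm (Fin s) (Fin s))]
    refine Finset.sum_congr rfl fun ab _ => ?_
    simp only [Equiv.prodComm_apply, Prod.fst_swap, Prod.snd_swap]
    rw [LRO.hM, LRO.hM, ← permU_swap, ← permU_swap, Equiv.swap_comm]
  have e2 : ∀ z : Tor n × Fin 3, ∑ a : Fin 3, tot s a (z.1 + Pi.single z.2 1) * tot s a z.1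
      = ((s : ℂ) ^ 2 * (1 / 4)) • (1 : Matrix (Tor n × Fin s → Fin 2) (Tor n × Fin s → Fin 2) ℂ)
        - cM (∑ ab : Fin s × Fin s, LRO.hM (z.1, ab.1) (z.1 + Pi.single z.2 1, ab.2)) := by
    intro z
    rw [tot_mul_tot _ _ (hne z).symm, hsym]
  rw [Finset.sum_congr rfl fun z _ => e1 z, Finset.sum_congr rfl fun z _ => e2 z]
  rw [ham, sum_interL, sum_edges, cM_sub, cM_sum, Finset.sum_sub_distrib, Finset.sum_const,
    Finset.card_univ, ← Nat.cast_smul_eq_nsmul ℂ, smul_smul]
  have e3 : (h : ℂ) • ∑ x : Tor n, tot s 2 x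
      = cM (∑ z : Tor n × Fin s, (lift s (fun _ : Tor n => h) z / 2) • szM z) := by
    rw [Fintype.sum_prod_type, cM_sum, Finset.smul_sum]
    refine Finset.sum_congr rfl fun x _ => ?_
    rw [tot_z, ← cM_smul, Finset.smul_sum]
    congr 1
    refine Finset.sum_congr rfl fun i _ => ?_
    rw [smul_smul]
    congr 1
    rw [lift]
    ring
  rw [e3]
  have key : ∀ (A O M : Matrix (Tor n × Fin s → Fin 2) (Tor n × Fin s → Fin 2) ℂ) (k k' : ℂ),
      k = k' → -((1 / 2 : ℂ) • ((k • O - A) + (k • O - A))) - M = A - M - k' • O := by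
    intro A O M k k' hk
    subst hk
    module
  exact key _ _ _ _ _ (mul_comm _ _)

theorem exp_hamC_eq (hn : 3 ≤ n) (β h : ℝ) :
    NormedSpace.exp (-(β : ℂ) • hamC s (torusAdj n) (h : ℂ)) =
      ((Real.exp (β * ((s : ℝ) ^ 2 * (1 / 4) * (Fintype.card (Tor n × Fin 3)))) : ℝ) : ℂ) •
        cM (NormedSpace.exp (-β • ham (interL (edges n) s) (lift s fun _ : Tor n => h))) := by
  have e1 : -(β : ℂ) • hamC s (torusAdj n) (h : ℂ) =
      cM (-β • ham (interL (edges n) s) (lift s fun _ : Tor n => h)) +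
        ((β * ((s : ℝ) ^ 2 * (1 / 4) * (Fintype.card (Tor n × Fin 3))) : ℝ) : ℂ) •
          (1 : Matrix (Tor n × Fin s → Fin 2) (Tor n × Fin s → Fin 2) ℂ) := by
    rw [hamC_eq hn, cM_smul]
    have key : ∀ (X O : Matrix (Tor n × Fin s → Fin 2) (Tor n × Fin s → Fin 2) ℂ)
        (k : ℂ), -(β : ℂ) • (X - k • O) = (-(β : ℂ)) • X + ((β : ℂ) * k) • O := by
      intro X O k
      module
    rw [key]
    push_cast
    rfl
  rw [e1, exp_add_smul_one, exp_cM]

/-- `Tr (e^B M) = Tr (e^A M' W Wᴴ)` if `A W = W B`, `M' W = W M`. -/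
theorem trace_exp_mul_bridge {α β : Type*} [Fintype α] [DecidableEq α] [Fintype β] [DecidableEq β]
    {A M' : Matrix α α ℂ} {B M : Matrix β β ℂ} {W : Matrix α β ℂ}
    (h : A * W = W * B) (hM : M' * W = W * M) (hW : Wᴴ * W = 1) :
    Matrix.trace (NormedSpace.exp B * M) =
      Matrix.trace (W * Wᴴ * NormedSpace.exp A * M') := by
  have h1 := exp_intertwine h
  calc Matrix.trace (NormedSpace.exp B * M)
      = Matrix.trace ((Wᴴ * W) * NormedSpace.exp B * M) := by rw [hW, Matrix.one_mul]
    _ = Matrix.trace (Wᴴ * (NormedSpace.exp A * (M' * W))) := by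
        rw [hM, ← Matrix.mul_assoc (NormedSpace.exp A), h1]
        simp only [Matrix.mul_assoc]
    _ = Matrix.trace ((Wᴴ * (NormedSpace.exp A * M')) * W) := by
        simp only [Matrix.mul_assoc]
    _ = Matrix.trace (W * (Wᴴ * (NormedSpace.exp A * M'))) := by rw [Matrix.trace_mul_comm]
    _ = Matrix.trace (W * Wᴴ * NormedSpace.exp A * M') := by
        simp only [Matrix.mul_assoc]

variable [NeZero s]

/-- **Real form of the bridge** (partition function). -/
theorem trace_exp_spin_real (hn : 3 ≤ n) (β h : ℝ) :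
    Matrix.trace (NormedSpace.exp (expoV s (torusAdj n) β h)) =
      ((Real.exp (β * ((s : ℝ) ^ 2 * (1 / 4) * (Fintype.card (Tor n × Fin 3)))) *
        Matrix.trace (symProd (Tor n) s *
          NormedSpace.exp (-β • ham (interL (edges n) s) (lift s fun _ : Tor n => h))) : ℝ) :
            ℂ) := by
  have h0 : expoV s (torusAdj n) β h = -(β : ℂ) • (Model.hamiltonian s (torusAdj n) -
    (h : ℂ) • Model.magnetization s (Tor n)) := rfl
  rw [h0, trace_exp_spin, exp_hamC_eq hn, symV_eq, Matrix.smul_mul, Matrix.trace_smul, ← cM_mul,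
    trace_cM, smul_eq_mul, Matrix.trace_mul_comm, Complex.ofReal_mul]

/-- **Real form of the bridge** (magnetization). -/
theorem trace_exp_mag_real (hn : 3 ≤ n) (β h : ℝ) :
    Matrix.trace (NormedSpace.exp (expoV s (torusAdj n) β h) * Model.magnetization s (Tor n)) =
      ((Real.exp (β * ((s : ℝ) ^ 2 * (1 / 4) * (Fintype.card (Tor n × Fin 3)))) *
        Matrix.trace (symProd (Tor n) s *
          NormedSpace.exp (-β • ham (interL (edges n) s) (lift s fun _ : Tor n => h)) *
          ∑ z : Tor n × Fin s, (1 / 2 : ℝ) • szM z) : ℝ) : ℂ) := by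
  have h0 : expoV s (torusAdj n) β h = -(β : ℂ) • (Model.hamiltonian s (torusAdj n) -
    (h : ℂ) • Model.magnetization s (Tor n)) := rfl
  have hA : (-(β : ℂ) • hamC s (torusAdj n) (h : ℂ)) * WV s (Tor n) =
      WV s (Tor n) * expoV s (torusAdj n) β h := by
    rw [h0, Matrix.smul_mul, Matrix.mul_smul, hamC_mul]
  have hM : (∑ x : Tor n, tot s 2 x) * WV s (Tor n) =
      WV s (Tor n) * Model.magnetization s (Tor n) := by
    have h1 : Model.magnetization s (Tor n) = ∑ x : Tor n, siteOpV x (Model.spin s 2) := rfl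
    rw [h1, Matrix.sum_mul, Matrix.mul_sum]
    exact Finset.sum_congr rfl fun x _ => tot_mul s 2 x
  rw [trace_exp_mul_bridge hA hM (WV_conj_mul s), WV_mul_conj, exp_hamC_eq hn, symV_eq]
  have hS : (∑ x : Tor n, tot s 2 x) = cM (∑ z : Tor n × Fin s, (1 / 2 : ℝ) • szM z) := by
    rw [Fintype.sum_prod_type, cM_sum]
    exact Finset.sum_congr rfl fun x _ => tot_z x
  rw [hS, Matrix.mul_smul, Matrix.smul_mul, Matrix.trace_smul, ← cM_mul, ← cM_mul, trace_cM,
    smul_eq_mul, Complex.ofReal_mul]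

/-- The magnetization of the spin `s / 2` model in terms of the copies. -/
theorem gibbsMagV_spin (hn : 3 ≤ n) (β h : ℝ) :
    gibbsMagV s (torusAdj n) β h =
      Matrix.trace (symProd (Tor n) s *
          NormedSpace.exp (-β • ham (interL (edges n) s) (lift s fun _ : Tor n => h)) *
          ∑ z : Tor n × Fin s, (1 / 2 : ℝ) • szM z) /
        Matrix.trace (symProd (Tor n) s *
          NormedSpace.exp (-β • ham (interL (edges n) s) (lift s fun _ : Tor n => h))) := by
  rw [gibbsMagV, trace_exp_mag_real hn, trace_exp_spin_real hn, Complex.ofReal_re,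
    Complex.ofReal_re, mul_div_mul_left _ _ (Real.exp_pos _).ne']

/-- The symmetrised partition function is positive. -/
theorem trace_symProd_exp_pos (hn : 3 ≤ n) (β h : ℝ) :
    0 < Matrix.trace (symProd (Tor n) s *
          NormedSpace.exp (-β • ham (interL (edges n) s) (lift s fun _ : Tor n => h))) := by
  have h1 := trace_exp_pos (expoV_isHermitian s (torusAdj n) (torusAdj_irrefl (by omega)) β h)
  rw [trace_exp_spin_real hn, Complex.ofReal_re] at h1
  exact (mul_pos_iff_of_pos_left (Real.exp_pos _)).1 h1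

end torusS

end Vale.Agent.P361.LRO.GenS
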