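import Vale.Agent.P361.SiteAlg
import Vale.Agent.P361.Model

/-!
General spin, one site: the spin `n / 2` is the symmetric part of `n` spins `1 / 2`.
-/

namespace Vale.Agent.P361.LRO.GenS

open Matrix Finset

set_option linter.unusedSectionVars false

theorem fin2_cases (c : Fin (1 + 1)) : c = 0 ∨ c = 1 := by
  fin_cases c <;> simp

theorem sum2 (f : Fin (1 + 1) → ℂ) : ∑ c, f c = f 0 + f 1 := Fin.sum_univ_two f

/-- Number of down spins. -/
def dn {n : ℕ} (s : Fin n → Fin (1 + 1)) : ℕ := ∑ i, (s i : ℕ)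

theorem dn_le {n : ℕ} (s : Fin n → Fin (1 + 1)) : dn s ≤ n := by
  unfold dn
  calc ∑ i, (s i : ℕ) ≤ ∑ _i : Fin n, 1 := Finset.sum_le_sum fun i _ => by omega
    _ = n := by simp

theorem dn_eq_card {n : ℕ} (s : Fin n → Fin (1 + 1)) :
    dn s = (univ.filter fun i => s i = 1).card := by
  unfold dn
  rw [Finset.card_filter]
  refine Finset.sum_congr rfl fun i _ => ?_
  have : s i = 0 ∨ s i = 1 := fin2_cases _
  rcases this with h | h <;> simp [h]

theorem card_dn {n : ℕ} (k : ℕ) :
    (univ.filter fun s : Fin n → Fin (1 + 1) => dn s = k).card = n.choose k := by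
  have h : (univ.filter fun s : Fin n → Fin (1 + 1) => dn s = k).card =
      ((univ : Finset (Fin n)).powersetCard k).card := by
    refine Finset.card_bij (fun s _ => univ.filter fun i => s i = 1) ?_ ?_ ?_
    · intro s hs
      rw [Finset.mem_filter] at hs
      rw [Finset.mem_powersetCard]
      exact ⟨Finset.filter_subset _ _, by rw [← dn_eq_card]; exact hs.2⟩
    · intro s _ t _ hst
      funext i
      have := congrArg (fun A => i ∈ A) hst
      simp only [Finset.mem_filter, Finset.mem_univ, true_and, eq_iff_iff] at this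
      have h1 : s i = 0 ∨ s i = 1 := fin2_cases _
      have h2 : t i = 0 ∨ t i = 1 := fin2_cases _
      rcases h1 with h1 | h1 <;> rcases h2 with h2 | h2 <;> simp_all
    · intro A hA
      rw [Finset.mem_powersetCard] at hA
      refine ⟨fun i => if i ∈ A then 1 else 0, ?_, ?_⟩
      · rw [Finset.mem_filter]
        refine ⟨Finset.mem_univ _, ?_⟩
        rw [dn_eq_card, ← hA.2]
        congr 1
        ext i
        by_cases h : i ∈ A <;> simp [h]
      · ext i
        by_cases h : i ∈ A <;> simp [h]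
  rw [h, Finset.card_powersetCard, Finset.card_univ, Fintype.card_fin]

/-- The isometry onto the symmetric tensors. -/
noncomputable def W1 (n : ℕ) : Matrix (Fin n → Fin (1 + 1)) (Fin (n + 1)) ℂ :=
  Matrix.of fun s j => if dn s = (j : ℕ) then (((Real.sqrt (n.choose (j : ℕ)))⁻¹ : ℝ) : ℂ) else 0

theorem choose_pos' {n : ℕ} (j : Fin (n + 1)) : (0 : ℝ) < (n.choose (j : ℕ) : ℝ) := by
  have := Nat.choose_pos (Nat.lt_succ_iff.1 j.2)
  exact_mod_cast this

theorem W1_conj_mul (n : ℕ) : (W1 n)ᴴ * W1 n = 1 := by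
  ext i j
  rw [Matrix.mul_apply, Matrix.one_apply]
  simp only [W1, Matrix.conjTranspose_apply, Matrix.of_apply]
  by_cases hij : i = j
  · subst hij
    rw [if_pos rfl]
    have h1 : ∀ s : Fin n → Fin (1 + 1),
        star (if dn s = (i : ℕ) then (((Real.sqrt (n.choose (i : ℕ)))⁻¹ : ℝ) : ℂ) else 0) *
          (if dn s = (i : ℕ) then (((Real.sqrt (n.choose (i : ℕ)))⁻¹ : ℝ) : ℂ) else 0) =
        if dn s = (i : ℕ) then (((n.choose (i : ℕ) : ℝ)⁻¹ : ℝ) : ℂ) else 0 := by
      intro s
      split_ifs with h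
      · have hs : star (((Real.sqrt (n.choose (i : ℕ)))⁻¹ : ℝ) : ℂ) =
            (((Real.sqrt (n.choose (i : ℕ)))⁻¹ : ℝ) : ℂ) := Complex.conj_ofReal _
        rw [hs, ← Complex.ofReal_mul, ← mul_inv, Real.mul_self_sqrt (choose_pos' i).le]
      · simp
    rw [Finset.sum_congr rfl fun s _ => h1 s, ← Finset.sum_filter, Finset.sum_const,
      card_dn, nsmul_eq_mul]
    have h0 : ((n.choose (i : ℕ) : ℕ) : ℂ) ≠ 0 := by
      have := Nat.choose_pos (Nat.lt_succ_iff.1 i.2)
      exact_mod_cast this.ne'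
    push_cast
    field_simp
  · rw [if_neg hij]
    refine Finset.sum_eq_zero fun s _ => ?_
    by_cases h : dn s = (i : ℕ)
    · have : ¬ dn s = (j : ℕ) := fun h2 => hij (Fin.ext (h.symm.trans h2))
      rw [if_neg this, mul_zero]
    · rw [if_neg h, star_zero, zero_mul]

section

variable {V d e : Type*} [Fintype V] [DecidableEq V] [Fintype d] [DecidableEq d]

theorem siteOpV_mul_apply (x : V) (A : Matrix d d ℂ) (M : Matrix (V → d) e ℂ) (σ : V → d) (j : e) :
    (siteOpV x A * M) σ j = ∑ c, A (σ x) c * M (Function.update σ x c) j := by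
  rw [Matrix.mul_apply]
  rw [← Finset.sum_subset (Finset.subset_univ
    ((univ : Finset d).image fun c => Function.update σ x c))]
  · rw [Finset.sum_image]
    · refine Finset.sum_congr rfl fun c _ => ?_
      congr 1
      rw [siteOpV_apply]
      rw [Finset.prod_eq_one, mul_one, Function.update_self]
      intro y hy
      rw [Function.update_of_ne (Finset.ne_of_mem_erase hy), Matrix.one_apply_eq]
    · intro c _ c' _ h
      have := congrFun h x
      simpa using this
  · intro τ _ hτ
    have : siteOpV x A σ τ = 0 := by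
      rw [siteOpV_apply]
      have hne : ∃ y, y ≠ x ∧ σ y ≠ τ y := by
        by_contra hcon
        push Not at hcon
        apply hτ
        rw [Finset.mem_image]
        refine ⟨τ x, Finset.mem_univ _, ?_⟩
        funext y
        by_cases hy : y = x
        · subst hy; simp
        · rw [Function.update_of_ne hy, hcon y hy]
      obtain ⟨y, hy, hne⟩ := hne
      rw [Finset.prod_eq_zero (Finset.mem_erase.2 ⟨hy, Finset.mem_univ _⟩), mul_zero]
      rw [Matrix.one_apply_ne hne]
    rw [this, zero_mul]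

end

theorem dn_update {n : ℕ} (s : Fin n → Fin (1 + 1)) (i : Fin n) (c : Fin (1 + 1)) :
    dn (Function.update s i c) + (s i : ℕ) = dn s + (c : ℕ) := by
  unfold dn
  rw [← Finset.add_sum_erase _ _ (Finset.mem_univ i),
    ← Finset.add_sum_erase univ (fun j => (s j : ℕ)) (Finset.mem_univ i)]
  rw [Function.update_self]
  have : ∑ j ∈ univ.erase i, ((Function.update s i c j : Fin (1 + 1)) : ℕ) =
      ∑ j ∈ univ.erase i, (s j : ℕ) :=
    Finset.sum_congr rfl fun j hj => by rw [Function.update_of_ne (Finset.ne_of_mem_erase hj)]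
  rw [this]
  ring

/-- `S³`. -/
theorem site_Z (n : ℕ) :
    (∑ i : Fin n, siteOpV i (Model.spinZ 1)) * W1 n = W1 n * Model.spinZ n := by
  ext s j
  rw [Matrix.sum_mul, Matrix.sum_apply]
  simp only [siteOpV_mul_apply, sum2]
  have h1 : ∀ i : Fin n, Model.spinZ 1 (s i) 0 * W1 n (Function.update s i 0) j +
      Model.spinZ 1 (s i) 1 * W1 n (Function.update s i 1) j =
      ((1 : ℂ) / 2 - ((s i : ℕ) : ℂ)) * W1 n s j := by
    intro i
    have hu : Function.update s i (s i) = s := Function.update_eq_self i s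
    have : s i = 0 ∨ s i = 1 := fin2_cases _
    rcases this with h | h
    · rw [h] at hu ⊢
      simp [Model.spinZ, hu]
    · rw [h] at hu ⊢
      simp [Model.spinZ, hu]
  rw [Finset.sum_congr rfl fun i _ => h1 i, ← Finset.sum_mul, Finset.sum_sub_distrib]
  simp only [Finset.sum_const, Finset.card_univ, Fintype.card_fin, nsmul_eq_mul]
  rw [Model.spinZ, Matrix.mul_diagonal, mul_comm]
  by_cases h : dn s = (j : ℕ)
  · have : (∑ i, ((s i : ℕ) : ℂ)) = ((j : ℕ) : ℂ) := by
      rw [← h]; unfold dn; push_cast; rfl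
    rw [this]; ring_nf
  · simp [W1, h]

theorem sqrt_lower {n k : ℕ} (hk : k < n) :
    ((k : ℝ) + 1) * (Real.sqrt (n.choose k))⁻¹ =
      (Real.sqrt (n.choose (k + 1)))⁻¹ * Real.sqrt (((k : ℝ) + 1) * (n - k)) := by
  have h1 : (0 : ℝ) < (n.choose k : ℝ) := by exact_mod_cast Nat.choose_pos hk.le
  have h2 : (0 : ℝ) < (n.choose (k + 1) : ℝ) := by exact_mod_cast Nat.choose_pos hk
  have h3 : (n.choose (k + 1) : ℝ) * ((k : ℝ) + 1) = (n.choose k : ℝ) * ((n : ℝ) - k) := by
    have := Nat.choose_succ_right_eq n k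
    have h4 : ((n.choose (k + 1) * (k + 1) : ℕ) : ℝ) = ((n.choose k * (n - k) : ℕ) : ℝ) := by
      rw [this]
    rw [Nat.cast_mul, Nat.cast_mul, Nat.cast_sub hk.le] at h4
    push_cast at h4
    linarith
  have hnk : (0 : ℝ) < (n : ℝ) - k := by
    have : (k : ℝ) < n := by exact_mod_cast hk
    linarith
  have hk1 : (0 : ℝ) < (k : ℝ) + 1 := by positivity
  have hr1 := Real.sqrt_pos.2 h1
  have hr2 := Real.sqrt_pos.2 h2
  rw [← sq_eq_sq₀ (by positivity) (by positivity)]
  rw [mul_pow, mul_pow, inv_pow, inv_pow, Real.sq_sqrt h1.le, Real.sq_sqrt h2.le,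
    Real.sq_sqrt (by positivity)]
  field_simp
  nlinarith [h3]

/-- `S⁻`. -/
theorem site_L (n : ℕ) :
    (∑ i : Fin n, siteOpV i (Model.spinLower 1)) * W1 n = W1 n * Model.spinLower n := by
  ext s j
  rw [Matrix.sum_mul, Matrix.sum_apply]
  simp only [siteOpV_mul_apply, sum2]
  have h1 : ∀ i : Fin n, Model.spinLower 1 (s i) 0 * W1 n (Function.update s i 0) j +
      Model.spinLower 1 (s i) 1 * W1 n (Function.update s i 1) j =
      ((s i : ℕ) : ℂ) * (if dn s = (j : ℕ) + 1 then
        (((Real.sqrt (n.choose (j : ℕ)))⁻¹ : ℝ) : ℂ) else 0) := by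
    intro i
    have hd := dn_update s i 0
    have : s i = 0 ∨ s i = 1 := fin2_cases _
    rcases this with h | h
    · rw [h]
      simp [Model.spinLower]
    · rw [h] at hd ⊢
      have hd' : dn (Function.update s i 0) = (j : ℕ) ↔ dn s = (j : ℕ) + 1 := by
        have : dn (Function.update s i 0) + 1 = dn s := by simpa using hd
        omega
      simp only [Model.spinLower, Matrix.of_apply, W1]
      by_cases hj : dn s = (j : ℕ) + 1
      · rw [if_pos (hd'.2 hj), if_pos hj]
        norm_num
      · rw [if_neg (fun hh => hj (hd'.1 hh)), if_neg hj]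
        norm_num
  rw [Finset.sum_congr rfl fun i _ => h1 i, ← Finset.sum_mul]
  rw [Matrix.mul_apply]
  have hsum : (∑ i, ((s i : ℕ) : ℂ)) = ((dn s : ℕ) : ℂ) := by unfold dn; push_cast; rfl
  rw [hsum]
  by_cases hj : dn s = (j : ℕ) + 1
  · rw [if_pos hj]
    have hjn : (j : ℕ) < n := by have := dn_le s; omega
    rw [Finset.sum_eq_single (⟨(j : ℕ) + 1, by omega⟩ : Fin (n + 1))]
    · simp only [W1, Model.spinLower, Matrix.of_apply]
      rw [if_pos hj, if_pos trivial, hj]
      rw [← Complex.ofReal_natCast, ← Complex.ofReal_mul, ← Complex.ofReal_mul]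
      congr 1
      have := sqrt_lower (n := n) (k := (j : ℕ)) hjn
      push_cast
      rw [this]
      congr 2
      ring
    · intro b _ hb
      have : ¬ dn s = (b : ℕ) := fun hh => hb (Fin.ext (by simp; omega))
      simp [W1, this]
    · intro hh; exact absurd (Finset.mem_univ _) hh
  · rw [if_neg hj, mul_zero]
    symm
    refine Finset.sum_eq_zero fun b _ => ?_
    simp only [W1, Model.spinLower, Matrix.of_apply]
    by_cases hb : dn s = (b : ℕ)
    · have : ¬ (b : ℕ) = (j : ℕ) + 1 := fun hh => hj (hb.trans hh)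
      rw [if_neg this, mul_zero]
    · rw [if_neg hb, zero_mul]

/-- `S⁺`. -/
theorem site_R (n : ℕ) :
    (∑ i : Fin n, siteOpV i (Model.spinLower 1)ᴴ) * W1 n = W1 n * (Model.spinLower n)ᴴ := by
  ext s j
  rw [Matrix.sum_mul, Matrix.sum_apply]
  simp only [siteOpV_mul_apply, sum2]
  have h1 : ∀ i : Fin n, (Model.spinLower 1)ᴴ (s i) 0 * W1 n (Function.update s i 0) j +
      (Model.spinLower 1)ᴴ (s i) 1 * W1 n (Function.update s i 1) j =
      (1 - ((s i : ℕ) : ℂ)) * (if dn s + 1 = (j : ℕ) then
        (((Real.sqrt (n.choose (j : ℕ)))⁻¹ : ℝ) : ℂ) else 0) := by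
    intro i
    have hd := dn_update s i 1
    have : s i = 0 ∨ s i = 1 := fin2_cases _
    rcases this with h | h
    · rw [h] at hd ⊢
      have hd' : dn (Function.update s i 1) = dn s + 1 := by simpa using hd
      simp only [Model.spinLower, Matrix.conjTranspose_apply, Matrix.of_apply, W1]
      rw [hd']
      by_cases hj : dn s + 1 = (j : ℕ)
      · rw [if_pos hj]
        norm_num
      · rw [if_neg hj]
        norm_num
    · rw [h]
      simp [Model.spinLower]
  rw [Finset.sum_congr rfl fun i _ => h1 i, ← Finset.sum_mul]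
  rw [Matrix.mul_apply]
  have hsum : (∑ i : Fin n, (1 - ((s i : ℕ) : ℂ))) = (n : ℂ) - ((dn s : ℕ) : ℂ) := by
    rw [Finset.sum_sub_distrib]; unfold dn; push_cast; simp
  rw [hsum]
  by_cases hj : dn s + 1 = (j : ℕ)
  · rw [if_pos hj]
    have hjn : dn s < n := by have := j.2; omega
    rw [Finset.sum_eq_single (⟨dn s, by omega⟩ : Fin (n + 1))]
    · simp only [W1, Model.spinLower, Matrix.of_apply, Matrix.conjTranspose_apply]
      rw [if_pos trivial, if_pos hj.symm]
      have hc : ∀ r : ℝ, star (r : ℂ) = (r : ℂ) := Complex.conj_ofReal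
      rw [hc, ← Complex.ofReal_natCast, ← Complex.ofReal_natCast, ← Complex.ofReal_sub,
        ← Complex.ofReal_mul, ← Complex.ofReal_mul]
      congr 1
      rw [← hj]
      have hk := sqrt_lower (n := n) (k := dn s) hjn
      set k := dn s with hkdef
      have h1 : (0 : ℝ) < (n.choose k : ℝ) := by exact_mod_cast Nat.choose_pos hjn.le
      have h2 : (0 : ℝ) < (n.choose (k + 1) : ℝ) := by exact_mod_cast Nat.choose_pos hjn
      have hnk : (0 : ℝ) < (n : ℝ) - k := by
        have : (k : ℝ) < n := by exact_mod_cast hjn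
        linarith
      have hk1 : (0 : ℝ) < (k : ℝ) + 1 := by positivity
      have h3 : (n.choose (k + 1) : ℝ) * ((k : ℝ) + 1) = (n.choose k : ℝ) * ((n : ℝ) - k) := by
        have := Nat.choose_succ_right_eq n k
        have h4 : ((n.choose (k + 1) * (k + 1) : ℕ) : ℝ) = ((n.choose k * (n - k) : ℕ) : ℝ) := by
          rw [this]
        rw [Nat.cast_mul, Nat.cast_mul, Nat.cast_sub hjn.le] at h4
        push_cast at h4
        linarith
      have hr1 := Real.sqrt_pos.2 h1
      have hr2 := Real.sqrt_pos.2 h2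
      push_cast
      have e1 : ((k : ℝ) + 1) * ((n : ℝ) + 1 - ((k : ℝ) + 1)) = ((k : ℝ) + 1) * ((n : ℝ) - k) := by
        ring
      rw [e1, ← sq_eq_sq₀ (by positivity) (by positivity)]
      rw [mul_pow, mul_pow, inv_pow, inv_pow, Real.sq_sqrt h1.le, Real.sq_sqrt h2.le,
        Real.sq_sqrt (by positivity)]
      field_simp
      nlinarith [h3]
    · intro b _ hb
      have : ¬ dn s = (b : ℕ) := fun hh => hb (Fin.ext (by simp; omega))
      simp [W1, this]
    · intro hh; exact absurd (Finset.mem_univ _) hh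
  · rw [if_neg hj, mul_zero]
    symm
    refine Finset.sum_eq_zero fun b _ => ?_
    simp only [W1, Model.spinLower, Matrix.of_apply, Matrix.conjTranspose_apply]
    by_cases hb : dn s = (b : ℕ)
    · have : ¬ (j : ℕ) = (b : ℕ) + 1 := fun hh => hj (by omega)
      rw [if_neg this, star_zero, mul_zero]
    · rw [if_neg hb, zero_mul]

/-- All three components. -/
theorem site_spin (n : ℕ) (a : Fin 3) :
    (∑ i : Fin n, siteOpV i (Model.spin 1 a)) * W1 n = W1 n * Model.spin n a := by
  have hL := site_L n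
  have hR := site_R n
  have hZ := site_Z n
  fin_cases a
  · show (∑ i : Fin n, siteOpV i ((1 / 2 : ℂ) • ((Model.spinLower 1)ᴴ + Model.spinLower 1))) * W1 n
      = W1 n * ((1 / 2 : ℂ) • ((Model.spinLower n)ᴴ + Model.spinLower n))
    simp only [siteOpV_smul, siteOpV_add]
    rw [← Finset.smul_sum, Finset.sum_add_distrib, Matrix.smul_mul, Matrix.add_mul, hL, hR,
      Matrix.mul_smul, Matrix.mul_add]
  · show (∑ i : Fin n, siteOpV i ((1 / (2 * Complex.I) : ℂ) •
        ((Model.spinLower 1)ᴴ - Model.spinLower 1))) * W1 n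
      = W1 n * ((1 / (2 * Complex.I) : ℂ) • ((Model.spinLower n)ᴴ - Model.spinLower n))
    simp only [siteOpV_smul, siteOpV_sub]
    rw [← Finset.smul_sum, Finset.sum_sub_distrib, Matrix.smul_mul, Matrix.sub_mul, hL, hR,
      Matrix.mul_smul, Matrix.mul_sub]
  · exact hZ

end Vale.Agent.P361.LRO.GenS
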