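import Vale.Agent.P361.LRO.GenS.Merge
import Vale.Agent.P361.LRO.GenS.Iface
import Vale.Agent.P361.LRO.Ind.LocalE

/-!
P361 LRO, all spins: the copies of a layer as slots of the layer.
-/

namespace Vale.Agent.P361.LRO.GenS

open Finset _root_.P361.LRO Vale.Agent.P361.LRO

noncomputable section

theorem slot_lt {s N : ℕ} {k : Fin (N + 1)} (hk : k ≠ 0) (i : Fin s) :
    1 + ((k : ℕ) - 1) * s + i < N * s + 1 := by
  have h1 : 1 ≤ (k : ℕ) := Nat.one_le_iff_ne_zero.2 fun h => hk (Fin.ext h)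
  have h2 : (k : ℕ) ≤ N := Nat.lt_succ_iff.1 k.2
  have h3 : ((k : ℕ) - 1) * s + s = k * s := by
    rw [← Nat.succ_mul]; congr 1; omega
  have h4 : (k : ℕ) * s ≤ N * s := Nat.mul_le_mul_right s h2
  have h5 := i.2
  omega

/-- Layer of the copy `i` of the layer `k`. -/
def slotL (s N : ℕ) (k : Fin (N + 1)) (i : Fin s) : Fin (N * s + 1) :=
  if hk : k = 0 then 0 else ⟨1 + ((k : ℕ) - 1) * s + i, slot_lt hk i⟩

/-- The copies of a physical layer become slots; the copies of the extra slice are merged. -/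
def slotF (n s N : ℕ) (z : Fin (N + 1) × (Tor n × Fin s)) : Ind.Nd n (N * s) :=
  (slotL s N z.1 z.2.2, z.2.1)

/-- The slots network. -/
def cslot (n s M : ℕ) [NeZero n] (β : ℝ) (N : ℕ) (K : ℝ) (b : Finset (Tor n)) (h : Tor n → ℝ)
    (u v : Ind.Nd n (N * s)) : ℝ :=
  (1 / (s : ℝ)) * mgC (slotF n s N)
    (Net.c0 (phys (edgesS n s M) β N) (th β N (hS h) (blk K (b ×ˢ univ)))) u v

theorem slotL_zero {s N : ℕ} (i : Fin s) : slotL s N 0 i = 0 := by
  unfold slotL; rw [dif_pos rfl]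

theorem slotL_val {s N : ℕ} {k : Fin (N + 1)} (hk : k ≠ 0) (i : Fin s) :
    (slotL s N k i : ℕ) = 1 + ((k : ℕ) - 1) * s + i := by
  unfold slotL; rw [dif_neg hk]

theorem slotL_ne {s N : ℕ} {k : Fin (N + 1)} (hk : k ≠ 0) (i : Fin s) : slotL s N k i ≠ 0 := by
  intro h
  have h1 := slotL_val hk i
  rw [h, Fin.val_zero] at h1
  omega

/-- Every physical layer of the slots network is a slot. -/
theorem exists_slot {s N : ℕ} (hs : 0 < s) {l : Fin (N * s + 1)} (hl : l ≠ 0) :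
    ∃ (k : Fin (N + 1)) (i : Fin s), k ≠ 0 ∧ slotL s N k i = l := by
  have h1 : 1 ≤ (l : ℕ) := Nat.one_le_iff_ne_zero.2 fun h => hl (Fin.ext h)
  have h2 : (l : ℕ) ≤ N * s := Nat.lt_succ_iff.1 l.2
  have h3 : ((l : ℕ) - 1) / s < N := by
    rw [Nat.div_lt_iff_lt_mul hs]; omega
  have hk : (⟨((l : ℕ) - 1) / s + 1, by omega⟩ : Fin (N + 1)) ≠ 0 := by
    intro h
    have := congrArg Fin.val h
    simp at this
  refine ⟨⟨((l : ℕ) - 1) / s + 1, by omega⟩, ⟨((l : ℕ) - 1) % s, Nat.mod_lt _ hs⟩, hk, ?_⟩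
  apply Fin.ext
  rw [slotL_val hk]
  show 1 + (((l : ℕ) - 1) / s + 1 - 1) * s + ((l : ℕ) - 1) % s = l
  rw [Nat.add_sub_cancel]
  have h4 := Nat.div_add_mod' ((l : ℕ) - 1) s
  omega

theorem slotL_inj {s N : ℕ} {k k' : Fin (N + 1)} {i i' : Fin s} (hk : k ≠ 0) (hk' : k' ≠ 0)
    (h : slotL s N k i = slotL s N k' i') : k = k' ∧ i = i' := by
  have h1 := congrArg Fin.val h
  rw [slotL_val hk, slotL_val hk'] at h1
  have hs : 0 < s := Nat.lt_of_le_of_lt (Nat.zero_le _) i.2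
  have e1 : (k : ℕ) - 1 = (k' : ℕ) - 1 := by
    have h2 : (((k : ℕ) - 1) * s + i) / s = (((k' : ℕ) - 1) * s + i') / s := by
      congr 1; omega
    rw [Nat.add_comm, Nat.add_mul_div_right _ _ hs, Nat.div_eq_of_lt i.2, Nat.add_comm _ (i' : ℕ),
      Nat.add_mul_div_right _ _ hs, Nat.div_eq_of_lt i'.2] at h2
    omega
  have h1k : 1 ≤ (k : ℕ) := Nat.one_le_iff_ne_zero.2 fun h => hk (Fin.ext h)
  have h1k' : 1 ≤ (k' : ℕ) := Nat.one_le_iff_ne_zero.2 fun h => hk' (Fin.ext h)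
  rw [e1] at h1
  exact ⟨Fin.ext (by omega), Fin.ext (by omega)⟩

/-- Physical nodes have one-point fibres. -/
theorem slotF_inj {n s N : ℕ} {x y : Fin (N + 1) × (Tor n × Fin s)} (hx : x.1 ≠ 0)
    (h : slotF n s N y = slotF n s N x) : y = x := by
  obtain ⟨k, x, i⟩ := x
  obtain ⟨l, y, j⟩ := y
  simp only [slotF, Prod.mk.injEq] at h
  have hl : l ≠ 0 := by
    intro hl
    rw [hl, slotL_zero] at h
    exact slotL_ne hx i h.1.symm
  obtain ⟨h1, h2⟩ := slotL_inj hl hx h.1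
  rw [h1, h2, h.2]

end

end Vale.Agent.P361.LRO.GenS
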