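import Vale.Agent.P361.LRO.Ind3.Defs
import Vale.Agent.P361.LRO.GenS.SlotsDefs
import Vale.Agent.P361.LRO.GenS.Merge
import Vale.Agent.P361.LRO.GenS.CoarseDefs

/-!
# P361 LRO, stage 3 for all spins: the slots encoding for cells x whole circle (helper494)

A network on the nodes with copies `(k, (x, i))`, `i : Fin s`, becomes a network on the nodes of the
slots, `N s` physical layers, one site per node; the copies of a node of the extra slice are
merged.  Long-window information on the first gives `Ind3.Local3` for the second.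
-/

namespace Vale.Agent.P361.LRO.GenS

open Finset Vale.Agent.P361.LRO _root_.P361.LRO

noncomputable section

/-- Long-window information on a network with copies (scaled field `g`, physical field
`g / (s β)`, so that the slice parameters are `g / (2 N s)`). -/
structure LocalC3 (n s N W : ℕ) [NeZero n] (e : ℕ) (K c1 : ℝ) (b : Finset (Tor n)) (g : Tor n → ℝ)
    (c : NdS n s N → NdS n s N → ℝ) : Prop where
  symm : ∀ u v, c u v = c v u
  nonneg : ∀ u v, 0 ≤ c u v
  tot : ∀ (k : Fin (N + 1)) (x : Tor n) (i : Fin s), k ≠ 0 →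
    ∑ v, c (k, (x, i)) v ≤ g x / (2 * ((N * s : ℕ) : ℝ))
  long : ∀ (k l : Fin (N + 1)) (p x y : Tor n) (i j : Fin s), k ≠ 0 → (k : ℕ) + W ≤ l →
    x ∈ cube n p (2 * 3 ^ e) → y ∈ cube n p (2 * 3 ^ e) → g x = 1 → g y = 1 →
    c1 / (((N * s : ℕ) : ℝ) ^ 2 * 27 ^ e) ≤ c (k, (x, i)) (l, (y, j))
  contact : ∀ (k : Fin (N + 1)) (p x y : Tor n) (j : Fin s), W ≤ (k : ℕ) →
    x ∈ b → x ∈ cube n p (2 * 3 ^ e) → y ∈ cube n p (2 * 3 ^ e) → g y = 1 →
    c1 * (K / b.card) / (((N * s : ℕ) : ℝ) * 27 ^ e) ≤ ∑ i, c (0, (x, i)) (k, (y, j))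

theorem slot_gap {s N W : ℕ} {k l : Fin (N + 1)} {i j : Fin s} (hk : k ≠ 0) (hl : l ≠ 0)
    (h : (slotL s N k i : ℕ) + W * s ≤ (slotL s N l j : ℕ)) : (k : ℕ) + W ≤ l := by
  rw [slotL_val hk, slotL_val hl] at h
  have hi := i.2
  have hj := j.2
  have hk1 : 1 ≤ (k : ℕ) := Nat.one_le_iff_ne_zero.2 fun h => hk (Fin.ext h)
  have hl1 : 1 ≤ (l : ℕ) := Nat.one_le_iff_ne_zero.2 fun h => hl (Fin.ext h)
  obtain ⟨k', hk'⟩ : ∃ k', (k : ℕ) = k' + 1 := ⟨(k : ℕ) - 1, by omega⟩
  obtain ⟨l', hl'⟩ : ∃ l', (l : ℕ) = l' + 1 := ⟨(l : ℕ) - 1, by omega⟩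
  rw [hk', hl'] at h ⊢
  simp only [Nat.add_sub_cancel] at h
  by_contra hcon
  have h1 : l' + 1 ≤ k' + W := by omega
  have h2 : (l' + 1) * s ≤ (k' + W) * s := Nat.mul_le_mul_right s h1
  have h3 : (l' + 1) * s = l' * s + s := by ring
  have h4 : (k' + W) * s = k' * s + W * s := by ring
  omega

theorem slot_far {s N W : ℕ} {k : Fin (N + 1)} {i : Fin s} (hk : k ≠ 0)
    (h : W * s ≤ (slotL s N k i : ℕ)) : W ≤ k := by
  rw [slotL_val hk] at h
  have hi := i.2
  have hk1 : 1 ≤ (k : ℕ) := Nat.one_le_iff_ne_zero.2 fun h => hk (Fin.ext h)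
  obtain ⟨k', hk'⟩ : ∃ k', (k : ℕ) = k' + 1 := ⟨(k : ℕ) - 1, by omega⟩
  rw [hk'] at h ⊢
  simp only [Nat.add_sub_cancel] at h
  by_contra hcon
  have h1 : k' + 2 ≤ W := by omega
  have h2 : (k' + 2) * s ≤ W * s := Nat.mul_le_mul_right s h1
  have h3 : (k' + 2) * s = k' * s + s + s := by ring
  omega

/-- The slots network satisfies the hypotheses of `Ind3.block3`. -/
theorem local3_slots {n s N W e : ℕ} [NeZero n] (hs : 0 < s) (hW : 0 < W) {K c1 : ℝ}
    {b : Finset (Tor n)} {g : Tor n → ℝ} {c : NdS n s N → NdS n s N → ℝ}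
    (hc : LocalC3 n s N W e K c1 b g c) :
    Ind3.Local3 n (N * s) (W * s) e K c1 b g (mgC (slotF n s N) c) := by
  have hsec : ∀ u : Ind.Nd n (N * s), u.1 ≠ 0 → ∃ (k : Fin (N + 1)) (i : Fin s), k ≠ 0 ∧
      slotF n s N (k, (u.2, i)) = u := by
    intro u hu
    obtain ⟨k, i, hk, h⟩ := exists_slot hs hu
    exact ⟨k, i, hk, Prod.ext h rfl⟩
  refine ⟨mgC_symm hc.symm, mgC_nonneg hc.nonneg, ?_, ?_, ?_⟩
  · intro k x hk
    obtain ⟨k', i, hk', h⟩ := hsec (k, x) hk
    have h1 := sum_mgC_le (f := slotF n s N) hc.nonneg (x := (k', (x, i)))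
      (fun y hy => slotF_inj hk' hy)
    rw [h] at h1
    exact h1.trans (hc.tot k' x i hk')
  · intro k l p x y hk hkl hx hy hgx hgy
    have hWs : 0 < W * s := Nat.mul_pos hW hs
    have hl : l ≠ 0 := by
      intro h
      rw [h, Fin.val_zero] at hkl
      omega
    obtain ⟨k', i, hk', h⟩ := hsec (k, x) hk
    obtain ⟨l', j, hl', h'⟩ := hsec (l, y) hl
    have e1 : slotL s N k' i = k := congrArg Prod.fst h
    have e2 : slotL s N l' j = l := congrArg Prod.fst h'
    have hgap : (k' : ℕ) + W ≤ l' := by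
      refine slot_gap hk' hl' (i := i) (j := j) ?_
      rw [e1, e2]; exact hkl
    have h1 := hc.long k' l' p x y i j hk' hgap hx hy hgx hgy
    refine h1.trans ?_
    have h2 := le_mgC (f := slotF n s N) hc.nonneg (x := (k', (x, i))) (y := (l', (y, j))) (by
      rw [h, h']
      intro h3
      have h4 : k = l := congrArg Prod.fst h3
      rw [h4] at hkl
      omega)
    rw [h, h'] at h2
    exact h2
  · intro k p x y hk hxb hx hy hgy
    have hWs : 0 < W * s := Nat.mul_pos hW hs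
    have hk0 : k ≠ 0 := by
      intro h
      rw [h, Fin.val_zero] at hk
      omega
    obtain ⟨k', j, hk', h⟩ := hsec (k, y) hk0
    have e1 : slotL s N k' j = k := congrArg Prod.fst h
    have hfar : W ≤ (k' : ℕ) := by
      refine slot_far hk' (i := j) ?_
      rw [e1]; exact hk
    have h1 := hc.contact k' p x y j hfar hxb hx hy hgy
    refine h1.trans ?_
    have h2 := sum_le_mgC (f := slotF n s N) hc.nonneg (u := ((0 : Fin (N * s + 1)), x))
      (y := (k', (y, j))) (by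
        rw [h]
        intro h3
        exact hk0 (congrArg Prod.fst h3).symm)
    rw [h] at h2
    refine le_trans ?_ h2
    have h3 : ∑ i, c (0, (x, i)) (k', (y, j)) =
        ∑ z ∈ (univ : Finset (Fin s)).image (fun i => ((0 : Fin (N + 1)), (x, i))),
          c z (k', (y, j)) := by
      rw [Finset.sum_image]
      intro i _ i' _ hii
      simpa using hii
    rw [h3, ← Finset.sum_filter]
    refine Finset.sum_le_sum_of_subset_of_nonneg ?_ fun z _ _ => hc.nonneg _ _
    intro z hz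
    rw [Finset.mem_image] at hz
    obtain ⟨i, -, rfl⟩ := hz
    rw [Finset.mem_filter]
    refine ⟨Finset.mem_univ _, ?_⟩
    show (slotL s N 0 i, x) = (0, x)
    rw [slotL_zero]

end

end Vale.Agent.P361.LRO.GenS
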