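import Vale.Agent.P361.LRO.GenS.SlotsLowE
import Vale.Agent.P361.LRO.GenS.SlotsLoc
import Vale.Agent.P361.LRO.GenS.LocT
import Vale.Agent.P361.LRO.Ind.NbrOnly
import Vale.Agent.P361.LRO.Ind.FinalE
import Vale.Agent.P361.LRO.Net.Master
import Vale.Agent.P361.LRO.Mag.Done

/-!
P361 LRO, all spins: `KappaStmtS` from the energy form of block (6) and the slots encoding.
-/

namespace Vale.Agent.P361.LRO.GenS

open Finset Filter _root_.P361.LRO Vale.Agent.P361.LRO Vale.Agent.P361.LRO.Net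

noncomputable section

theorem kap_eq_cslot {n s M N : ℕ} [NeZero n] [NeZero s] (β K : ℝ) (b : Finset (Tor n))
    (h : Tor n → ℝ) :
    kap (edgesS n s M) β N (hS h) K (b ×ˢ (univ : Finset (Fin s))) =
      s * netK (cslot n s M β N K b h) fun z => if z ∈ hatb (N * s) b then 1 else 0 := by
  have hs : (s : ℝ) ≠ 0 := by exact_mod_cast NeZero.ne s
  rw [netK_cslot, ← mul_assoc, mul_one_div_cancel hs, one_mul]
  unfold kap
  congr 1
  funext z
  have h1 : (z ∈ hatb N (b ×ˢ (univ : Finset (Fin s)))) ↔ slotF n s N z ∈ hatb (N * s) b := by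
    unfold hatb
    simp only [Finset.mem_product, Finset.mem_singleton, Finset.mem_univ, and_true]
    constructor
    · rintro ⟨h1, h2⟩
      exact ⟨(slotF_zero_iff z).mpr h1, h2⟩
    · rintro ⟨h1, h2⟩
      exact ⟨(slotF_zero_iff z).mp h1, h2⟩
  by_cases hz : z ∈ hatb N (b ×ˢ (univ : Finset (Fin s)))
  · rw [if_pos hz, if_pos (h1.mp hz)]
  · rw [if_neg hz, if_neg (fun h => hz (h1.mpr h))]

theorem kapS_step {s : ℕ} [NeZero s] {cl : ℝ} (hcl : 0 < cl)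
    (hL : ∀ (n N W m M : ℕ) [NeZero n] (β K : ℝ) (b : Finset (Tor n))
      (h : Tor n → ℝ), 2 ≤ n → 1 ≤ β → 8 * β ≤ N → 0 < W → N = m * W → Ind.Win β m →
      0 ≤ K → b.Nonempty → K ≤ b.card → (∀ x, 0 ≤ h x ∧ h x ≤ 1) →
      Ind.LocalN n (N * s) (W * s) β K cl b h (cslot n s M β N K b h))
    {n M m N0 : ℕ} [NeZero n] {β K h0 lam ε c3 : ℝ} {b : Finset (Tor n)} {h : Tor n → ℝ}
    (hn2 : 2 ≤ n) (hβ : 1 ≤ β) (hm : 3 * β ≤ m) (hm4 : 4 ≤ m) (hwin : Ind.Win β m) (hK : 0 ≤ K)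
    (hbne : b.Nonempty) (hKb : K ≤ b.card) (hh0 : 0 < h0) (hε0 : 0 ≤ ε) (hε : ε ^ 2 ≤ 1 / 2)
    (hc3 : 0 ≤ c3)
    (h6 : ∀ (N W : ℕ) (c : (Tor n → ℝ) → Ind.Nd n N → Ind.Nd n N → ℝ), 0 < W → N = m * W →
      (∀ g, Fam n h0 lam g → Ind.LocalE n N W m β K (cl / 200) b g (c g)) →
      Ind.LowE n N b β h0 lam ε c →
      c3 * K ≤ netK (c h) fun z => if z ∈ hatb N b then 1 else 0)
    (hM : ∀ N : ℕ, N0 ≤ N → ∀ g, Fam n h0 lam g → ∀ z : Fin (N + 1) × (Tor n × Fin s), z.1 ≠ 0 →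
      1 - ε ^ 2 ≤ mag (phys (edgesS n s M) β N) (th β N (hS g) (blk K (b ×ˢ univ))) z) :
    ∃ᶠ N : ℕ in atTop, c3 * K ≤
      kap (edgesS n s M) β N (hS h) K (b ×ˢ (univ : Finset (Fin s))) := by
  have hs : 0 < s := Nat.pos_of_ne_zero (NeZero.ne s)
  have hsR : (1 : ℝ) ≤ s := by exact_mod_cast hs
  have hβp : 0 < β := by linarith
  rw [Filter.frequently_atTop]
  intro N1
  obtain ⟨W, hW⟩ : ∃ W, W = max (max N0 N1) 8 := ⟨_, rfl⟩
  have hW8 : 8 ≤ W := by rw [hW]; exact le_max_right _ _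
  have hWp : 0 < W := by omega
  have hm3 : 1 ≤ m := by omega
  have hWN : W ≤ m * W := Nat.le_mul_of_pos_left W hm3
  have hN1 : N1 ≤ m * W :=
    ((le_max_right N0 N1).trans ((le_max_left _ 8).trans hW.ge)).trans hWN
  have hN0' : N0 ≤ m * W :=
    ((le_max_left N0 N1).trans ((le_max_left _ 8).trans hW.ge)).trans hWN
  refine ⟨m * W, hN1, ?_⟩
  have hWr : (8 : ℝ) ≤ W := by exact_mod_cast hW8
  have hN8 : 8 * β ≤ ((m * W : ℕ) : ℝ) := by
    push_cast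
    nlinarith
  have hNβ : β ≤ ((m * W : ℕ) : ℝ) := by linarith
  have hG : Good (phys (edgesS n s M) β (m * W)) := good_of_isLaw (isLaw_phys _ hβp.le hNβ)
  have hWs : 0 < W * s := Nat.mul_pos hWp hs
  have hNW : m * W * s = m * (W * s) := Nat.mul_assoc _ _ _
  have hpos : ∀ g, Fam n h0 lam g → ∀ y, 0 ≤ g y ∧ g y ≤ 1 := fun g hg y =>
    ⟨hh0.le.trans (hg.1 y).1, (hg.1 y).2⟩
  have key := h6 (m * W * s) (W * s) (cslot n s M β (m * W) K b) hWs hNW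
    (fun g hg => Ind.NbrOnly.localE_of hWs hm4 hNW hβp hcl
      (hL n (m * W) W m M β K b g hn2 hβ hN8 hWp rfl hwin hK hbne hKb (hpos g hg)))
    (lowE_slots hβp hNβ hK b hh0 hε0 hε hG (hM _ hN0'))
  rw [kap_eq_cslot β K b h]
  have h10 : 0 ≤ c3 * K := by positivity
  nlinarith

/-- **Block (6) for all spins.** -/
theorem kappaStmtS_slots (s : ℕ) (hs : 0 < s) : KappaStmtS s := by
  have : NeZero s := ⟨hs.ne'⟩
  have hsR : (1 : ℝ) ≤ s := by exact_mod_cast hs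
  obtain ⟨cl, hcl, hL⟩ := localN_slots s hs (locStmtS s)
  obtain ⟨β1, c3, c4, hβ1, hc3, hc4, h6⟩ := Ind.block6E (cl / 200) (by positivity)
  refine ⟨c3, hc3, fun A hA => ?_⟩
  -- large `β`
  have t1 : Tendsto (fun β : ℝ => β ^ (1 / 100 : ℝ)) atTop atTop := tendsto_rpow_atTop (by norm_num)
  have t2 : Tendsto (fun β : ℝ => β ^ (4 / 100 : ℝ)) atTop atTop := tendsto_rpow_atTop (by norm_num)
  have t3 : Tendsto (fun β : ℝ => β ^ (13 / 20 : ℝ)) atTop atTop := tendsto_rpow_atTop (by norm_num)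
  have t4 : Tendsto (fun β : ℝ => Real.log β / β ^ (1 / 200 : ℝ)) atTop (nhds 0) :=
    (isLittleO_log_rpow_atTop (by norm_num : (0 : ℝ) < 1 / 200)).tendsto_div_nhds_zero
  have t5 : Tendsto (fun β : ℝ => (2 * Real.exp (A / 2)) * (Real.log β / β ^ (1 / 200 : ℝ))) atTop
      (nhds 0) := by simpa using t4.const_mul (2 * Real.exp (A / 2))
  have t6 : Tendsto (fun β : ℝ => 4 * Real.exp A * β ^ (-(1 / 100) : ℝ)) atTop (nhds 0) := by
    have := (tendsto_rpow_neg_atTop (by norm_num : (0 : ℝ) < 1 / 100)).const_mul (4 * Real.exp A)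
    simpa using this
  obtain ⟨β0, hβ0⟩ := Filter.eventually_atTop.1
    (((((((eventually_ge_atTop (max β1 1)).and (t1.eventually_ge_atTop (1 / A))).and
      (t2.eventually_ge_atTop A)).and (t3.eventually_ge_atTop 3)).and
      (t5.eventually (ge_mem_nhds hc4))).and
      (t6.eventually (ge_mem_nhds (by norm_num : (0 : ℝ) < 1 / 2)))))
  refine ⟨β0, fun β hβ => ?_⟩
  obtain ⟨⟨⟨⟨⟨e1, e2⟩, e3⟩, e4⟩, e5⟩, e6⟩ := hβ0 β hβ
  have hβ1' : β1 ≤ β := (le_max_left _ _).trans e1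
  have hβ10 : 10 ≤ β := hβ1.trans hβ1'
  have hβ1r : 1 ≤ β := by linarith
  have hβp : 0 < β := by linarith
  obtain ⟨n0, h6⟩ := h6 β hβ1'
  obtain ⟨n1, hn1⟩ := exists_nat_ge β
  refine ⟨max (max n0 n1) 2, fun n _ hn hodd M a ha1 ha2 h0 hh1 hh2 hBH h hh x => ?_⟩
  have hn0 : n0 ≤ n := (le_max_left _ _).trans ((le_max_left _ _).trans hn)
  have hn1' : n1 ≤ n := (le_max_right _ _).trans ((le_max_left _ _).trans hn)
  have hn2 : 2 ≤ n := (le_max_right _ _).trans hn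
  have hnr : (0 : ℝ) < n := by exact_mod_cast (by omega : 0 < n)
  have hh0 : 0 < h0 := (Real.rpow_pos_of_pos hnr _).trans_le hh1
  set K := A * β ^ (1 / 100 : ℝ) with hK
  have hK1 : 1 ≤ K := by
    have := mul_le_mul_of_nonneg_left e2 hA.le
    rwa [mul_one_div, div_self hA.ne'] at this
  have h3β : (3 : ℝ) ^ a ≤ β := by
    refine ha2.trans ?_
    have : β ^ (7 / 20 : ℝ) * β ^ (13 / 20 : ℝ) = β := by
      rw [← Real.rpow_add hβp]; norm_num
    calc 3 * β ^ (7 / 20 : ℝ) ≤ β ^ (13 / 20 : ℝ) * β ^ (7 / 20 : ℝ) := by gcongr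
      _ = β := by rw [mul_comm]; exact this
  have h27 : K * β ≤ 27 ^ a := by
    have h1 : (β ^ (7 / 20 : ℝ)) ^ 3 ≤ ((3 : ℝ) ^ a) ^ 3 := by gcongr
    have h2 : ((3 : ℝ) ^ a) ^ 3 = 27 ^ a := by
      rw [← pow_mul, mul_comm, pow_mul]; norm_num
    have h3 : (β ^ (7 / 20 : ℝ)) ^ 3 = β ^ (21 / 20 : ℝ) := by
      rw [← Real.rpow_natCast, ← Real.rpow_mul hβp.le]; norm_num
    have h4 : β ^ (21 / 20 : ℝ) = β ^ (4 / 100 : ℝ) * (β ^ (1 / 100 : ℝ) * β) := by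
      have e : β ^ (1 / 100 : ℝ) * β = β ^ (101 / 100 : ℝ) := by
        conv_lhs => rw [← Real.rpow_one β, ← Real.rpow_mul hβp.le, ← Real.rpow_add hβp]
        norm_num
      rw [e, ← Real.rpow_add hβp]; norm_num
    rw [h2, h3, h4] at h1
    refine le_trans ?_ h1
    rw [hK, mul_assoc]
    gcongr
  have hw_le : 3 ^ a ≤ n := by
    have h1 : ((3 ^ a : ℕ) : ℝ) ≤ n := by
      push_cast
      exact h3β.trans (hn1.trans (by exact_mod_cast hn1'))
    exact_mod_cast h1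
  set b := cube n x (3 ^ a) with hb
  have hbcard : b.card = (3 ^ a) ^ 3 := cube_card_ge x hw_le
  have hbne : b.Nonempty := Finset.card_pos.1 (by rw [hbcard]; positivity)
  have hKb : K ≤ b.card := by
    rw [hbcard]
    have h1 : (((3 ^ a) ^ 3 : ℕ) : ℝ) = 27 ^ a := by
      push_cast
      rw [← pow_mul, mul_comm, pow_mul]; norm_num
    rw [h1]
    have h2 : K * 1 ≤ K * β := by gcongr
    linarith
  -- windows
  set m := ⌈3 * β⌉₊ with hm
  have hm1 : 3 * β ≤ m := Nat.le_ceil _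
  have hm2 : (m : ℝ) ≤ 4 * β := by
    have := (Nat.ceil_lt_add_one (by positivity : (0 : ℝ) ≤ 3 * β)).le
    linarith
  have hmp : (0 : ℝ) < m := by linarith
  have hm4 : 4 ≤ m := by
    have : (4 : ℝ) ≤ m := by linarith
    exact_mod_cast this
  have hwin : Ind.Win β m := by
    refine ⟨by exact_mod_cast hmp, ?_, ?_⟩
    · rw [le_div_iff₀ hmp]; linarith
    · rw [div_le_iff₀ hmp]; linarith
  -- the magnetizations
  set ε := 2 * Real.exp (A / 2) * β ^ (-(1 / 200) : ℝ) with hε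
  have hε0 : 0 ≤ ε := by positivity
  have hηp : 0 < β ^ (-(1 / 100) : ℝ) := Real.rpow_pos_of_pos hβp _
  have hKη : K * β ^ (-(1 / 100) : ℝ) = A := by
    rw [hK, mul_assoc, ← Real.rpow_add hβp]; norm_num
  have hεsq : ε ^ 2 = 4 * Real.exp A * β ^ (-(1 / 100) : ℝ) := by
    have h1 : Real.exp (A / 2) ^ 2 = Real.exp A := by
      rw [← Real.exp_nat_mul]; congr 1; push_cast; ring
    have h2 : (β ^ (-(1 / 200) : ℝ)) ^ 2 = β ^ (-(1 / 100) : ℝ) := by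
      rw [← Real.rpow_natCast, ← Real.rpow_mul hβp.le]; norm_num
    rw [hε, mul_pow, mul_pow, h1, h2]; ring
  have hBne : (b ×ˢ (univ : Finset (Fin s))).Nonempty := hbne.product Finset.univ_nonempty
  obtain ⟨N0, hN0⟩ := tr_mag (edgesS n s M) hβp (by linarith : (0 : ℝ) ≤ K) hηp hBne
  have hεlog : ε * Real.log β ≤ c4 := by
    refine le_trans (le_of_eq ?_) e5
    rw [hε, Real.rpow_neg hβp.le]
    ring
  have hlam1 : 1 / β ≤ β ^ (-(9 / 10) : ℝ) := by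
    rw [one_div, ← Real.rpow_neg_one]
    exact Real.rpow_le_rpow_of_exponent_le hβ1r (by norm_num)
  refine kapS_step (lam := β ^ (-(9 / 10) : ℝ)) hcl hL (N0 := N0) hn2 hβ1r hm1 hm4 hwin (by linarith) hbne hKb hh0 hε0
    (by rw [hεsq]; exact e6) hc3.le (fun N W c hW hN hLoc hLow => ?_) (fun N hN g hg z hz => ?_)
  · exact h6 n N W m K h0 (β ^ (-(9 / 10) : ℝ)) ε x a h c hn0 hW hN hwin h3β hK1 h27 hh1 hh2
      hlam1 hε0 hεlog hLoc hLow hh
  · have h1 := hN0 N hN (hS g) (fun y => ⟨hh0.le.trans (hg.1 y.1).1, (hg.1 y.1).2⟩)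
      (hBH g hg) z hz
    rw [hKη] at h1
    rw [hεsq]
    exact h1

end

end Vale.Agent.P361.LRO.GenS
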