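import Vale.Agent.P361.LRO.GenS.Iface
import Vale.Agent.P361.LRO.GenS.Merge
import Vale.Agent.P361.LRO.GenS.SlotsDefs
import Vale.Agent.P361.LRO.Net.LowGlue
import Vale.Agent.P361.LRO.Ind.LowE

/-!
P361 LRO, all spins: the slots encoding.  The copies of a physical layer are `s` slots; the copies
of a node of the extra slice are merged.
-/

namespace Vale.Agent.P361.LRO.GenS

open Finset _root_.P361.LRO Vale.Agent.P361.LRO Vale.Agent.P361.LRO.Ind Vale.Agent.P361.LRO.Net

set_option linter.unusedSectionVars false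

noncomputable section

variable {n s N : ℕ} [NeZero n] [NeZero s]

/-- A section of the slot map. -/
def secF (u : Nd n (N * s)) : Fin (N + 1) × (Tor n × Fin s) :=
  if h : u.1 = 0 then (0, (u.2, 0)) else
    (⟨((u.1 : ℕ) - 1) / s + 1, by
      have h0 : (u.1 : ℕ) ≠ 0 := fun h' => h (Fin.ext h')
      have h1 : (u.1 : ℕ) - 1 < N * s := by have := u.1.2; omega
      have h2 : ((u.1 : ℕ) - 1) / s < N :=
        (Nat.div_lt_iff_lt_mul (Nat.pos_of_ne_zero (NeZero.ne s))).mpr h1
      omega⟩, (u.2, ⟨((u.1 : ℕ) - 1) % s, Nat.mod_lt _ (Nat.pos_of_ne_zero (NeZero.ne s))⟩))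

theorem slotF_zero_iff (z : Fin (N + 1) × (Tor n × Fin s)) :
    (slotF n s N z).1 = 0 ↔ z.1 = 0 := by
  constructor
  · intro h
    by_contra h1
    exact slotL_ne h1 z.2.2 h
  · intro h
    show slotL s N z.1 z.2.2 = 0
    rw [h, slotL_zero]

theorem slotF_snd (z : Fin (N + 1) × (Tor n × Fin s)) : (slotF n s N z).2 = z.2.1 := rfl

theorem secF_snd (u : Nd n (N * s)) : (secF u : Fin (N + 1) × (Tor n × Fin s)).2.1 = u.2 := by
  unfold secF
  split_ifs <;> rfl

theorem slotF_secF (u : Nd n (N * s)) : slotF n s N (secF u) = u := by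
  refine Prod.ext ?_ (by rw [slotF_snd, secF_snd])
  by_cases h : u.1 = 0
  · unfold secF
    rw [dif_pos h, h]
    exact slotL_zero (0 : Fin s)
  · unfold secF
    rw [dif_neg h]
    apply Fin.ext
    have hk : (⟨((u.1 : ℕ) - 1) / s + 1, by
      have h0 : (u.1 : ℕ) ≠ 0 := fun h' => h (Fin.ext h')
      have h1 : (u.1 : ℕ) - 1 < N * s := by have := u.1.2; omega
      have h2 : ((u.1 : ℕ) - 1) / s < N :=
        (Nat.div_lt_iff_lt_mul (Nat.pos_of_ne_zero (NeZero.ne s))).mpr h1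
      omega⟩ : Fin (N + 1)) ≠ 0 := by
      intro h
      have := congrArg Fin.val h
      simp at this
    refine (slotL_val hk _).trans ?_
    show 1 + (((u.1 : ℕ) - 1) / s + 1 - 1) * s + ((u.1 : ℕ) - 1) % s = u.1
    rw [Nat.add_sub_cancel]
    have h4 := Nat.div_add_mod' ((u.1 : ℕ) - 1) s
    have h0 : (u.1 : ℕ) ≠ 0 := fun h' => h (Fin.ext h')
    omega

theorem secF_slotF {z : Fin (N + 1) × (Tor n × Fin s)} (hz : z.1 ≠ 0) :
    secF (slotF n s N z) = z :=
  slotF_inj hz (slotF_secF _)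

theorem secF_ne_zero {u : Nd n (N * s)} (hu : u.1 ≠ 0) :
    (secF u : Fin (N + 1) × (Tor n × Fin s)).1 ≠ 0 := by
  intro h
  have h1 := (slotF_zero_iff (secF u : Fin (N + 1) × (Tor n × Fin s))).mpr h
  rw [slotF_secF] at h1
  exact hu h1

/-- Sums over the physical slots. -/
theorem sum_slot (g : Nd n (N * s) → ℝ) (hg : ∀ x, g (0, x) = 0) :
    ∑ z : Fin (N + 1) × (Tor n × Fin s), (if z.1 = 0 then 0 else g (slotF n s N z)) = ∑ u, g u := by
  have h1 : ∑ u, g u = ∑ u ∈ univ.filter (fun u : Nd n (N * s) => u.1 ≠ 0), g u := by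
    rw [Finset.sum_filter]
    refine Finset.sum_congr rfl fun u _ => ?_
    split_ifs with h
    · rfl
    · rw [not_not] at h
      have : u = (0, u.2) := Prod.ext h rfl
      rw [this, hg]
  have h2 : ∑ z : Fin (N + 1) × (Tor n × Fin s), (if z.1 = 0 then 0 else g (slotF n s N z)) =
      ∑ z ∈ univ.filter (fun z : Fin (N + 1) × (Tor n × Fin s) => z.1 ≠ 0), g (slotF n s N z) := by
    rw [Finset.sum_filter]
    refine Finset.sum_congr rfl fun z _ => ?_
    by_cases h : z.1 = 0 <;> simp [h]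
  rw [h1, h2]
  refine Finset.sum_nbij' (fun z => slotF n s N z) (fun u => secF u) ?_ ?_ ?_ ?_ ?_
  · intro z hz
    rw [Finset.mem_filter] at hz ⊢
    exact ⟨Finset.mem_univ _, fun h => hz.2 ((slotF_zero_iff z).mp h)⟩
  · intro u hu
    rw [Finset.mem_filter] at hu ⊢
    exact ⟨Finset.mem_univ _, secF_ne_zero hu.2⟩
  · intro z hz
    rw [Finset.mem_filter] at hz
    exact secF_slotF hz.2
  · intro u _
    exact slotF_secF u
  · intro z _
    rfl

/-- Preimage of an electrode. -/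
def pre (E : Finset (Nd n (N * s))) : Finset (Fin (N + 1) × (Tor n × Fin s)) :=
  univ.filter fun z => slotF n s N z ∈ E

theorem mem_pre {E : Finset (Nd n (N * s))} {z : Fin (N + 1) × (Tor n × Fin s)} :
    z ∈ pre E ↔ slotF n s N z ∈ E := by
  unfold pre; simp

theorem netK_cslot (M : ℕ) (β K : ℝ) (b : Finset (Tor n)) (h : Tor n → ℝ)
    (a : Nd n (N * s) → ℝ) :
    netK (cslot n s M β N K b h) a = (1 / (s : ℝ)) *
      KK (phys (edgesS n s M) β N) (th β N (hS h) (blk K (b ×ˢ univ))) (fun z => a (slotF n s N z)) := by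
  unfold cslot
  rw [netK_const_mul, netK_mgC, netK_c0]

theorem th_mem' {V : Type} [Fintype V] [DecidableEq V] {β : ℝ} (hβ : 0 < β) {N : ℕ}
    (hN : β ≤ N) {K : ℝ} (hK : 0 ≤ K) (b : Finset V) {h : V → ℝ} (h0 : ∀ x, 0 ≤ h x)
    (h1 : ∀ x, h x ≤ 1) (z : Fin (N + 1) × V) :
    0 ≤ th β N h (blk K b) z ∧ th β N h (blk K b) z ≤ 1 := by
  have hNpos : (0 : ℝ) < N := lt_of_lt_of_le hβ hN
  unfold th
  split_ifs
  · unfold blk
    split_ifs
    · refine ⟨?_, (Real.tanh_lt_one _).le⟩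
      rw [Real.tanh_eq_sinh_div_cosh]
      exact div_nonneg (Real.sinh_nonneg_iff.mpr (by positivity)) (Real.cosh_pos _).le
    · exact ⟨le_rfl, zero_le_one⟩
  · have := h0 z.2
    refine ⟨by positivity, ?_⟩
    rw [div_le_one (by positivity)]
    nlinarith [h1 z.2]

/-- A node with `θ = 0` has no conductances. -/
theorem c0_zero {X : Type} [Fintype X] [DecidableEq X] {μ : Equiv.Perm X → ℝ} (hμ : Good μ)
    {θ : X → ℝ} (hθ : ∀ x, 0 ≤ θ x ∧ θ x ≤ 1) {z : X} (hz : θ z = 0) (v : X) :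
    c0 μ θ z v = 0 := by
  have hnn : ∀ x y, 0 ≤ c0 μ θ x y := by
    intro x y
    unfold c0
    split_ifs with hxy
    · exact le_rfl
    · exact hμ.ccnn _ hθ x y hxy
  have h1 : ∑ v, c0 μ θ z v = vv μ θ z := netV_c0 μ θ z
  have h2 := hμ.vle θ hθ z
  have h3 := Finset.single_le_sum (f := fun v => c0 μ θ z v) (fun v _ => hnn z v)
    (Finset.mem_univ v)
  have h4 := hnn z v
  rw [h1] at h3
  linarith

theorem c0_symm {X : Type} [Fintype X] [DecidableEq X] (μ : Equiv.Perm X → ℝ)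
    (θ : X → ℝ) (x y : X) : c0 μ θ x y = c0 μ θ y x := by
  unfold c0
  by_cases hxy : x = y
  · simp [hxy]
  · simp only [hxy, Ne.symm hxy, if_false]
    exact cc_comm _ _ _ _

section Equiv'

variable {M : ℕ} {β K : ℝ} {b : Finset (Tor n)} {h : Tor n → ℝ}

/-- The potential on the copies may be replaced by the pull-back of a potential on the slots. -/
theorem KK_sec (hβ : 0 < β) (hN : β ≤ N) (hK : 0 ≤ K) (h0 : ∀ x, 0 ≤ h x) (h1 : ∀ x, h x ≤ 1)
    (hG : Good (phys (edgesS n s M) β N)) {E : Finset (Nd n (N * s))}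
    (hE : hatb (N * s) b ⊆ E) {a : Fin (N + 1) × (Tor n × Fin s) → ℝ}
    (ha : ∀ z ∈ pre E, a z = 1) :
    KK (phys (edgesS n s M) β N) (th β N (hS h) (blk K (b ×ˢ univ)))
      (fun z => a (secF (slotF n s N z))) =
    KK (phys (edgesS n s M) β N) (th β N (hS h) (blk K (b ×ˢ univ))) a := by
  have hθ : ∀ z, 0 ≤ th β N (hS (s := s) h) (blk K (b ×ˢ univ)) z ∧
      th β N (hS (s := s) h) (blk K (b ×ˢ univ)) z ≤ 1 :=
    fun z => th_mem' (h := hS (s := s) h) hβ hN hK _ (fun x => h0 x.1) (fun x => h1 x.1) z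
  rw [← netK_c0, ← netK_c0]
  refine netK_congr_zero (c0_symm _ _) fun z => ?_
  by_cases hz : z.1 = 0
  · by_cases hb : z.2.1 ∈ b
    · left
      have h2 : slotF n s N z ∈ E := by
        apply hE
        unfold hatb
        rw [Finset.mem_product]
        exact ⟨by rw [Finset.mem_singleton]; exact (slotF_zero_iff z).mpr hz, hb⟩
      rw [ha z (mem_pre.mpr h2), ha (secF (slotF n s N z)) (mem_pre.mpr (by rw [slotF_secF]; exact h2))]
    · right
      intro v
      refine c0_zero hG hθ ?_ v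
      unfold th blk
      rw [if_pos hz, if_neg]
      simpa using hb
  · left
    rw [secF_slotF hz]

theorem LBn_cslot (hβ : 0 < β) (hN : β ≤ N) (hK : 0 ≤ K) (h0 : ∀ x, 0 ≤ h x)
    (h1 : ∀ x, h x ≤ 1) (hG : Good (phys (edgesS n s M) β N)) {E G : Finset (Nd n (N * s))}
    (hE : hatb (N * s) b ⊆ E) (A : ℝ) :
    LBn (cslot n s M β N K b h) E G A ↔
      LB (phys (edgesS n s M) β N) (th β N (hS h) (blk K (b ×ˢ univ))) (pre E) (pre G)
        (s * A) := by
  have hs : (0 : ℝ) < s := by exact_mod_cast Nat.pos_of_ne_zero (NeZero.ne s)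
  constructor
  · intro H a haE haG
    have h2 := H (fun u => a (secF u))
      (fun u hu => haE _ (mem_pre.mpr (by rw [slotF_secF]; exact hu)))
      (fun u hu => haG _ (mem_pre.mpr (by rw [slotF_secF]; exact hu)))
    rw [netK_cslot, KK_sec hβ hN hK h0 h1 hG hE haE, one_div, ← div_eq_inv_mul,
      le_div_iff₀ hs] at h2
    linarith
  · intro H a haE haG
    rw [netK_cslot, one_div, ← div_eq_inv_mul, le_div_iff₀ hs]
    have h2 := H (fun z => a (slotF n s N z)) (fun z hz => haE _ (mem_pre.mp hz))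
      (fun z hz => haG _ (mem_pre.mp hz))
    linarith

/-- The charge on the copies. -/
def qS (q : Nd n (N * s) → ℝ) (z : Fin (N + 1) × (Tor n × Fin s)) : ℝ :=
  if z.1 = 0 then 0 else q (slotF n s N z)

theorem sum_qS {q : Nd n (N * s) → ℝ} (hq : ∀ x, q (0, x) = 0) (a : Nd n (N * s) → ℝ) :
    ∑ z : Fin (N + 1) × (Tor n × Fin s), qS q z * a (slotF n s N z) = ∑ u, q u * a u := by
  rw [← sum_slot (fun u => q u * a u) (fun x => by simp [hq x])]
  refine Finset.sum_congr rfl fun z _ => ?_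
  unfold qS
  split_ifs <;> simp

theorem sum_qS_sec {q : Nd n (N * s) → ℝ} (hq : ∀ x, q (0, x) = 0)
    (a : Fin (N + 1) × (Tor n × Fin s) → ℝ) :
    ∑ u, q u * a (secF u) = ∑ z : Fin (N + 1) × (Tor n × Fin s), qS q z * a z := by
  rw [← sum_qS hq (fun u => a (secF u))]
  refine Finset.sum_congr rfl fun z _ => ?_
  by_cases hz : z.1 = 0
  · unfold qS; simp [hz]
  · rw [secF_slotF hz]

theorem RBn_cslot (hβ : 0 < β) (hN : β ≤ N) (hK : 0 ≤ K) (h0 : ∀ x, 0 ≤ h x)
    (h1 : ∀ x, h x ≤ 1) (hG : Good (phys (edgesS n s M) β N)) {E : Finset (Nd n (N * s))}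
    (hE : hatb (N * s) b ⊆ E) {q : Nd n (N * s) → ℝ} (hq : ∀ x, q (0, x) = 0) (R : ℝ) :
    RBn (cslot n s M β N K b h) E q R ↔
      RB (phys (edgesS n s M) β N) (th β N (hS h) (blk K (b ×ˢ univ))) (pre E) (qS q)
        (R / s) := by
  have hs : (0 : ℝ) < s := by exact_mod_cast Nat.pos_of_ne_zero (NeZero.ne s)
  constructor
  · intro H a haE
    have h2 := H (fun u => a (secF u))
      (fun u hu => haE _ (mem_pre.mpr (by rw [slotF_secF]; exact hu)))
    rw [netK_cslot, KK_sec hβ hN hK h0 h1 hG hE haE, sum_qS_sec hq] at h2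
    refine h2.trans (le_of_eq ?_)
    ring
  · intro H a haE
    have h2 := H (fun z => a (slotF n s N z)) (fun z hz => haE _ (mem_pre.mp hz))
    rw [sum_qS hq] at h2
    rw [netK_cslot]
    refine h2.trans (le_of_eq ?_)
    ring

end Equiv'

theorem sum_loweredS {β : ℝ} (hβ : 0 < β) {N : ℕ} (hN : β ≤ N) (T : Tor n × Fin s → ℝ)
    {h h' : Tor n → ℝ} (hle : ∀ x, h' x ≤ h x) :
    ∑ z : Fin (N + 1) × (Tor n × Fin s), (if th β N (hS h') T z < th β N (hS h) T z then
        th β N (hS h) T z else 0) =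
      s * (β / 2 * ∑ x, (if h' x = h x then 0 else h x)) := by
  have hNpos : (0 : ℝ) < N := lt_of_lt_of_le hβ hN
  rw [Fintype.sum_prod_type, Fin.sum_univ_succ]
  have h1 : ∑ x : Tor n × Fin s, (if th β N (hS h') T ((0 : Fin (N + 1)), x) <
      th β N (hS h) T ((0 : Fin (N + 1)), x) then
        th β N (hS h) T ((0 : Fin (N + 1)), x) else 0) = 0 := by
    refine Finset.sum_eq_zero fun x _ => ?_
    simp [th]
  have h2 : ∀ i : Fin N, ∑ x : Tor n × Fin s, (if th β N (hS h') T (i.succ, x) <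
      th β N (hS h) T (i.succ, x) then th β N (hS h) T (i.succ, x) else 0) =
      β / (2 * N) * (s * ∑ x, (if h' x = h x then 0 else h x)) := by
    intro i
    rw [Fintype.sum_prod_type, Finset.mul_sum, Finset.mul_sum]
    refine Finset.sum_congr rfl fun x _ => ?_
    have hi : i.succ ≠ 0 := Fin.succ_ne_zero i
    simp only [th, hi, if_false, hS]
    rw [Finset.sum_const, Finset.card_univ, Fintype.card_fin, nsmul_eq_mul]
    have hc : 0 < β / (2 * N) := by positivity
    have e1 : β * h' x / (2 * N) = β / (2 * N) * h' x := by ring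
    have e2 : β * h x / (2 * N) = β / (2 * N) * h x := by ring
    rw [e1, e2]
    by_cases hx : h' x = h x
    · simp [hx]
    · have hlt : h' x < h x := lt_of_le_of_ne (hle x) hx
      rw [if_pos (by exact mul_lt_mul_of_pos_left hlt hc), if_neg hx]
      ring
  rw [h1, zero_add, Finset.sum_congr rfl fun i _ => h2 i, Finset.sum_const, Finset.card_univ,
    Fintype.card_fin, nsmul_eq_mul]
  field_simp

end

end Vale.Agent.P361.LRO.GenS
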