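import Vale.Agent.P361.LRO.GenS.SlotsLow

/-!
P361 LRO, all spins: `LowE` for the slots network.
-/

namespace Vale.Agent.P361.LRO.GenS

open Finset _root_.P361.LRO Vale.Agent.P361.LRO Vale.Agent.P361.LRO.Ind Vale.Agent.P361.LRO.Net

set_option linter.unusedSectionVars false

noncomputable section

variable {n s : ℕ} [NeZero n] [NeZero s]

theorem blk_mem' {V : Type} [Fintype V] [DecidableEq V] {K : ℝ} (hK : 0 ≤ K) {b : Finset V}
    (x : V) : 0 ≤ blk K b x ∧ blk K b x ≤ 1 := by
  unfold blk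
  split_ifs
  · refine ⟨?_, (Real.tanh_lt_one _).le⟩
    rw [Real.tanh_eq_sinh_div_cosh]
    exact div_nonneg (Real.sinh_nonneg_iff.mpr (by positivity)) (Real.cosh_pos _).le
  · exact ⟨le_rfl, zero_le_one⟩

theorem path_thS {β : ℝ} {N : ℕ} (hN : 0 < N) (hβ : 0 < β)
    {T : Tor n × Fin s → ℝ} (hT : ∀ z, 0 ≤ T z) (h h' : Tor n → ℝ) {t : ℝ} (ht : 0 ≤ t) :
    path (th β N (hS h) T) (th β N (hS h') T) t =
      th β N (hS fun x => max (h' x) (Real.exp (-t) * h x)) T := by
  have hNpos : (0 : ℝ) < N := by exact_mod_cast hN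
  have he : Real.exp (-t) ≤ 1 := Real.exp_le_one_iff.mpr (by linarith)
  funext z
  unfold path th
  by_cases hz : z.1 = 0
  · simp only [hz, if_true]
    refine max_eq_left ?_
    nlinarith [hT z.2]
  · simp only [hz, if_false, hS]
    have hc : 0 ≤ β / (2 * N) := by positivity
    have e1 : β * h' z.2.1 / (2 * N) = β / (2 * N) * h' z.2.1 := by ring
    have e2 : Real.exp (-t) * (β * h z.2.1 / (2 * N)) = β / (2 * N) * (Real.exp (-t) * h z.2.1) := by
      ring
    have e3 : β * max (h' z.2.1) (Real.exp (-t) * h z.2.1) / (2 * N) =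
        β / (2 * N) * max (h' z.2.1) (Real.exp (-t) * h z.2.1) := by ring
    rw [e1, e2, e3, mul_max_of_nonneg _ _ hc]

/-- **`LowE` for the slots network.** -/
theorem lowE_slots {M : ℕ} {β : ℝ} (hβ : 0 < β) {N : ℕ} (hN : β ≤ N) {K : ℝ} (hK : 0 ≤ K)
    (b : Finset (Tor n)) {h0 lam ε : ℝ} (hh0 : 0 < h0) (hε : 0 ≤ ε) (hε1 : ε ^ 2 ≤ 1 / 2)
    (hG : Good (phys (edgesS n s M) β N))
    (hmag : ∀ h, Fam n h0 lam h → ∀ z : Fin (N + 1) × (Tor n × Fin s), z.1 ≠ 0 →
      1 - ε ^ 2 ≤ mag (phys (edgesS n s M) β N) (th β N (hS h) (blk K (b ×ˢ univ))) z) :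
    LowE n (N * s) b β h0 lam ε (cslot n s M β N K b) := by
  have hNpos : (0 : ℝ) < N := lt_of_lt_of_le hβ hN
  have hNn : 0 < N := by exact_mod_cast hNpos
  have hsn : 0 < s := Nat.pos_of_ne_zero (NeZero.ne s)
  have hs : (0 : ℝ) < s := by exact_mod_cast hsn
  set T : Tor n × Fin s → ℝ := blk K (b ×ˢ univ) with hT
  have hT0 : ∀ z, 0 ≤ T z := fun z => (blk_mem' hK z).1
  have hfpos : ∀ {h : Tor n → ℝ}, Fam n h0 lam h → ∀ x, 0 < h x :=
    fun hf x => hh0.trans_le (hf.1 x).1
  have hmem : ∀ {h : Tor n → ℝ}, Fam n h0 lam h → ∀ z : Fin (N + 1) × (Tor n × Fin s),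
      0 ≤ th β N (hS h) T z ∧ th β N (hS h) T z ≤ 1 := fun {h} hf z =>
    th_mem' (h := hS (s := s) h) hβ hN hK _ (fun x => (hfpos hf x.1).le)
      (fun x => (hf.1 x.1).2) z
  have hmono : ∀ {h h' : Tor n → ℝ}, (∀ x, h' x ≤ h x) →
      ∀ z : Fin (N + 1) × (Tor n × Fin s),
      th β N (hS h') T z ≤ th β N (hS h) T z := by
    intro h h' hle z
    unfold th hS
    split_ifs
    · exact le_rfl
    · have := hle z.2.1
      gcongr
  have hlt : ∀ {h h' : Tor n → ℝ} (z : Fin (N + 1) × (Tor n × Fin s)),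
      th β N (hS h') T z < th β N (hS h) T z → z.1 ≠ 0 := by
    intro h h' z hz h0
    unfold th at hz
    simp [h0] at hz
  have hfix : ∀ {h h' : Tor n → ℝ} (z : Fin (N + 1) × (Tor n × Fin s)),
      (z.1 ≠ 0 → h' z.2.1 = h z.2.1) →
      th β N (hS h') T z = th β N (hS h) T z := by
    intro h h' z hz
    unfold th hS
    split_ifs with h1
    · rfl
    · rw [hz h1]
  have hpos : ∀ {h h' : Tor n → ℝ}, Fam n h0 lam h' → ∀ z : Fin (N + 1) × (Tor n × Fin s),
      th β N (hS h') T z < th β N (hS h) T z → 0 < th β N (hS h') T z := by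
    intro h h' hf z hz
    have h1 := hlt z hz
    unfold th
    rw [if_neg h1]
    have := hfpos hf z.2.1
    unfold hS
    positivity
  have hm : ∀ {h h' : Tor n → ℝ}, Fam n h0 lam h → Fam n h0 lam h' → ∀ t : ℝ, 0 ≤ t →
      ∀ z : Fin (N + 1) × (Tor n × Fin s), th β N (hS h') T z < th β N (hS h) T z →
      1 - ε ^ 2 ≤ mag (phys (edgesS n s M) β N)
        (path (th β N (hS h) T) (th β N (hS h') T) t) z := by
    intro h h' hf hf' t ht z hz
    rw [path_thS hNn hβ hT0 h h' ht]
    exact hmag _ (Fam.lower hh0.le hf hf' ht) z (hlt z hz)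
  refine ⟨?_, ?_⟩
  · intro h h' hf hf' hle E G hEG hbE hfixEG S hS1 hsum A hA hLB
    rw [LBn_cslot hβ hN hK (fun x => (hfpos hf x).le) (fun x => (hf.1 x).2) hG hbE] at hLB
    rw [LBn_cslot hβ hN hK (fun x => (hfpos hf' x).le) (fun x => (hf'.1 x).2) hG hbE]
    have hE : ∀ z ∈ pre E, th β N (hS h') T z = th β N (hS h) T z := fun z hz =>
      hfix z fun h1 => hfixEG _ (Finset.mem_union_left _ (mem_pre.mp hz))
        (fun h2 => h1 ((slotF_zero_iff z).mp h2))
    have hG' : ∀ z ∈ pre G, th β N (hS h') T z = th β N (hS h) T z := fun z hz =>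
      hfix z fun h1 => hfixEG _ (Finset.mem_union_right _ (mem_pre.mp hz))
        (fun h2 => h1 ((slotF_zero_iff z).mp h2))
    have hpre : Disjoint (pre (s := s) (N := N) E) (pre G) := by
      rw [Finset.disjoint_left] at hEG ⊢
      intro z hz hz'
      exact hEG (mem_pre.mp hz) (mem_pre.mp hz')
    have key := LB_lower hG hε (fun z => (hmem hf' z).1) (hmono hle) (fun z => (hmem hf z).2)
      hE hG' hpre (hpos hf') (hm hf hf') (Real.log_nonneg hS1)
      (B := s * (β * S / 2)) (by
        rw [sum_loweredS hβ hN T hle]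
        have := mul_le_mul_of_nonneg_left hsum (by positivity : (0 : ℝ) ≤ s * (β / 2))
        linarith) hLB
    intro a haE haG
    refine le_trans ?_ (key a haE haG)
    have hSpos : 0 < β * S := by linarith
    have e1 : Real.exp (-(4 * ε * Real.log (β * S))) = (β * S) ^ (-(4 * ε)) := by
      rw [Real.rpow_def_of_pos hSpos]
      congr 1
      ring
    rw [e1, Real.exp_neg, Real.exp_log hSpos]
    have e2 : 2 * ε * (s * (β * S / 2)) * (β * S)⁻¹ = s * ε := by
      have h5 : (β * S) * (β * S)⁻¹ = 1 := mul_inv_cancel₀ hSpos.ne'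
      linear_combination (s * ε) * h5
    rw [e2]
    have h6 : 0 ≤ s * ε := by positivity
    nlinarith
  · intro _ hh1 h' hf' E q hbE hfixE hqE hq0 hqnn hq1 R hR hRB
    have hlam : 1 ≤ Real.exp lam := by
      have h1 := hf'.2 0 0
      have h2 := hfpos hf' 0
      have h3 : h' 0 ≤ Real.exp lam * (Real.exp lam * h' 0) :=
        h1.1.trans (mul_le_mul_of_nonneg_left h1.2 (Real.exp_pos _).le)
      by_contra hcon
      have h4 : Real.exp lam < 1 := not_le.mp hcon
      have h5 := Real.exp_pos lam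
      nlinarith [mul_pos h5 h2, mul_pos (sub_pos.mpr h4) h2,
        mul_pos (mul_pos h5 h2) (sub_pos.mpr h4)]
    have hf : Fam n h0 lam fun _ => (1 : ℝ) :=
      ⟨fun x => ⟨hh1, le_rfl⟩, fun x i => ⟨by linarith, by linarith⟩⟩
    rw [RBn_cslot hβ hN hK (fun x => (hfpos hf x).le) (fun x => (hf.1 x).2) hG hbE hq0] at hRB
    rw [RBn_cslot hβ hN hK (fun x => (hfpos hf' x).le) (fun x => (hf'.1 x).2) hG hbE hq0]
    have hle : ∀ x, h' x ≤ (fun _ : Tor n => (1 : ℝ)) x := fun x => (hf'.1 x).2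
    have hE : ∀ z ∈ pre E, th β N (hS h') T z = th β N (hS fun _ => 1) T z := fun z hz =>
      hfix z fun h1 => hfixE _ (mem_pre.mp hz) (fun h2 => h1 ((slotF_zero_iff z).mp h2))
    have hlog : 0 ≤ Real.log (1 / h0) := Real.log_nonneg (by rw [le_div_iff₀ hh0]; linarith)
    have hqS1 : ∑ z : Fin (N + 1) × (Tor n × Fin s), qS q z = 1 := by
      have h1 := sum_qS (s := s) (N := N) hq0 (fun _ => 1)
      simp only [mul_one] at h1
      rw [h1, hq1]
    have key := ode_RB hG (fun z => (hmem hf' z).1) (hmono hle) (fun z => (hmem hf z).2)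
      hE hqS1 (τ := 2 * ε) (by positivity)
      (fun t ht z hz => by
        have h1 := hm hf hf' t ht z hz
        refine ⟨sqrt_mag_le hε h1, ?_⟩
        have h2 : 1 / 2 ≤ 1 - ε ^ 2 := by linarith
        exact h2.trans h1)
      (div_nonneg hR hs.le) hRB hlog (fun z => by
        rw [Real.exp_log (by positivity)]
        unfold th
        by_cases hz : z.1 = 0
        · simp only [hz, if_true]
          have h1 := hT0 z.2
          have h2 : 1 ≤ 1 / h0 := by rw [le_div_iff₀ hh0]; linarith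
          nlinarith
        · simp only [hz, if_false, hS]
          have h2 := (hf'.1 z.2.1).1
          have h3 : (1 : ℝ) ≤ 1 / h0 * h' z.2.1 := by
            rw [one_div, inv_mul_eq_div, le_div_iff₀ hh0]
            linarith
          have hc : 0 ≤ β / (2 * N) := by positivity
          calc β * 1 / (2 * N) = β / (2 * N) * 1 := by ring
            _ ≤ β / (2 * N) * (1 / h0 * h' z.2.1) := mul_le_mul_of_nonneg_left h3 hc
            _ = 1 / h0 * (β * h' z.2.1 / (2 * N)) := by ring)
    intro a ha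
    refine (key a ha).trans ?_
    have hKK : 0 ≤ KK (phys (edgesS n s M) β N) (th β N (hS h') T) a := by
      rw [← netK_c0]
      refine P361.LRO.netK_nonneg (fun x y => ?_) a
      unfold c0
      split_ifs with hxy
      · exact le_rfl
      · exact hG.ccnn _ (hmem hf') x y hxy
    refine mul_le_mul_of_nonneg_right ?_ hKK
    have e1 : Real.exp (2 * (2 * ε) * Real.log (1 / h0)) = h0 ^ (-(4 * ε)) := by
      rw [Real.rpow_def_of_pos hh0, one_div, Real.log_inv]
      congr 1
      ring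
    rw [e1, mul_div_assoc]
    refine mul_le_mul_of_nonneg_left ?_ (Real.rpow_nonneg hh0.le _)
    rw [add_div]
    refine add_le_add le_rfl ?_
    rw [Real.exp_log (by positivity)]
    have hq2 : ∑ z : Fin (N + 1) × (Tor n × Fin s), qS q z ^ 2 = ∑ u, q u ^ 2 := by
      have h1 := sum_slot (s := s) (N := N) (fun u => q u ^ 2) (fun x => by simp [hq0 x])
      rw [← h1]
      refine Finset.sum_congr rfl fun z _ => ?_
      unfold qS
      split_ifs <;> simp
    have h5 : ∑ z ∈ univ.filter (fun z : Fin (N + 1) × (Tor n × Fin s) =>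
        th β N (hS h') T z < th β N (hS fun _ => 1) T z),
        qS q z ^ 2 / th β N (hS fun _ => 1) T z ≤ 2 * N / β * ∑ u, q u ^ 2 := by
      rw [← hq2, Finset.mul_sum, Finset.sum_filter]
      refine Finset.sum_le_sum fun z _ => ?_
      split_ifs with h1
      · have hz := hlt z h1
        unfold th hS
        rw [if_neg hz]
        apply le_of_eq
        field_simp
      · positivity
    have h6 : 0 ≤ ∑ z ∈ univ.filter (fun z : Fin (N + 1) × (Tor n × Fin s) =>
        th β N (hS h') T z < th β N (hS fun _ => 1) T z),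
        qS q z ^ 2 / th β N (hS fun _ => 1) T z :=
      Finset.sum_nonneg fun z _ => div_nonneg (sq_nonneg _) (hmem hf z).1
    have h7 : 1 / h0 - 1 ≤ 1 / h0 := by linarith
    have h8 : 0 ≤ 1 / h0 := by positivity
    calc 4 * (1 / h0 - 1) * ∑ z ∈ univ.filter (fun z : Fin (N + 1) × (Tor n × Fin s) =>
        th β N (hS h') T z < th β N (hS fun _ => 1) T z),
        qS q z ^ 2 / th β N (hS fun _ => 1) T z
        ≤ 4 * (1 / h0) * (2 * N / β * ∑ u, q u ^ 2) := by
          apply mul_le_mul _ h5 h6 (by positivity)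
          linarith
      _ = 8 * ((N * s : ℕ) : ℝ) / (β * h0) * (∑ u, q u ^ 2) / s := by
          push_cast
          field_simp
          ring

end

end Vale.Agent.P361.LRO.GenS
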