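import Vale.Agent.P361.LRO.GenS.Trans
import Vale.Agent.P361.LRO.Fin.Base

/-!
P361 LRO, all spins: the start of the bootstrap (`h ≡ 1`).
-/

namespace Vale.Agent.P361.LRO.GenS

open Finset Matrix Filter Topology

noncomputable section

theorem base_rhoS (s : ℕ) (n : ℕ) [NeZero n] (M : ℕ) {β : ℝ} (hβ : 0 < β) (z : Tor n × Fin s) :
    rho (edgesS n s M) β (hS fun _ => 1) z ≤ Real.log 2 / β := by
  have h1 : ∀ y : Tor n × Fin s, rho (edgesS n s M) β (hS fun _ => 1) y =
      rho (edgesS n s M) β (hS fun _ => 1) z := by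
    rintro ⟨y, j⟩
    obtain ⟨x, i⟩ := z
    have h2 := transStmtS s n M β (fun _ => 1) x (y - x) i j
    rw [add_sub_cancel] at h2
    exact h2.symm
  have h2 := Bs.sum_rho_le (edgesS n s M) hβ
  have h3 : (hS fun _ => 1 : Tor n × Fin s → ℝ) = fun _ => 1 := rfl
  rw [← h3] at h2
  simp only [h1, Finset.sum_const, Finset.card_univ, nsmul_eq_mul] at h2
  have hne : Nonempty (Tor n × Fin s) := ⟨z⟩
  have hc : (0 : ℝ) < Fintype.card (Tor n × Fin s) := by exact_mod_cast Fintype.card_pos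
  rw [le_div_iff₀ hβ]
  have h4 : (Fintype.card (Tor n × Fin s) : ℝ) *
      (rho (edgesS n s M) β (hS fun _ => 1) z * β) ≤
      Fintype.card (Tor n × Fin s) * Real.log 2 := by linarith
  exact le_of_mul_le_mul_left h4 hc

theorem startStmtS (s : ℕ) : StartStmtS s :=
  ⟨Real.log 2, fun n _ M _ z hβ => base_rhoS s n M hβ z⟩

end

end Vale.Agent.P361.LRO.GenS
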