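import Vale.Agent.P361.LRO.GenS.Tie
import Vale.Agent.P361.LRO.Ind.Test

/-!
P361 LRO, all spins, (M2) leaf T10: the family of tied networks satisfies `Ind.Low` (helper262).
-/

namespace Vale.Agent.P361.LRO.GenS

open Finset Vale.Agent.P361.LRO _root_.P361.LRO

noncomputable section

theorem netK_smul' {X : Type*} [Fintype X] (κ : ℝ) (c : X → X → ℝ) (a : X → ℝ) :
    netK (fun u v => κ * c u v) a = κ * netK c a := by
  unfold netK
  have h : ∀ x y, κ * c x y * (a x - a y) ^ 2 = κ * (c x y * (a x - a y) ^ 2) :=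
    fun x y => by ring
  simp only [h, ← Finset.mul_sum]
  ring

/-- Sums over the nodes with copies. -/
theorem sum_NdS {n s N : ℕ} [NeZero n] (f : NdS n s N → ℝ) :
    ∑ z, f z = ∑ u : Ind.Nd n N, ∑ i : Fin s, f (u.1, (u.2, i)) := by
  rw [Fintype.sum_prod_type, Fintype.sum_prod_type]
  refine Finset.sum_congr rfl fun k _ => ?_
  rw [Fintype.sum_prod_type]

theorem netK_tie' {n s N : ℕ} [NeZero n] (c : NdS n s N → NdS n s N → ℝ)
    (a : Ind.Nd n N → ℝ) : netK (tie c) a = (1 / (s : ℝ)) * netK c (upC s a) := by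
  unfold netK
  rw [sum_NdS]
  have h1 : ∀ u : Ind.Nd n N, ∑ i : Fin s, ∑ y : NdS n s N,
      c (u.1, (u.2, i)) y * (upC s a (u.1, (u.2, i)) - upC s a y) ^ 2 =
      ∑ v : Ind.Nd n N, (∑ i : Fin s, ∑ j : Fin s, c (u.1, (u.2, i)) (v.1, (v.2, j))) *
        (a u - a v) ^ 2 := by
    intro u
    have h2 : ∀ i : Fin s, ∑ y : NdS n s N,
        c (u.1, (u.2, i)) y * (upC s a (u.1, (u.2, i)) - upC s a y) ^ 2 =
        ∑ v : Ind.Nd n N, ∑ j : Fin s, c (u.1, (u.2, i)) (v.1, (v.2, j)) * (a u - a v) ^ 2 := by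
      intro i
      rw [sum_NdS]
      rfl
    rw [Finset.sum_congr rfl fun i _ => h2 i, Finset.sum_comm]
    refine Finset.sum_congr rfl fun v _ => ?_
    rw [Finset.sum_mul]
    refine Finset.sum_congr rfl fun i _ => ?_
    rw [Finset.sum_mul]
  rw [Finset.sum_congr rfl fun u _ => h1 u]
  unfold tie
  have h3 : ∀ u v : Ind.Nd n N, (1 / (s : ℝ)) * (∑ i : Fin s, ∑ j : Fin s,
      c (u.1, (u.2, i)) (v.1, (v.2, j))) * (a u - a v) ^ 2 =
      (1 / (s : ℝ)) * ((∑ i : Fin s, ∑ j : Fin s, c (u.1, (u.2, i)) (v.1, (v.2, j))) *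
        (a u - a v) ^ 2) := fun u v => by ring
  simp only [h3, ← Finset.mul_sum]
  ring

theorem mem_liftN {n s N : ℕ} [NeZero n] {E : Finset (Ind.Nd n N)} {z : NdS n s N} :
    z ∈ liftN s E ↔ (z.1, z.2.1) ∈ E := by
  unfold liftN; simp

theorem avg_const {n s N : ℕ} (hs : 0 < s) {a : NdS n s N → ℝ} {u : Ind.Nd n N} {t : ℝ}
    (h : ∀ i, a (u.1, (u.2, i)) = t) : avgC a u = t := by
  unfold avgC
  rw [Finset.sum_congr rfl fun i _ => h i]
  have : (s : ℝ) ≠ 0 := by positivity
  simp [this]

theorem sum_layersS {n s N : ℕ} [NeZero n] (f : Tor n → ℝ) :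
    ∑ z : NdS n s N, (if z.1 ≠ 0 then f z.2.1 else 0) = s * (N * ∑ x, f x) := by
  rw [sum_NdS]
  have h1 : ∀ u : Ind.Nd n N, ∑ i : Fin s, (if (u.1, (u.2, i)).1 ≠ 0 then
      f ((u.1, (u.2, i)) : NdS n s N).2.1 else 0) = s * (if u.1 ≠ 0 then f u.2 else 0) := by
    intro u
    simp only
    rw [Finset.sum_const, Finset.card_univ, Fintype.card_fin, nsmul_eq_mul]
  rw [Finset.sum_congr rfl fun u _ => h1 u, ← Finset.mul_sum, Ind.sum_layers]

theorem tieC_one {n s M N : ℕ} [NeZero n] {β K κ : ℝ} {b : Finset (Tor n)}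
    (a : Ind.Nd n N → ℝ) : netK (tieC n s M N β K κ b fun _ => 1) a =
      κ * netK (tie (physS n s M N β K b fun _ => 1)) a := by
  rw [← netK_smul']
  unfold tieC
  simp

theorem tieC_ne {n s M N : ℕ} [NeZero n] {β K κ : ℝ} {b : Finset (Tor n)} {h : Tor n → ℝ}
    (hne : h ≠ fun _ => 1) (a : Ind.Nd n N → ℝ) : netK (tieC n s M N β K κ b h) a =
      netK (tie (physS n s M N β K b h)) a := by
  unfold tieC
  simp [hne]

theorem netK_physS {n s M N : ℕ} [NeZero n] {β K : ℝ} {b : Finset (Tor n)} {h : Tor n → ℝ}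
    (a : NdS n s N → ℝ) : netK (physS n s M N β K b h) a =
      KK (phys (edgesS n s M) β N) (th β N (hS h) (blk K (b ×ˢ univ))) a :=
  Net.netK_c0 _ _ _

theorem tie_low {n s M N : ℕ} [NeZero n] (hs : 0 < s) {β K h0 lam ε κ : ℝ}
    (b : Finset (Tor n)) (hβ : 0 < β) (hN : β ≤ N) (hK : 0 ≤ K) (hh0 : 0 < h0) (hlam : 0 ≤ lam)
    (hε : 0 < ε) (hε2 : ε ≤ 1 / 2) (hκ : 0 < κ) (hκ1 : κ ≤ 1)
    (hgood : Net.Good (phys (edgesS n s M) β N))
    (hmag : ∀ g : Tor n → ℝ, Fam n h0 lam g → ∀ z : NdS n s N, z.1 ≠ 0 →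
      1 - ε ^ 2 ≤ mag (phys (edgesS n s M) β N) (th β N (hS g) (blk K (b ×ˢ univ))) z)
    (hone : ∀ a : NdS n s N → ℝ, κ * netK (tie (physS n s M N β K b fun _ => 1)) (avgC a) ≤
      (1 / (s : ℝ)) * netK (physS n s M N β K b fun _ => 1) a)
    (hsym : ∀ g : Tor n → ℝ, Fam n h0 lam g → ∀ a : NdS n s N → ℝ, (∀ z, 0 ≤ a z ∧ a z ≤ 1) →
      netK (physS n s M N β K b g) (upC s (avgC a)) ≤ netK (physS n s M N β K b g) a + ε) :
    Ind.Low n N β h0 lam ε (tieC n s M N β K κ b) := by
  have hNp : (0:ℝ) < N := by linarith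
  have hsp : (0:ℝ) < s := by exact_mod_cast hs
  have hs1 : (1:ℝ) ≤ s := by exact_mod_cast hs
  set T : Tor n × Fin s → ℝ := blk K (b ×ˢ univ) with hTdef
  have hT : ∀ x, 0 ≤ T x ∧ T x ≤ 1 := Ind.blk_mem hK _
  have hp : 0 < β / (2 * N) := by positivity
  have thval : ∀ (g : Tor n → ℝ) (z : NdS n s N), z.1 ≠ 0 →
      th β N (hS g) T z = β / (2 * N) * g z.2.1 := by
    intro g z hz; unfold th hS; rw [if_neg hz]; ring
  have th0 : ∀ (g : Tor n → ℝ) (z : NdS n s N), z.1 = 0 →
      th β N (hS g) T z = T z.2 := by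
    intro g z hz; unfold th; rw [if_pos hz]
  have thmem : ∀ (g : Tor n → ℝ), Fam n h0 lam g → ∀ z : NdS n s N,
      0 ≤ th β N (hS g) T z ∧ th β N (hS g) T z ≤ 1 := by
    intro g hg z
    exact Loc.th_mem hβ.le hN (fun x => ⟨hh0.le.trans (hg.ge x.1), hg.le_one x.1⟩) hT z
  have thmono : ∀ (g g' : Tor n → ℝ), (∀ x, g' x ≤ g x) → ∀ z : NdS n s N,
      th β N (hS g') T z ≤ th β N (hS g) T z := by
    intro g g' hle z
    by_cases hz : z.1 = 0
    · rw [th0 g z hz, th0 g' z hz]
    · rw [thval g z hz, thval g' z hz]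
      exact mul_le_mul_of_nonneg_left (hle _) hp.le
  have thpos : ∀ (g : Tor n → ℝ), Fam n h0 lam g → ∀ z : NdS n s N, z.1 ≠ 0 →
      0 < th β N (hS g) T z := by
    intro g hg z hz
    rw [thval g z hz]; exact mul_pos hp (hh0.trans_le (hg.ge _))
  have thlt : ∀ (g g' : Tor n → ℝ) (z : NdS n s N),
      th β N (hS g') T z < th β N (hS g) T z → z.1 ≠ 0 ∧ g' z.2.1 < g z.2.1 := by
    intro g g' z hlt
    have hz : z.1 ≠ 0 := by
      intro hz; rw [th0 g z hz, th0 g' z hz] at hlt; exact lt_irrefl _ hlt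
    refine ⟨hz, ?_⟩
    rw [thval g z hz, thval g' z hz] at hlt
    exact lt_of_mul_lt_mul_left hlt hp.le
  have magpath : ∀ (g g' : Tor n → ℝ), Fam n h0 lam g → Fam n h0 lam g' → ∀ r : ℝ, 0 ≤ r →
      ∀ z : NdS n s N, z.1 ≠ 0 → 1 - ε ^ 2 ≤ mag (phys (edgesS n s M) β N)
        (fun x => max (th β N (hS g') T x) (Real.exp (-r) * th β N (hS g) T x)) z := by
    intro g g' hg hg' r hr z hz
    have e : (fun x : NdS n s N => max (th β N (hS g') T x)
        (Real.exp (-r) * th β N (hS g) T x)) =
        th β N (hS fun x => max (g' x) (Real.exp (-r) * g x)) T := by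
      funext x; exact Ind.path_th hβ.le (fun x => (hT x).1) hr x
    rw [e]
    refine hmag _ ?_ z hz
    exact Fam.max_smul hg' hg.lip hg.le_one (fun x => hh0.le.trans (hg.ge x))
      (Real.exp_pos _).le (Real.exp_le_one_iff.2 (by linarith))
  have cnn : ∀ (g : Tor n → ℝ), Fam n h0 lam g → ∀ u v, 0 ≤ physS n s M N β K b g u v := by
    intro g hg u v
    unfold physS Net.c0
    split_ifs with huv
    · exact le_refl _
    · exact hgood.ccnn _ (thmem g hg) u v huv
  have tnn : ∀ (g : Tor n → ℝ), Fam n h0 lam g → ∀ u v, 0 ≤ tieC n s M N β K κ b g u v := by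
    intro g hg u v
    unfold tieC
    refine mul_nonneg (by split_ifs <;> [exact hκ.le; exact zero_le_one]) ?_
    unfold tie
    exact mul_nonneg (by positivity) (Finset.sum_nonneg fun i _ => Finset.sum_nonneg fun j _ =>
      cnn g hg _ _)
  refine ⟨?_, ?_⟩
  · intro h h' hh hh' hle E G hEG heq S hS' hsum A hA hLB
    have hSp : 0 < S := by
      by_contra hc; push Not at hc
      have : β * S ≤ 0 := mul_nonpos_of_nonneg_of_nonpos hβ.le hc
      linarith
    have hβS : 0 < β * S := by positivity
    have hpow1 : (β * S) ^ (-(4 * ε)) ≤ 1 :=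
      Real.rpow_le_one_of_one_le_of_nonpos hS' (by linarith)
    by_cases h1 : h' = fun _ => 1
    · have hh1 : h = fun _ => 1 := by
        funext x
        have := hle x
        rw [h1] at this
        exact le_antisymm (hh.le_one x) this
      rw [h1]; rw [hh1] at hLB
      intro a ha1 ha0
      refine le_trans ?_ (hLB a ha1 ha0)
      nlinarith
    · have hLBS : LB (phys (edgesS n s M) β N) (th β N (hS h) T) (liftN s E) (liftN s G)
          (s * A - ε) := by
        by_cases h2 : h = fun _ => 1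
        · intro a ha1 ha0
          rw [h2] at hLB
          have h3 := hLB (avgC a)
            (fun u hu => avg_const hs fun i => ha1 _ (mem_liftN.2 hu))
            (fun u hu => avg_const hs fun i => ha0 _ (mem_liftN.2 hu))
          rw [tieC_one] at h3
          have h4 := h3.trans (hone a)
          rw [netK_physS] at h4
          rw [h2]
          have h5 : s * A ≤ KK (phys (edgesS n s M) β N) (th β N (hS fun _ => 1) T) a := by
            have := mul_le_mul_of_nonneg_left h4 hsp.le
            rwa [← mul_assoc, mul_one_div_cancel hsp.ne', one_mul] at this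
          linarith
        · have h3 : Ind.LBn (physS n s M N β K b h) (liftN s E) (liftN s G) (s * A - ε) := by
            refine Ind.LBn_of_trunc (cnn h hh) fun a ha ha1 ha0 => ?_
            have h3 := hLB (avgC a)
              (fun u hu => avg_const hs fun i => ha1 _ (mem_liftN.2 hu))
              (fun u hu => avg_const hs fun i => ha0 _ (mem_liftN.2 hu))
            rw [tieC_ne h2, netK_tie'] at h3
            have h4 := hsym h hh a ha
            have h5 : s * A ≤ netK (physS n s M N β K b h) (upC s (avgC a)) := by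
              have := mul_le_mul_of_nonneg_left h3 hsp.le
              rwa [← mul_assoc, mul_one_div_cancel hsp.ne', one_mul] at this
            linarith
          intro a ha1 ha0
          rw [← netK_physS]
          exact h3 a ha1 ha0
      have heqθ : ∀ z : NdS n s N, (z.1, z.2.1) ∈ E ∪ G →
          th β N (hS h') T z = th β N (hS h) T z := by
        intro z hz
        by_cases hz0 : z.1 = 0
        · rw [th0 h z hz0, th0 h' z hz0]
        · rw [thval h z hz0, thval h' z hz0, heq _ hz hz0]
      have hB : ∑ z : NdS n s N, (if th β N (hS h') T z < th β N (hS h) T z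
          then th β N (hS h) T z else 0) ≤ s * (β / 2 * S) := by
        have h1 : ∑ z : NdS n s N, (if th β N (hS h') T z < th β N (hS h) T z
            then th β N (hS h) T z else 0) ≤
            ∑ z : NdS n s N, (if z.1 ≠ 0 then
              (β / (2 * N) * (if h' z.2.1 = h z.2.1 then 0 else h z.2.1)) else 0) := by
          refine Finset.sum_le_sum fun z _ => ?_
          by_cases hz : z.1 ≠ 0
          · rw [if_pos hz, thval h z hz, thval h' z hz]
            by_cases hlt : β / (2 * N) * h' z.2.1 < β / (2 * N) * h z.2.1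
            · rw [if_pos hlt, if_neg (by intro he; rw [he] at hlt; exact lt_irrefl _ hlt)]
            · rw [if_neg hlt]
              refine mul_nonneg hp.le ?_
              split_ifs
              · exact le_refl _
              · exact hh0.le.trans (hh.ge _)
          · push Not at hz
            rw [th0 h z hz, th0 h' z hz, if_neg (lt_irrefl _), if_neg (by simp [hz])]
        refine h1.trans ?_
        rw [sum_layersS (fun x => β / (2 * N) * (if h' x = h x then 0 else h x)),
          ← Finset.mul_sum]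
        refine mul_le_mul_of_nonneg_left ?_ hsp.le
        calc (N:ℝ) * (β / (2 * N) * ∑ x, (if h' x = h x then 0 else h x))
            = β / 2 * ∑ x, (if h' x = h x then 0 else h x) := by field_simp
          _ ≤ β / 2 * S := mul_le_mul_of_nonneg_left hsum (by positivity)
      have hdisj : Disjoint (liftN s E) (liftN s G) := by
        rw [Finset.disjoint_left]
        intro z hz1 hz2
        exact (Finset.disjoint_left.1 hEG) (mem_liftN.1 hz1) (mem_liftN.1 hz2)
      have key := Net.LB_lower hgood (ε := ε) (S := Real.log (β * S)) (B := s * (β / 2 * S)) hε.le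
        (fun z => (thmem h' hh' z).1) (thmono h h' hle) (fun z => (thmem h hh z).2)
        (fun z hz => heqθ z (Finset.mem_union_left _ (mem_liftN.1 hz)))
        (fun z hz => heqθ z (Finset.mem_union_right _ (mem_liftN.1 hz))) hdisj
        (fun z hz => thpos h' hh' z (thlt h h' z hz).1)
        (fun r hr z hz => magpath h h' hh hh' r hr z (thlt h h' z hz).1)
        (Real.log_nonneg hS') hB hLBS
      intro a ha1 ha0
      have k1 := key (upC s a) (fun z hz => ha1 _ (mem_liftN.1 hz))
        (fun z hz => ha0 _ (mem_liftN.1 hz))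
      rw [tieC_ne h1, netK_tie', netK_physS]
      have e1 : Real.exp (-(4 * ε * Real.log (β * S))) = (β * S) ^ (-(4 * ε)) := by
        rw [Real.rpow_def_of_pos hβS]; congr 1; ring
      have e2 : Real.exp (-Real.log (β * S)) = (β * S)⁻¹ := by
        rw [Real.exp_neg, Real.exp_log hβS]
      rw [e1, e2] at k1
      have e3 : 2 * ε * (s * (β / 2 * S)) * (β * S)⁻¹ = s * ε := by field_simp
      rw [e3] at k1
      have k2 := mul_le_mul_of_nonneg_left k1 (by positivity : (0:ℝ) ≤ 1 / s)
      refine le_trans ?_ k2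
      have hinv : (1:ℝ) / s ≤ 1 := by rw [div_le_one hsp]; exact hs1
      have e4 : (1 / (s:ℝ)) * ((β * S) ^ (-(4 * ε)) * (s * A - ε) - s * ε) =
          (β * S) ^ (-(4 * ε)) * A - (β * S) ^ (-(4 * ε)) * (1 / s) * ε - ε := by
        field_simp
      rw [e4]
      have hpow0 : 0 ≤ (β * S) ^ (-(4 * ε)) := Real.rpow_nonneg hβS.le _
      have h6 : (β * S) ^ (-(4 * ε)) * (1 / s) ≤ 1 := by
        calc (β * S) ^ (-(4 * ε)) * (1 / s) ≤ 1 * 1 :=
              mul_le_mul hpow1 hinv (by positivity) zero_le_one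
          _ = 1 := by norm_num
      have h7 := mul_le_mul_of_nonneg_right h6 hε.le
      linarith
  · intro hh0' hh01 h' hh' E q hE1 hqE hq0 hqn hq1 R hR hRB
    have hone1 : Fam n h0 lam (fun _ => 1) := fam_const hh01 le_rfl (by norm_num) hlam
    have hX : 0 ≤ 8 * N / (β * h0) * ∑ z : Ind.Nd n N, (q z) ^ 2 := by positivity
    have hpow1 : 1 ≤ h0 ^ (-(4 * ε)) :=
      Real.one_le_rpow_of_pos_of_le_one_of_nonpos hh0 hh01 (by linarith)
    by_cases h1 : h' = fun _ => 1
    · rw [h1]
      intro a ha1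
      refine (hRB a ha1).trans ?_
      refine mul_le_mul_of_nonneg_right ?_ (netK_nonneg (tnn _ hone1) a)
      nlinarith
    · -- the charge on the copies
      set q' : NdS n s N → ℝ := fun z => (1 / (s:ℝ)) * q (z.1, z.2.1) with hq'
      have hqa : ∀ a : NdS n s N → ℝ, ∑ z, q' z * a z = ∑ u, q u * avgC a u := by
        intro a
        rw [sum_NdS]
        refine Finset.sum_congr rfl fun u _ => ?_
        unfold avgC
        rw [Finset.mul_sum, Finset.mul_sum]
        exact Finset.sum_congr rfl fun i _ => by simp only [hq']; ring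
      have hq1' : ∑ z, q' z = 1 := by
        have := hqa (fun _ => 1)
        simp only [mul_one] at this
        rw [this]
        refine (Finset.sum_congr rfl fun u _ => ?_).trans hq1
        rw [avg_const hs (t := 1) fun i => rfl, mul_one]
      have hq2 : ∑ z, (q' z) ^ 2 = (1 / (s:ℝ)) * ∑ u, (q u) ^ 2 := by
        rw [sum_NdS, Finset.mul_sum]
        refine Finset.sum_congr rfl fun u _ => ?_
        simp only [hq', Finset.sum_const, Finset.card_univ, Fintype.card_fin, nsmul_eq_mul]
        field_simp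
      have hRBS : RB (phys (edgesS n s M) β N) (th β N (hS fun _ => 1) T) (liftN s E) q'
          (R / s) := by
        intro a ha1
        rw [hqa]
        refine (hRB (avgC a) (fun u hu => avg_const hs fun i => ha1 _ (mem_liftN.2 hu))).trans ?_
        rw [tieC_one, ← netK_physS]
        have := mul_le_mul_of_nonneg_left (hone a) hR
        calc _ ≤ _ := this
          _ = _ := by ring
      have hle : ∀ x, h' x ≤ (fun _ => (1:ℝ)) x := fun x => hh'.le_one x
      have hEθ : ∀ z ∈ liftN s E, th β N (hS h') T z = th β N (hS fun _ => 1) T z := by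
        intro z hz
        by_cases hz0 : z.1 = 0
        · rw [th0 _ z hz0, th0 _ z hz0]
        · rw [thval _ z hz0, thval _ z hz0, hE1 _ (mem_liftN.1 hz) hz0]
      have hS0 : 0 ≤ Real.log (1 / h0) := by
        apply Real.log_nonneg; rw [le_div_iff₀ hh0]; linarith
      have hexpS : Real.exp (Real.log (1 / h0)) = 1 / h0 := Real.exp_log (by positivity)
      have key := Net.ode_RB hgood (θ0 := th β N (hS h') T) (θ1 := th β N (hS fun _ => 1) T)
        (fun z => (thmem h' hh' z).1) (thmono _ h' hle) (fun z => (thmem _ hone1 z).2)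
        hEθ hq1' (τ := 2 * ε) (by positivity)
        (fun r hr z hz => ⟨Net.sqrt_mag_le hε.le (magpath _ h' hone1 hh' r hr z
            (thlt _ h' z hz).1), by
          have := magpath _ h' hone1 hh' r hr z (thlt _ h' z hz).1
          nlinarith⟩) (div_nonneg hR hsp.le) hRBS hS0 (by
          intro z
          rw [hexpS]
          by_cases hz0 : z.1 = 0
          · rw [th0 _ z hz0, th0 _ z hz0]
            have h1 : 1 ≤ 1 / h0 := by rw [le_div_iff₀ hh0]; linarith
            exact le_mul_of_one_le_left (hT _).1 h1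
          · rw [thval _ z hz0, thval _ z hz0]
            have h2 := hh'.ge z.2.1
            have h3 : 1 ≤ h' z.2.1 / h0 := by rw [le_div_iff₀ hh0]; linarith
            calc β / (2 * N) * 1 ≤ β / (2 * N) * (h' z.2.1 / h0) :=
                  mul_le_mul_of_nonneg_left h3 hp.le
              _ = 1 / h0 * (β / (2 * N) * h' z.2.1) := by ring)
      intro a ha1
      have k1 := key (upC s a) (fun z hz => ha1 _ (mem_liftN.1 hz))
      have hup : avgC (upC s a) = a := by
        funext u; exact avg_const hs fun i => rfl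
      rw [hqa, hup] at k1
      refine k1.trans ?_
      rw [tieC_ne h1, netK_tie', netK_physS]
      have hKK : 0 ≤ KK (phys (edgesS n s M) β N) (th β N (hS h') T) (upC s a) := by
        rw [← netK_physS]
        exact netK_nonneg (cnn h' hh') _
      have e0 : ∀ X Y : ℝ, X * (1 / (s:ℝ) * Y) = (X * (1 / s)) * Y := fun X Y => by ring
      rw [e0]
      refine mul_le_mul_of_nonneg_right ?_ hKK
      have e1 : Real.exp (2 * (2 * ε) * Real.log (1 / h0)) = h0 ^ (-(4 * ε)) := by
        rw [Real.rpow_def_of_pos hh0, one_div, Real.log_inv]; congr 1; ring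
      rw [e1, mul_assoc (h0 ^ (-(4 * ε)))]
      refine mul_le_mul_of_nonneg_left ?_ (Real.rpow_nonneg hh0.le _)
      have hsumle : ∑ z ∈ univ.filter (fun z => th β N (hS h') T z <
          th β N (hS fun _ => 1) T z), q' z ^ 2 / th β N (hS fun _ => 1) T z ≤
          (2 * N / β) * ∑ z, (q' z) ^ 2 := by
        rw [Finset.mul_sum, Finset.sum_filter]
        refine Finset.sum_le_sum fun z _ => ?_
        split_ifs with hz
        · rw [thval _ z (thlt _ h' z hz).1]
          apply le_of_eq
          field_simp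
        · positivity
      have h3 : 0 ≤ ∑ z ∈ univ.filter (fun z => th β N (hS h') T z <
          th β N (hS fun _ => 1) T z), q' z ^ 2 / th β N (hS fun _ => 1) T z :=
        Finset.sum_nonneg fun z _ => div_nonneg (sq_nonneg _) (thmem _ hone1 z).1
      rw [hexpS]
      have h4 : 4 * (1 / h0 - 1) * ∑ z ∈ univ.filter (fun z => th β N (hS h') T z <
          th β N (hS fun _ => 1) T z), q' z ^ 2 / th β N (hS fun _ => 1) T z ≤
          4 * (1 / h0) * ((2 * N / β) * ∑ z, (q' z) ^ 2) := by
        refine mul_le_mul (by linarith) hsumle h3 (by positivity)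
      have h5 : 4 * (1 / h0) * ((2 * N / β) * ∑ z, (q' z) ^ 2) =
          (8 * N / (β * h0) * ∑ z, (q z) ^ 2) * (1 / s) := by
        rw [hq2]; field_simp; ring
      have h6 : (R + 8 * N / (β * h0) * ∑ z, (q z) ^ 2) * (1 / (s:ℝ)) =
          R / s + (8 * N / (β * h0) * ∑ z, (q z) ^ 2) * (1 / s) := by ring
      rw [h6]
      linarith

end

end Vale.Agent.P361.LRO.GenS
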