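import Vale.Agent.P361.LRO.GenS.Boot
import Vale.Agent.P361.LRO.GenS.Start
import Vale.Agent.P361.LRO.Fin.TorusPress

/-!
P361 LRO, all spins: from the bootstrap on `Tor n × Fin s` to the spontaneous magnetization of the
spin `s / 2` model.
-/

namespace Vale.Agent.P361.LRO.GenS

open Finset Matrix Filter Topology

noncomputable section

/-- (M4), the limit `M → ∞` of the total magnetization on the torus. -/
def LimStmtS (s : ℕ) : Prop :=
  ∀ (n : ℕ) [NeZero n], 3 ≤ n → ∀ β h : ℝ, 0 < β → 0 < h →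
    Tendsto (fun M : ℕ => ∑ z : Tor n × Fin s, (1 / 2 - rho (edgesS n s M) β (hS fun _ => h) z))
      atTop (𝓝 (gibbsMagV s (torusAdj n) β h))

theorem spontMag_ge_of_rhoS {s : ℕ} (hL : LimStmtS s) {β η : ℝ} (hβ : 0 < β) {n0 : ℕ}
    (H : ∀ (n : ℕ) [NeZero n], n0 ≤ n → Odd n → ∀ (M : ℕ) (h : ℝ),
      (n : ℝ) ^ (-(1 / 4) : ℝ) ≤ h → h ≤ 1 →
      ∀ z : Tor n × Fin s, rho (edgesS n s M) β (hS fun _ => h) z ≤ η) :
    (s : ℝ) / 2 - s * η ≤ Model.spontMag s β := by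
  refine spontMag_ge s hβ (a := fun N : ℕ => ((2 * N + 1 : ℕ) : ℝ) ^ (-(1 / 4) : ℝ)) ?_ ?_
  · have h1 : Tendsto (fun N : ℕ => ((2 * N + 1 : ℕ) : ℝ)) atTop atTop := by
      refine tendsto_natCast_atTop_atTop.comp (tendsto_atTop_mono (fun n => ?_) tendsto_id)
      simp only [id]; omega
    exact (tendsto_rpow_neg_atTop (by norm_num : (0 : ℝ) < 1 / 4)).comp h1
  · filter_upwards [eventually_ge_atTop (max n0 1)] with N hN h hh1 hh2
    have hN1 : 1 ≤ N := le_trans (le_max_right _ _) hN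
    have hN0 : n0 ≤ 2 * N + 1 := by
      have := le_trans (le_max_left _ _) hN
      omega
    have hodd : Odd (2 * N + 1) := ⟨N, rfl⟩
    have hpos : (0 : ℝ) < ((2 * N + 1 : ℕ) : ℝ) := by positivity
    have hh : 0 < h := (Real.rpow_pos_of_pos hpos _).trans_le hh1
    have hcard : (Fintype.card (Tor (2 * N + 1) × Fin s) : ℝ) = (2 * (N : ℝ) + 1) ^ 3 * s := by
      rw [Fintype.card_prod, Fintype.card_fun, ZMod.card, Fintype.card_fin, Fintype.card_fin]
      push_cast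
      ring
    rw [le_div_iff₀ (by positivity)]
    refine ge_of_tendsto (hL (2 * N + 1) (by omega) β h hβ hh) (Eventually.of_forall fun M => ?_)
    have h2 := H (2 * N + 1) hN0 hodd M h hh1 hh2
    have h3 : ((s : ℝ) / 2 - s * η) * (2 * (N : ℝ) + 1) ^ 3 =
        (Fintype.card (Tor (2 * N + 1) × Fin s) : ℝ) * (1 / 2 - η) := by
      rw [hcard]
      ring
    rw [h3, ← nsmul_eq_mul, ← Finset.card_univ]
    refine Finset.card_nsmul_le_sum _ _ _ fun z _ => ?_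
    linarith [h2 z]

/-- **Low-temperature order for spin `s / 2`, from the blocks.** -/
theorem mainS_of {s : ℕ} (hL : LimStmtS s) (hB : BootStmtS s) :
    ∃ β0 : ℝ, 0 < β0 ∧ ∀ β : ℝ, β0 ≤ β →
      (s : ℝ) / 2 - s * β ^ (-(1 / 100) : ℝ) ≤ Model.spontMag s β := by
  obtain ⟨β0, H⟩ := hB
  refine ⟨max β0 1, lt_max_of_lt_right one_pos, fun β hβ => ?_⟩
  have h1 : β0 ≤ β := le_trans (le_max_left _ _) hβ
  have h2 : 0 < β := lt_of_lt_of_le one_pos (le_trans (le_max_right _ _) hβ)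
  obtain ⟨n0, hn0⟩ := H β h1
  exact spontMag_ge_of_rhoS hL h2 fun n _ hn hodd M h hh hh1 z => hn0 n hn hodd M h hh hh1 z

/-- The statement for all spins from the open blocks (M1)-(M4). -/
theorem mainS_of_blocks {s : ℕ} (hs : 1 ≤ s) (hL : LimStmtS s) (h6 : KappaStmtS s)
    (h1 : TwistStmt) (h7 : EnergyStmtS s) (h8 : RegStmt) :
    ∃ β0 : ℝ, 0 < β0 ∧ ∀ β : ℝ, β0 ≤ β →
      (s : ℝ) / 2 - s * β ^ (-(1 / 100) : ℝ) ≤ Model.spontMag s β :=
  mainS_of hL (bootStmtS_of hs h6 h1 h7 h8 (startStmtS s) (transStmtS s))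

end

end Vale.Agent.P361.LRO.GenS
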