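import Vale.Agent.P361.LRO.GenS.Iface
import Vale.Agent.P361.LRO.Top.Trans

/-!
P361 LRO, all spins: covariance of the densities under translations and permutations of the copies.
-/

namespace Vale.Agent.P361.LRO.GenS

open Finset Matrix Filter Topology

noncomputable section

namespace TransS

variable {n s : ℕ} [NeZero n]

theorem interE_map_sum {A : Type*} [AddCommMonoid A]
    (f : (Tor n × Fin s) → (Tor n × Fin s) → A) :
    ((interE n s).map fun e => f e.1 e.2).sum =
      ∑ z : Tor n × Fin 3, ∑ i : Fin s, ∑ j : Fin s,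
        f (z.1, i) (z.1 + Pi.single z.2 1, j) := by
  have h1 : ∀ l : List (Tor n × Tor n),
      ((l.flatMap fun e => (List.finRange s).flatMap fun i => (List.finRange s).map fun j =>
        (((e.1, i), (e.2, j)) : (Tor n × Fin s) × (Tor n × Fin s))).map
          fun e => f e.1 e.2).sum =
        (l.map fun e => ∑ i : Fin s, ∑ j : Fin s, f (e.1, i) (e.2, j)).sum := by
    intro l
    induction l with
    | nil => rfl
    | cons e l ih =>
      rw [List.flatMap_cons, List.map_append, List.sum_append, ih, List.map_cons, List.sum_cons]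
      congr 1
      have h2 : ∀ k : List (Fin s), ((k.flatMap fun i => (List.finRange s).map fun j =>
          (((e.1, i), (e.2, j)) : (Tor n × Fin s) × (Tor n × Fin s))).map
            fun e => f e.1 e.2).sum = (k.map fun i => ∑ j : Fin s, f (e.1, i) (e.2, j)).sum := by
        intro k
        induction k with
        | nil => rfl
        | cons i k ihk =>
          rw [List.flatMap_cons, List.map_append, List.sum_append, ihk, List.map_cons,
            List.sum_cons]
          congr 1
          rw [List.map_map, ← List.ofFn_eq_map, List.sum_ofFn]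
          rfl
      rw [h2, ← List.ofFn_eq_map, List.sum_ofFn]
  unfold interE
  rw [h1, edges, List.map_map, Finset.sum_map_toList]
  rfl

theorem intraE_map_sum {A : Type*} [AddCommMonoid A]
    (f : (Tor n × Fin s) → (Tor n × Fin s) → A) :
    ((intraE n s).map fun e => f e.1 e.2).sum =
      ∑ z ∈ (univ : Finset (Tor n × Fin s × Fin s)).filter (fun z => z.2.1 < z.2.2),
        f (z.1, z.2.1) (z.1, z.2.2) := by
  unfold intraE
  rw [List.map_map, Finset.sum_map_toList]
  rfl

theorem edgesS_map_sum {A : Type*} [AddCommMonoid A] (M : ℕ)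
    (f : (Tor n × Fin s) → (Tor n × Fin s) → A) :
    ((edgesS n s M).map fun e => f e.1 e.2).sum =
      ((interE n s).map fun e => f e.1 e.2).sum +
        M • ((intraE n s).map fun e => f e.1 e.2).sum := by
  unfold edgesS
  rw [List.map_append, List.sum_append]
  congr 1
  induction M with
  | zero => rw [List.replicate_zero, List.flatten_nil, List.map_nil, List.sum_nil, zero_smul]
  | succ M ih =>
    rw [List.replicate_succ, List.flatten_cons, List.map_append, List.sum_append, ih, succ_nsmul']

/-- Translation and permutation of the copies. -/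
def gS (a : Tor n) (π : Equiv.Perm (Fin s)) : (Tor n × Fin s) ≃ (Tor n × Fin s) :=
  (Equiv.addRight a).prodCongr π

omit [NeZero n] in
theorem gS_apply (a : Tor n) (π : Equiv.Perm (Fin s)) (x : Tor n) (i : Fin s) :
    gS a π (x, i) = (x + a, π i) := rfl

theorem interE_inv {A : Type*} [AddCommMonoid A] (a : Tor n) (π : Equiv.Perm (Fin s))
    (f : (Tor n × Fin s) → (Tor n × Fin s) → A) :
    ((interE n s).map fun e => f (gS a π e.1) (gS a π e.2)).sum =
      ((interE n s).map fun e => f e.1 e.2).sum := by
  rw [interE_map_sum, interE_map_sum (fun u v => f (gS a π u) (gS a π v))]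
  refine Fintype.sum_equiv ((Equiv.addRight a).prodCongr (Equiv.refl (Fin 3))) _ _ fun z => ?_
  refine Fintype.sum_equiv π _ _ fun i => ?_
  refine Fintype.sum_equiv π _ _ fun j => ?_
  rw [gS_apply, gS_apply]
  simp only [Equiv.prodCongr_apply, Prod.map, Equiv.coe_addRight, Equiv.refl_apply]
  rw [add_right_comm]

theorem intraE_two {A : Type*} [AddCommMonoid A]
    (f : (Tor n × Fin s) → (Tor n × Fin s) → A) (hf : ∀ u v, f u v = f v u) :
    ((intraE n s).map fun e => f e.1 e.2).sum + ((intraE n s).map fun e => f e.1 e.2).sum =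
      ∑ x : Tor n, ∑ i : Fin s, ∑ j : Fin s, if i ≠ j then f (x, i) (x, j) else 0 := by
  have h1 : ((intraE n s).map fun e => f e.1 e.2).sum =
      ∑ x : Tor n, ∑ i : Fin s, ∑ j : Fin s, if i < j then f (x, i) (x, j) else 0 := by
    rw [intraE_map_sum, Finset.sum_filter, Fintype.sum_prod_type]
    refine Finset.sum_congr rfl fun x _ => ?_
    rw [Fintype.sum_prod_type]
  have h2 : ((intraE n s).map fun e => f e.1 e.2).sum =
      ∑ x : Tor n, ∑ i : Fin s, ∑ j : Fin s, if j < i then f (x, i) (x, j) else 0 := by
    rw [h1]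
    refine Finset.sum_congr rfl fun x _ => ?_
    rw [Finset.sum_comm]
    refine Finset.sum_congr rfl fun i _ => Finset.sum_congr rfl fun j _ => ?_
    rw [hf]
  conv_lhs => rw [h1]
  rw [← h1]
  conv_lhs =>
    lhs
    rw [h1]
  conv_lhs =>
    rhs
    rw [h2]
  rw [← Finset.sum_add_distrib]
  refine Finset.sum_congr rfl fun x _ => ?_
  rw [← Finset.sum_add_distrib]
  refine Finset.sum_congr rfl fun i _ => ?_
  rw [← Finset.sum_add_distrib]
  refine Finset.sum_congr rfl fun j _ => ?_
  rcases lt_trichotomy i j with h | h | h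
  · rw [if_pos h, if_neg (not_lt.2 h.le), if_pos h.ne, add_zero]
  · rw [if_neg (by simp [h]), if_neg (by simp [h]), if_neg (by simp [h]), add_zero]
  · rw [if_pos h, if_neg (not_lt.2 h.le), if_pos h.ne', zero_add]

theorem intraE_inv (a : Tor n) (π : Equiv.Perm (Fin s)) {ι : Type*}
    (f : (Tor n × Fin s) → (Tor n × Fin s) → Matrix ι ι ℝ) (hf : ∀ u v, f u v = f v u) :
    ((intraE n s).map fun e => f (gS a π e.1) (gS a π e.2)).sum =
      ((intraE n s).map fun e => f e.1 e.2).sum := by
  have h1 := intraE_two f hf
  have h2 := intraE_two (fun u v => f (gS a π u) (gS a π v)) fun u v => hf _ _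
  have h3 : (∑ x : Tor n, ∑ i : Fin s, ∑ j : Fin s,
      if i ≠ j then f (gS a π (x, i)) (gS a π (x, j)) else 0) =
      ∑ x : Tor n, ∑ i : Fin s, ∑ j : Fin s, if i ≠ j then f (x, i) (x, j) else 0 := by
    refine Fintype.sum_equiv (Equiv.addRight a) _ _ fun x => ?_
    refine Fintype.sum_equiv π _ _ fun i => ?_
    refine Fintype.sum_equiv π _ _ fun j => ?_
    rw [gS_apply, gS_apply, Equiv.coe_addRight]
    by_cases hij : i = j
    · rw [if_neg (by simp [hij]), if_neg (by simp [hij])]
    · rw [if_pos hij, if_pos (fun h => hij (π.injective h))]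
  rw [h3, ← h1] at h2
  have h4 : ∀ A B : Matrix ι ι ℝ, A + A = B + B → A = B := by
    intro A B h
    ext i j
    have := congrFun (congrFun h i) j
    simp only [Matrix.add_apply] at this
    linarith
  exact h4 _ _ h2

theorem hM_comm {V : Type} [Fintype V] [DecidableEq V] (x y : V) : hM x y = hM y x := by
  unfold hM swapM
  rw [Equiv.swap_comm]

theorem rho_gS (M : ℕ) (β : ℝ) (h : Tor n × Fin s → ℝ) (a : Tor n) (π : Equiv.Perm (Fin s))
    (z : Tor n × Fin s) :
    rho (edgesS n s M) β (fun y => h (gS a π y)) z = rho (edgesS n s M) β h (gS a π z) := by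
  refine Trans.rho_comp (gS a π) (edgesS n s M) β h z ?_
  rw [edgesS_map_sum M (fun u v : Tor n × Fin s => hM (gS a π u) (gS a π v)),
    edgesS_map_sum M (fun u v : Tor n × Fin s => hM u v), interE_inv a π (fun u v => hM u v),
    intraE_inv a π (fun u v => hM u v) fun u v => hM_comm u v]

end TransS

theorem transStmtS (s : ℕ) : TransStmtS s := by
  intro n _ M β h x a i j
  have h1 := TransS.rho_gS M β (hS h) a (Equiv.swap i j) (x, i)
  rw [TransS.gS_apply, Equiv.swap_apply_left] at h1
  rw [← h1]
  rfl

end

end Vale.Agent.P361.LRO.GenS
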